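import Crest.Agent.R069.Defs

/-! An absolute value detecting a non-root of unity. -/

set_option autoImplicit false
open MeasureTheory Filter Topology
open scoped ENNReal ComplexConjugate

namespace Crest.Agent.R069
set_option linter.unusedSectionVars false

open IntermediateField in
theorem abv_adjoin_top {F K : Type*} [Field F] [Field K] [Algebra F K] (x : K)
    (hgen : Subfield.closure {x} = ⊤) : F⟮x⟯ = ⊤ := by
  rw [eq_top_iff]
  intro y _
  have h : Subfield.closure {x} ≤ F⟮x⟯.toSubfield :=
    Subfield.closure_le.2 (Set.singleton_subset_iff.2 (mem_adjoin_simple_self F x))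
  exact h (hgen ▸ Subfield.mem_top y)

open IntermediateField in
theorem abv_trans {F K : Type*} [Field F] [Field K] [Algebra F K] (x : K)
    (hgen : Subfield.closure {x} = ⊤) (hx : Transcendental F x) :
    ∃ v : AbsoluteValue K ℝ, v x ≠ 1 := by
  let e : RatFunc F ≃ₐ[F] K := (RatFunc.algEquivOfTranscendental x hx).trans
    ((equivOfEq (abv_adjoin_top x hgen)).trans topEquiv)
  have he : e RatFunc.X = x := by
    simp [e, RatFunc.algEquivOfTranscendental_X]
  have hb : (1 : NNReal) < 2 := by norm_num
  let w : AbsoluteValue (RatFunc F) ℝ := (Polynomial.idealX F).adicAbv hb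
  refine ⟨w.comp (f := (e.symm : K →+* RatFunc F)) e.symm.injective, ?_⟩
  have h1 : w (algebraMap (Polynomial F) (RatFunc F) Polynomial.X) < 1 := by
    rw [IsDedekindDomain.HeightOneSpectrum.adicAbv_coe_lt_one_iff, Polynomial.idealX_span]
    exact Ideal.mem_span_singleton_self _
  rw [RatFunc.algebraMap_X] at h1
  show w (e.symm x) ≠ 1
  rw [← he, e.symm_apply_apply]
  exact h1.ne

open IntermediateField in
theorem abv_finite {F K : Type*} [Field F] [Field K] [Algebra F K] (x : K)
    (hgen : Subfield.closure {x} = ⊤) (hx : IsAlgebraic F x) : FiniteDimensional F K := by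
  have := adjoin.finiteDimensional hx.isIntegral
  rw [abv_adjoin_top x hgen] at this
  exact (topEquiv (F := F) (E := K)).toLinearEquiv.finiteDimensional

theorem abv_nf {K : Type*} [Field K] [NumberField K] (x : K)
    (hr : ∀ k : ℕ, 0 < k → x ^ k ≠ 1) : ∃ v : AbsoluteValue K ℝ, v x ≠ 1 := by
  by_contra hc
  push Not at hc
  have hi : IsIntegral ℤ x := by
    obtain ⟨y, rfl⟩ := IsDedekindDomain.HeightOneSpectrum.mem_integers_of_valuation_le_one
      (R := NumberField.RingOfIntegers K) K x fun v => by
        have hb : (1 : NNReal) < 2 := by norm_num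
        have h1 : WithZeroMulInt.toNNReal (ne_zero_of_lt hb) (v.valuation K x) = 1 :=
          NNReal.coe_eq_one.1 (hc (v.adicAbv hb))
        exact (WithZeroMulInt.toNNReal_le_one_iff hb).1 h1.le
    exact y.isIntegral_coe
  obtain ⟨n, hn, h⟩ := NumberField.Embeddings.pow_eq_one_of_norm_eq_one K ℂ hi
    fun φ => hc (NumberField.place φ)
  exact hr n hn h

/-- Cases: `x` transcendental over the prime field `F` (then `K = Frac F[x]`, `x⁻¹ ∉ F[x]`; use
an adic valuation); `x` algebraic in characteristic `p` (then `K` is finite, so `x` is a root of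
unity); `K` a number field: a complex embedding with `|φ x| ≠ 1`, or else Kronecker
(`NumberField.Embeddings.pow_eq_one_of_norm_eq_one`) shows `x` is not integral, so some adic
valuation of `x` is `> 1` (`HeightOneSpectrum.mem_integers_of_valuation_le_one`, `adicAbv`). -/
theorem exists_abv {K : Type*} [Field K] (x : K) (hgen : Subfield.closure {x} = ⊤) (h0 : x ≠ 0)
    (hr : ∀ k : ℕ, 0 < k → x ^ k ≠ 1) : ∃ v : AbsoluteValue K ℝ, v x ≠ 1 := by
  obtain ⟨p, hp⟩ := CharP.exists K
  rcases CharP.char_is_prime_or_zero K p with hpp | rfl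
  · have := Fact.mk hpp
    let : Algebra (ZMod p) K := ZMod.algebra K p
    by_cases hx : IsAlgebraic (ZMod p) x
    · have := abv_finite x hgen hx
      have : Finite K := Module.finite_of_finite (ZMod p)
      let := Fintype.ofFinite K
      exact absurd (FiniteField.pow_card_sub_one_eq_one x h0)
        (hr _ (Nat.sub_pos_of_lt Fintype.one_lt_card))
    · exact abv_trans x hgen hx
  · have := CharP.charP_to_charZero K
    by_cases hx : IsAlgebraic ℚ x
    · have := abv_finite x hgen hx
      have : NumberField K := {}
      exact abv_nf x hr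
    · exact abv_trans x hgen hx

end Crest.Agent.R069
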