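import Crest.Agent.R069.Abv

/-! Lacunary relations force quasi-unipotence. -/

set_option autoImplicit false
open MeasureTheory Filter Topology
open scoped ENNReal ComplexConjugate

namespace Crest.Agent.R069
set_option linter.unusedSectionVars false

lemma alg_dominant {V : Type*} {r : ℝ} (hr : 0 < r) (hr1 : r ≠ 1) {ε : ℝ} (hε : 0 < ε) :
    ∃ R : ℕ, ∀ b : V → ℕ, (∀ i j, i ≠ j → (R : ℤ) ≤ |(b i : ℤ) - b j|) →
      ∀ S : Finset V, S.Nonempty → ∃ i0 ∈ S, ∀ j ∈ S, j ≠ i0 → r ^ b j ≤ ε * r ^ b i0 := by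
  rcases lt_or_gt_of_ne hr1 with h1 | h1
  · obtain ⟨R, hR⟩ := exists_pow_lt_of_lt_one hε h1
    refine ⟨R, fun b hb S hS => ?_⟩
    obtain ⟨i0, hi0, hmin⟩ := S.exists_min_image b hS
    refine ⟨i0, hi0, fun j hj hne => ?_⟩
    have h2 := hb j i0 hne
    have h3 := hmin j hj
    have h4 : R + b i0 ≤ b j := by
      rw [abs_of_nonneg (by omega)] at h2
      omega
    calc r ^ b j ≤ r ^ (R + b i0) := pow_le_pow_of_le_one hr.le h1.le h4
      _ = r ^ R * r ^ b i0 := pow_add _ _ _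
      _ ≤ ε * r ^ b i0 := by gcongr
  · obtain ⟨R, hR⟩ := pow_unbounded_of_one_lt ε⁻¹ h1
    refine ⟨R, fun b hb S hS => ?_⟩
    obtain ⟨i0, hi0, hmax⟩ := S.exists_max_image b hS
    refine ⟨i0, hi0, fun j hj hne => ?_⟩
    have h2 := hb j i0 hne
    have h3 := hmax j hj
    have h4 : R + b j ≤ b i0 := by
      rw [abs_of_nonpos (by omega)] at h2
      omega
    have h5 : 1 ≤ ε * r ^ R := by
      rw [← inv_le_iff_one_le_mul₀' hε]
      exact hR.le
    calc r ^ b j = 1 * r ^ b j := (one_mul _).symm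
      _ ≤ ε * r ^ R * r ^ b j := by gcongr
      _ = ε * r ^ (R + b j) := by rw [pow_add, mul_assoc]
      _ ≤ ε * r ^ b i0 := by gcongr; exact h1.le

/-- dominant term argument -/
lemma eq_zero_of_lacunary {K V : Type*} [Field K] [Fintype V] (v : AbsoluteValue K ℝ) {x : K}
    (h0 : x ≠ 0) (hx : v x ≠ 1) (c : V → K)
    (h : ∀ R : ℕ, ∃ b : V → ℕ, (∀ i j, i ≠ j → (R : ℤ) ≤ |(b i : ℤ) - b j|) ∧
      ∑ i, x ^ b i * c i = 0) : ∀ i, c i = 0 := by
  classical
  by_contra hc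
  push Not at hc
  let S : Finset V := Finset.univ.filter fun i => c i ≠ 0
  have hS : S.Nonempty := let ⟨i, hi⟩ := hc; ⟨i, by simp [S, hi]⟩
  obtain ⟨i1, hi1, hmin⟩ := S.exists_min_image (fun i => v (c i)) hS
  have hpos : 0 < v (c i1) := v.pos (by simpa [S] using hi1)
  set A : ℝ := ∑ i, v (c i) with hA
  have hA0 : 0 ≤ A := Finset.sum_nonneg fun i _ => v.nonneg _
  have hvx : 0 < v x := v.pos h0
  obtain ⟨R, hR⟩ := alg_dominant (V := V) hvx hx (ε := v (c i1) / (A + 1)) (by positivity)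
  obtain ⟨b, hb, e⟩ := h R
  obtain ⟨i0, hi0, hdom⟩ := hR b hb S hS
  rw [← Finset.add_sum_erase _ _ (Finset.mem_univ i0), add_eq_zero_iff_eq_neg] at e
  have h1 : v x ^ b i0 * v (c i0) ≤
      ∑ j ∈ Finset.univ.erase i0, v (c i1) / (A + 1) * v x ^ b i0 * v (c j) := by
    rw [show v x ^ b i0 * v (c i0) = v (x ^ b i0 * c i0) by rw [map_mul, map_pow], e, v.map_neg]
    refine (v.sum_le _ _).trans (Finset.sum_le_sum fun j hj => ?_)
    rw [map_mul, map_pow]
    by_cases h2 : c j = 0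
    · simp [h2]
    · exact mul_le_mul_of_nonneg_right
        (hdom j (by simp [S, h2]) (Finset.ne_of_mem_erase hj)) (v.nonneg _)
  have h2 : ∑ j ∈ Finset.univ.erase i0, v (c j) ≤ A :=
    Finset.sum_le_sum_of_subset_of_nonneg (Finset.erase_subset _ _) fun j _ _ => v.nonneg _
  rw [← Finset.mul_sum] at h1
  have h3 : v (c i1) / (A + 1) * v x ^ b i0 * ∑ j ∈ Finset.univ.erase i0, v (c j) <
      v (c i1) / (A + 1) * v x ^ b i0 * (A + 1) := by
    refine mul_lt_mul_of_pos_left (by linarith) (by positivity)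
  have h4 : v (c i1) / (A + 1) * v x ^ b i0 * (A + 1) = v x ^ b i0 * v (c i1) := by
    field_simp
  have h5 : v x ^ b i0 * v (c i1) ≤ v x ^ b i0 * v (c i0) :=
    mul_le_mul_of_nonneg_left (hmin i0 hi0) (by positivity)
  linarith

open Polynomial in
lemma alg_gen {K : Type*} [Field K] (φ : ℤ[X] →+* K) (hs : ∀ z : K, ∃ p q : ℤ[X], φ p / φ q = z) :
    Subfield.closure {φ X} = ⊤ := by
  have h1 : ∀ p : ℤ[X], φ p ∈ Subfield.closure {φ X} := by
    intro p
    induction p using Polynomial.induction_on' with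
    | add p q hp hq => rw [map_add]; exact add_mem hp hq
    | monomial k a =>
      rw [← C_mul_X_pow_eq_monomial, map_mul, map_pow, eq_intCast, map_intCast]
      exact mul_mem (intCast_mem _ _) (pow_mem (Subfield.subset_closure (Set.mem_singleton _)) _)
  refine eq_top_iff.2 fun z _ => ?_
  obtain ⟨p, q, rfl⟩ := hs z
  exact div_mem (h1 p) (h1 q)

open TensorProduct in
lemma alg_tensor {A K W V : Type*} [CommRing A] [Field K] [Algebra A K] [AddCommGroup W]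
    [Module A W] [Fintype V] (t : A) (v : AbsoluteValue K ℝ) (h0 : algebraMap A K t ≠ 0)
    (hv : v (algebraMap A K t) ≠ 1) (w : V → W) (hw : Submodule.span A (Set.range w) = ⊤)
    (h : ∀ R : ℕ, ∃ b : V → ℕ, (∀ i j, i ≠ j → (R : ℤ) ≤ |(b i : ℤ) - b j|) ∧
      ∑ i, (t ^ b i) • w i = 0) (z : K ⊗[A] W) : z = 0 := by
  have h1 : ∀ i, ((1 : K) ⊗ₜ[A] w i) = 0 := by
    intro i
    rw [← Module.forall_dual_apply_eq_zero_iff K]
    intro f
    refine eq_zero_of_lacunary v h0 hv (fun i => f (1 ⊗ₜ[A] w i)) (fun R => ?_) i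
    obtain ⟨b, hb, e⟩ := h R
    refine ⟨b, hb, ?_⟩
    have e2 := congrArg (fun t : W => f ((1 : K) ⊗ₜ[A] t)) e
    simp only [tmul_sum, map_sum, tmul_zero, map_zero] at e2
    rw [← e2]
    refine Finset.sum_congr rfl fun i _ => ?_
    rw [tmul_smul, ← algebraMap_smul K, map_smul, map_pow, smul_eq_mul]
  have h2 : ∀ t : W, ((1 : K) ⊗ₜ[A] t) = 0 := by
    intro t
    have ht : t ∈ Submodule.span A (Set.range w) := hw ▸ Submodule.mem_top
    induction ht using Submodule.span_induction with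
    | mem t ht => obtain ⟨i, rfl⟩ := ht; exact h1 i
    | zero => exact tmul_zero _ _
    | add t t' ht ht' e e' => rw [tmul_add, e, e', add_zero]
    | smul a t ht e => rw [tmul_smul, e, smul_zero]
  induction z using TensorProduct.induction_on with
  | zero => rfl
  | tmul k t => rw [← mul_one k, ← smul_eq_mul, ← smul_tmul', h2, smul_zero]
  | add z z' e e' => rw [e, e', add_zero]

open Polynomial in
/-- divisors of some `(X^K - 1)^m X^a` -/
def algS : Submonoid ℤ[X] where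
  carrier := {p | ∃ a K m : ℕ, 0 < K ∧ p ∣ (X ^ K - 1) ^ m * X ^ a}
  one_mem' := ⟨0, 1, 0, one_pos, one_dvd _⟩
  mul_mem' := by
    rintro p q ⟨a, K, m, hK, hp⟩ ⟨a', K', m', hK', hq⟩
    refine ⟨a + a', K * K', m + m', Nat.mul_pos hK hK', (mul_dvd_mul hp hq).trans ?_⟩
    have h1 : (X ^ K - 1 : ℤ[X]) ∣ X ^ (K * K') - 1 := by
      simpa [pow_mul] using sub_dvd_pow_sub_pow (X ^ K : ℤ[X]) 1 K'
    have h2 : (X ^ K' - 1 : ℤ[X]) ∣ X ^ (K * K') - 1 := by
      simpa [pow_mul'] using sub_dvd_pow_sub_pow (X ^ K' : ℤ[X]) 1 K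
    rw [pow_add, pow_add, mul_mul_mul_comm]
    exact mul_dvd_mul (mul_dvd_mul (pow_dvd_pow_of_dvd h1 _) (pow_dvd_pow_of_dvd h2 _)) dvd_rfl

open Polynomial in
lemma alg_abv (𝔭 : Ideal ℤ[X]) [𝔭.IsPrime] (hd : Disjoint (𝔭 : Set ℤ[X]) algS) :
    algebraMap ℤ[X] 𝔭.ResidueField X ≠ 0 ∧
      ∃ v : AbsoluteValue 𝔭.ResidueField ℝ, v (algebraMap ℤ[X] 𝔭.ResidueField X) ≠ 1 := by
  have h0 : algebraMap ℤ[X] 𝔭.ResidueField X ≠ 0 := fun e =>
    Set.disjoint_left.1 hd (Ideal.algebraMap_residueField_eq_zero.1 e) ⟨1, 1, 0, one_pos, by simp⟩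
  refine ⟨h0, exists_abv _ (alg_gen _ fun z => ?_) h0 fun k hk e => ?_⟩
  · obtain ⟨y1, y2, -, rfl⟩ := IsFractionRing.div_surjective (A := ℤ[X] ⧸ 𝔭) z
    obtain ⟨y1, rfl⟩ := Ideal.Quotient.mk_surjective y1
    obtain ⟨y2, rfl⟩ := Ideal.Quotient.mk_surjective y2
    exact ⟨y1, y2, rfl⟩
  · refine Set.disjoint_left.1 hd (Ideal.algebraMap_residueField_eq_zero.1
      (show algebraMap ℤ[X] 𝔭.ResidueField (X ^ k - 1) = 0 from ?_)) ⟨0, k, 1, hk, by simp⟩
    rw [map_sub, map_pow, map_one, e, sub_self]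

open Polynomial TensorProduct in
lemma alg_core {W V : Type*} [AddCommGroup W] [Module ℤ[X] W] [Fintype V] (w : V → W)
    (h : ∀ R : ℕ, ∃ b : V → ℕ, (∀ i j, i ≠ j → (R : ℤ) ≤ |(b i : ℤ) - b j|) ∧
      ∑ i, (X ^ b i : ℤ[X]) • w i = 0) :
    ∃ a K m : ℕ, 0 < K ∧ ∀ i, ((X ^ K - 1) ^ m * X ^ a : ℤ[X]) • w i = 0 := by
  let N : Submodule ℤ[X] W := Submodule.span ℤ[X] (Set.range w)
  have : Module.Finite ℤ[X] N := Module.Finite.span_of_finite _ (Set.finite_range w)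
  let n : V → N := fun i => ⟨w i, Submodule.subset_span ⟨i, rfl⟩⟩
  by_contra hc
  have hdis : Disjoint (Module.annihilator ℤ[X] N : Set ℤ[X]) algS := by
    rw [Set.disjoint_left]
    rintro p hp ⟨a, K, m, hK, q, hq⟩
    refine hc ⟨a, K, m, hK, fun i => ?_⟩
    have := congrArg Subtype.val (Module.mem_annihilator.1 hp (n i))
    rw [hq, mul_comm, mul_smul]
    exact (congrArg (q • ·) this).trans (smul_zero _)
  obtain ⟨𝔭, hp, hle, hd⟩ := Ideal.exists_le_prime_disjoint _ algS hdis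
  have hnt := (Module.mem_support_iff_nontrivial_residueField_tensorProduct (M := N) ⟨𝔭, hp⟩).1
    (Module.mem_support_iff_of_finite.2 hle)
  obtain ⟨h0, v, hv⟩ := alg_abv 𝔭 hd
  obtain ⟨z, hz⟩ := exists_ne (0 : 𝔭.ResidueField ⊗[ℤ[X]] N)
  refine hz (alg_tensor X v h0 hv n (Submodule.span_range_subtype_eq_top_iff N _ |>.2 rfl)
    (fun R => ?_) z)
  obtain ⟨b, hb, e⟩ := h R
  exact ⟨b, hb, Subtype.ext (by simpa [n] using e)⟩

/-- View `M` as a `ℤ[X]`-module (`Module.AEval'`), `N` the span of the `σ i`, `S` the submonoid of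
divisors of some `X^a (X^K - 1)^m` (`K > 0`).  If no element of `S` kills `N`, take a prime
`𝔭 ⊇ ann N` disjoint from `S` (`Ideal.exists_le_prime_disjoint`), and a nonzero `ℤ[X]`-linear map
`φ : N → K = Frac (ℤ[X]/𝔭)` (Nakayama / support of a finite module); `c i = φ (σ i)`,
`x` = image of `X`; `exists_abv` and `eq_zero_of_lacunary` give a contradiction. -/
theorem quasi_unipotent_of_lacunary {M V : Type*} [AddCommGroup M] [Fintype V]
    (τ : Module.End ℤ M) (σ : V → M)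
    (h : ∀ R : ℕ, ∃ b : V → ℕ, (∀ i j, i ≠ j → (R : ℤ) ≤ |(b i : ℤ) - b j|) ∧
      ∑ i, (τ ^ b i) (σ i) = 0) :
    ∃ a K m : ℕ, 0 < K ∧ ∀ i, ((τ ^ K - 1) ^ m) ((τ ^ a) (σ i)) = 0 := by
  obtain ⟨a, K, m, hK, e⟩ := alg_core (fun i => Module.AEval'.of τ (σ i)) fun R => by
    obtain ⟨b, hb, e⟩ := h R
    refine ⟨b, hb, ?_⟩
    simp only [Module.AEval'.X_pow_smul_of]
    rw [← map_sum]
    exact (congrArg _ e).trans (map_zero _)
  refine ⟨a, K, m, hK, fun i => ?_⟩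
  have := e i
  rw [← Module.AEval.of_aeval_smul, LinearEquiv.map_eq_zero_iff] at this
  simpa using this

end Crest.Agent.R069
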