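import Crest.Agent.R069.CN

/-! Two rows at the top scale are conditionally independent given the base. -/

set_option autoImplicit false
open MeasureTheory Filter Topology
open scoped ENNReal ComplexConjugate

namespace Crest.Agent.R069
set_option linter.unusedSectionVars false

variable {L V A κ : Type} [AddCommGroup L] [Countable L] [Fintype V] [DecidableEq V]
  [MeasurableSpace A] [Fintype A] [Nonempty A] [DiscreteMeasurableSpace A]
  {v0 : V} {vec : V → L} {P : Measure (Gam L → A)} [IsProbabilityMeasure P]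
  {𝒰 : Ultrafilter κ} {b : κ → V → ℕ}

/-- `top` for two slots -/
lemma Arr.top_two (h : Arr v0 vec P 𝒰 b) (t : ℚ) {l0 l1 : V} (hl : l0 ≠ l1) :
    Ind P (cyl A (shS (atq t (vec l0)) (GamOn L (Set.Iio t))))
      (cyl A (shS (atq t (vec l1)) (GamOn L (Set.Iio t)))) := by
  intro U H hU hH
  obtain ⟨j0, hj0⟩ : ∃ j0 : V, j0 ∉ ({l0, l1} : Finset V) := by
    by_contra hc
    push Not at hc
    have h1 : (Finset.univ : Finset V) ⊆ {l0, l1} := fun j _ => hc j
    have h2 := Finset.card_le_card h1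
    have h3 : ({l0, l1} : Finset V).card ≤ 2 := Finset.card_le_two
    have h4 := h.card
    rw [Finset.card_univ] at h2
    omega
  simp only [Finset.mem_insert, Finset.mem_singleton, not_or] at hj0
  let W : V → (Gam L → A) → ℂ := fun l => if l = l0 then U else if l = l1 then H else fun _ => 1
  have key : ∀ f : V → ℂ, (∀ l, l ≠ l0 → l ≠ l1 → f l = 1) →
      ∏ l ∈ Finset.univ.erase j0, f l = f l0 * f l1 := by
    intro f hf
    rw [← Finset.prod_pair hl]
    symm
    refine Finset.prod_subset (fun l hl' => ?_) (fun l _ hl' => ?_)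
    · simp only [Finset.mem_insert, Finset.mem_singleton] at hl'
      rcases hl' with rfl | rfl
      · simpa using Ne.symm hj0.1
      · simpa using Ne.symm hj0.2
    · simp only [Finset.mem_insert, Finset.mem_singleton, not_or] at hl'
      exact hf l hl'.1 hl'.2
  have := h.top t j0 0 W fun l _ => by
    rw [add_zero]
    by_cases h0 : l = l0
    · subst h0; simpa [W] using hU
    · by_cases h1 : l = l1
      · subst h1; simpa [W, h0] using hH
      · simpa [W, h0, h1] using Bdd.const (μ := P) 1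
  rw [key _ (fun l h0 h1 => by simp [W, h0, h1])] at this
  have e : ∀ ω, ∏ l ∈ Finset.univ.erase j0, W l ω = W l0 ω * W l1 ω := fun ω =>
    key (fun l => W l ω) (fun l h0 h1 => by simp [W, h0, h1])
  simp_rw [e] at this
  simpa [W, hl.symm] using this

lemma avg_norm_le {Ω : Type*} {m0 : MeasurableSpace Ω} {μ : Measure Ω} {f W : Ω → ℂ} {c : ℝ}
    (hf : Integrable f μ) (hW : ∀ ω, ‖W ω‖ ≤ c) :
    ‖∫ ω, f ω * W ω ∂μ‖ ≤ c * ∫ ω, ‖f ω‖ ∂μ := by
  rw [← integral_const_mul]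
  refine norm_integral_le_of_norm_le (hf.norm.const_mul c) (Eventually.of_forall fun ω => ?_)
  rw [norm_mul, mul_comm]
  exact mul_le_mul_of_nonneg_right (hW ω) (norm_nonneg _)

lemma avg_push {I0 : Set ℚ} {m t r : ℚ} (hmt : m < t) (hr : r ∈ I0) (x : L)
    {γ : Gam L} (hγ : γ ∈ shS (atq t x) (GamOn L (insert m I0))) :
    push (Function.update id m r) γ ∈ shS (atq t x) (GamOn L I0) := by
  have e : push (Function.update id m r) (atq t x) = atq t x := by
    rw [push_atq, Function.update_of_ne hmt.ne']; rfl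
  rw [mem_shS, ← e, ← push_sub]
  refine push_mem_GamOn hγ fun q hq => ?_
  by_cases hqm : q = m
  · subst hqm; simpa using hr
  · rw [Function.update_of_ne hqm]
    exact hq.resolve_left hqm

lemma avg_core (h : Arr v0 vec P 𝒰 b) {I0 : Set ℚ} {m t : ℚ} (hmt : m < t)
    (hI : I0 ⊆ Set.Iio t) (hm : m ∉ I0) (hd : ∀ a < m, ∃ r ∈ I0, a < r ∧ r < m) {l0 l1 : V}
    (hl : l0 ≠ l1) {U u v : (Gam L → A) → ℂ}
    (hU : Cyl (shS (atq t (vec l0)) (GamOn L (insert m I0))) U)
    (hu : Cyl (shS (atq t (vec l1)) (GamOn L (insert m I0))) u)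
    (hv : Cyl (GamOn L (insert t I0)) v) :
    ∫ ω, v ω * (u ω * (U ω - (P[U|cyl A (shS (atq t (vec l0)) (GamOn L I0))]) ω)) ∂P = 0 := by
  classical
  set ρ := P[U|cyl A (shS (atq t (vec l0)) (GamOn L I0))] with hρ
  obtain ⟨C0, hC0⟩ := hU.bd.2
  obtain ⟨Cu, hCu⟩ := hu.bd.2
  obtain ⟨Cv, hCv⟩ := hv.bd.2
  set C := max C0 0 with hC
  have hC' : 0 ≤ C := le_max_right _ _
  have hUC : ∀ ω, ‖U ω‖ ≤ C := fun ω => (hC0 ω).trans (le_max_left _ _)
  have ω0 : Gam L → A := fun _ => Classical.arbitrary A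
  have hCu0 : 0 ≤ Cu := (norm_nonneg _).trans (hCu ω0)
  have hCv0 : 0 ≤ Cv := (norm_nonneg _).trans (hCv ω0)
  have bU : Bdd P MeasurableSpace.pi U := hU.bd.bdd.mono (cyl_le _)
  have bu : Bdd P MeasurableSpace.pi u := hu.bd.bdd.mono (cyl_le _)
  have bv : Bdd P MeasurableSpace.pi v := hv.bd.bdd.mono (cyl_le _)
  have bρ : Bdd P MeasurableSpace.pi ρ := bU.condExp.mono (cyl_le _)
  have hsub : insert m I0 ⊆ Set.Iio t := Set.insert_subset hmt hI
  have main : ∀ ε : ℝ, 0 < ε → ε ≤ 1 → ‖∫ ω, v ω * (u ω * (U ω - ρ ω)) ∂P‖ ^ 2 ≤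
      (2 * ((2 * C) * (Cu * Cu) * Cv ^ 2) + 2 * (Cu * Cv) ^ 2) * ε := by
    intro ε hε hε1
    obtain ⟨Y, hY, hYC, hYε⟩ := approx_cyl (P := P) (S := shS (atq t (vec l0)) (GamOn L I0))
      (W := ρ) stronglyMeasurable_condExp.aestronglyMeasurable hC'
      (ae_bdd_norm_condExp_of_ae_bdd_norm (Eventually.of_forall hUC)) hε
    have bY : Bdd P MeasurableSpace.pi Y := hY.bd.bdd.mono (cyl_le _)
    have hD : Cyl (shS (atq t (vec l0)) (GamOn L (insert m I0))) fun ω => U ω - Y ω :=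
      hU.sub (hY.mono (shS_mono _ (GamOn_mono (Set.subset_insert _ _))))
    have hDC : ∀ ω, ‖U ω - Y ω‖ ≤ 2 * C := fun ω =>
      (norm_sub_le _ _).trans (by linarith [hUC ω, hYC ω])
    obtain ⟨S0, hS0, bD⟩ := id hD
    obtain ⟨S1, hS1, bu'⟩ := id hu
    obtain ⟨S2, hS2, bv'⟩ := id hv
    obtain ⟨K, hK, -⟩ := exists_scales (S0 ∪ S1 ∪ S2)
    obtain ⟨a, ha, hgap⟩ := exists_gap K m
    obtain ⟨r, hr, har, hrm⟩ := hd a ha
    have hF : Bd (cyl A (GamOn L (K : Set ℚ))) fun ω => (U ω - Y ω) * u ω :=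
      (bD.mono (cyl_mono fun γ hγ => hK γ (by simp [Finset.mem_coe.1 hγ]))).mul
        (bu'.mono (cyl_mono fun γ hγ => hK γ (by simp [Finset.mem_coe.1 hγ])))
    have hG : Bd (cyl A (GamOn L ((K : Set ℚ) \ {m}))) v :=
      bv'.mono (cyl_mono fun γ hγ q hq => ⟨hK γ (by simp [Finset.mem_coe.1 hγ]) q hq, fun e => by
        have h1 := hS2 hγ q hq
        rw [Set.mem_singleton_iff.1 e] at h1
        rcases h1 with h1 | h1
        · exact hmt.ne h1
        · exact hm h1⟩)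
    have x1 := h.xcs hrm (fun k hk hkm => (hgap k hk hkm).trans_lt har) hF hG
    set φ : ℚ → ℚ := Function.update id m r with hφ
    have bDR : Bd (cyl A (shS (atq t (vec l0)) (GamOn L I0)))
        fun ω => conj (U (Rm φ ω) - Y (Rm φ ω)) :=
      (hD.bd.comp (measurable_Rm_cyl φ fun γ hγ => avg_push hmt hr _ hγ)).conj
    have buR : Bd (cyl A (shS (atq t (vec l1)) (GamOn L I0))) fun ω => conj (u (Rm φ ω)) :=
      (hu.bd.comp (measurable_Rm_cyl φ fun γ hγ => avg_push hmt hr _ hγ)).conj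
    have x2 := h.top_two t hl (fun ω => (U ω - Y ω) * conj (U (Rm φ ω) - Y (Rm φ ω)))
      (fun ω => u ω * conj (u (Rm φ ω)))
      ((hD.bd.mono (cyl_mono (shS_mono _ (GamOn_mono hsub)))).mul
        (bDR.mono (cyl_mono (shS_mono _ (GamOn_mono hI))))).bdd
      ((hu.bd.mono (cyl_mono (shS_mono _ (GamOn_mono hsub)))).mul
        (buR.mono (cyl_mono (shS_mono _ (GamOn_mono hI))))).bdd
    have bW : Bdd P MeasurableSpace.pi fun ω => conj (U (Rm φ ω) - Y (Rm φ ω)) :=
      bDR.bdd.mono (cyl_le _)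
    have x3 : ∫ ω, (U ω - Y ω) * conj (U (Rm φ ω) - Y (Rm φ ω)) ∂P =
        ∫ ω, (ρ ω - Y ω) * conj (U (Rm φ ω) - Y (Rm φ ω)) ∂P := by
      simp_rw [sub_mul]
      rw [integral_sub ((bU.mul bW).integrable le_rfl) ((bY.mul bW).integrable le_rfl),
        integral_sub ((bρ.mul bW).integrable le_rfl) ((bY.mul bW).integrable le_rfl),
        integral_condExp_mul (cyl_le _) (bU.integrable le_rfl) bDR.bdd]
    have iρY : Integrable (fun ω => ρ ω - Y ω) P := (bρ.sub bY).integrable le_rfl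
    have x4 : ‖∫ ω, (U ω - Y ω) * conj (U (Rm φ ω) - Y (Rm φ ω)) ∂P‖ ≤ 2 * C * ε := by
      rw [x3]
      exact (avg_norm_le iρY fun ω => by rw [RCLike.norm_conj]; exact hDC _).trans
        (mul_le_mul_of_nonneg_left hYε.le (by positivity))
    have x5 : ‖∫ ω, u ω * conj (u (Rm φ ω)) ∂P‖ ≤ Cu * Cu := by
      have := norm_integral_le_of_norm_le_const (μ := P) (C := Cu * Cu)
        (f := fun ω => u ω * conj (u (Rm φ ω))) (Eventually.of_forall fun ω => by
          rw [norm_mul, RCLike.norm_conj]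
          exact mul_le_mul (hCu _) (hCu _) (norm_nonneg _) hCu0)
      simpa using this
    have x6 : ∫ ω, ‖v ω‖ ^ 2 ∂P ≤ Cv ^ 2 := by
      have := norm_integral_le_of_norm_le_const (μ := P) (C := Cv ^ 2)
        (f := fun ω => ‖v ω‖ ^ 2) (Eventually.of_forall fun ω => by
          rw [norm_pow, norm_norm]
          exact pow_le_pow_left₀ (norm_nonneg _) (hCv _) 2)
      exact (le_abs_self _).trans (by simpa using this)
    have x7 : ‖∫ ω, (U ω - Y ω) * u ω * v ω ∂P‖ ^ 2 ≤ 2 * C * ε * (Cu * Cu) * Cv ^ 2 := by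
      refine x1.trans (mul_le_mul ?_ x6 (integral_nonneg fun ω => by positivity) (by positivity))
      have : ∫ ω, (U ω - Y ω) * u ω * conj ((U (Rm φ ω) - Y (Rm φ ω)) * u (Rm φ ω)) ∂P =
          ∫ ω, (U ω - Y ω) * conj (U (Rm φ ω) - Y (Rm φ ω)) * (u ω * conj (u (Rm φ ω))) ∂P :=
        integral_congr_ae (Eventually.of_forall fun ω => by simp only [map_mul]; ring)
      rw [this, x2, norm_mul]
      exact mul_le_mul x4 x5 (norm_nonneg _) (by positivity)
    have x8 : ‖∫ ω, (ρ ω - Y ω) * (u ω * v ω) ∂P‖ ≤ Cu * Cv * ε :=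
      (avg_norm_le iρY fun ω => by
        rw [norm_mul]; exact mul_le_mul (hCu _) (hCv _) (norm_nonneg _) hCu0).trans
        (mul_le_mul_of_nonneg_left hYε.le (by positivity))
    have x9 : ∫ ω, v ω * (u ω * (U ω - ρ ω)) ∂P =
        ∫ ω, (U ω - Y ω) * u ω * v ω ∂P - ∫ ω, (ρ ω - Y ω) * (u ω * v ω) ∂P := by
      rw [← integral_sub ((((bU.sub bY).mul bu).mul bv).integrable le_rfl)
        (((bρ.sub bY).mul (bu.mul bv)).integrable le_rfl)]
      exact integral_congr_ae (Eventually.of_forall fun ω => by ring)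
    rw [x9]
    set p := ∫ ω, (U ω - Y ω) * u ω * v ω ∂P
    set q := ∫ ω, (ρ ω - Y ω) * (u ω * v ω) ∂P
    have y1 : ‖p - q‖ ^ 2 ≤ (‖p‖ + ‖q‖) ^ 2 := pow_le_pow_left₀ (norm_nonneg _) (norm_sub_le _ _) 2
    have y2 : ‖q‖ ^ 2 ≤ (Cu * Cv * ε) ^ 2 := pow_le_pow_left₀ (norm_nonneg _) x8 2
    have y3 : (Cu * Cv * ε) ^ 2 ≤ (Cu * Cv) ^ 2 * ε := by
      rw [mul_pow]
      exact mul_le_mul_of_nonneg_left (by nlinarith) (by positivity)
    nlinarith [sq_nonneg (‖p‖ - ‖q‖)]
  set Kc := 2 * ((2 * C) * (Cu * Cu) * Cv ^ 2) + 2 * (Cu * Cv) ^ 2 with hKc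
  have hK0 : 0 ≤ Kc := by positivity
  have : ‖∫ ω, v ω * (u ω * (U ω - ρ ω)) ∂P‖ ^ 2 ≤ 0 := by
    refine le_of_forall_pos_le_add fun δ hδ => ?_
    have h1 := main (min 1 (δ / (Kc + 1))) (lt_min one_pos (by positivity)) (min_le_left _ _)
    have h2 : Kc * min 1 (δ / (Kc + 1)) ≤ Kc * (δ / (Kc + 1)) :=
      mul_le_mul_of_nonneg_left (min_le_right _ _) hK0
    have h3 : Kc * (δ / (Kc + 1)) ≤ δ := by
      rw [mul_div_assoc', div_le_iff₀ (by positivity)]; nlinarith
    linarith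
  exact norm_eq_zero.1 (pow_eq_zero_iff two_ne_zero |>.1 (le_antisymm this (by positivity)))

/-- Reduce (`CI.of_cyl_left`, `cyl_union`, `ext_sup`, `ext_cyl`) to cylinder functions `U0` (row
`l0`), `U1` (row `l1`), `R` (on `insert t I0`), and show `∫ (U0 - ρU0) U1 R = 0`.  Approximate
`ρ U0` in `L²` by a cylinder function `Y` (`approx_cyl_sq`), `D = U0 - Y`.  Apply `xcs` with
`q = m`, `r ∈ I0` just below `m`, `F = D U1`, `G = R`; by `top_two` the correlation factors as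
`∫ D conj (D∘Rm) · ∫ U1 conj (U1∘Rm)`, and `D∘Rm` is measurable for the middle σ-algebra, so
`‖∫ D conj (D∘Rm)‖ = ‖∫ (ρU0 - Y) conj (D∘Rm)‖ ≤ ε ‖D‖₂`. -/
theorem Arr.avg (h : Arr v0 vec P 𝒰 b) {I0 : Set ℚ} {m t : ℚ} (hmt : m < t)
    (hI : I0 ⊆ Set.Iio t) (hm : m ∉ I0) (hd : ∀ a < m, ∃ r ∈ I0, a < r ∧ r < m) {l0 l1 : V}
    (hl : l0 ≠ l1) :
    CI P (cyl A (shS (atq t (vec l0)) (GamOn L (insert m I0))))
      (cyl A (shS (atq t (vec l0)) (GamOn L I0)))
      (cyl A (shS (atq t (vec l1)) (GamOn L (insert m I0)) ∪ GamOn L (insert t I0))) := by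
  refine CI.of_cyl_left (cyl_le _) (cyl_le _) fun U H hU hH => ?_
  set ρ := P[U|cyl A (shS (atq t (vec l0)) (GamOn L I0))] with hρ
  have bU : Bdd P MeasurableSpace.pi U := hU.bd.bdd.mono (cyl_le _)
  have bρ : Bdd P MeasurableSpace.pi ρ := bU.condExp.mono (cyl_le _)
  have bE := bU.sub bρ
  have bH : Bdd P MeasurableSpace.pi H := hH.mono (cyl_le _)
  rw [cyl_union] at hH
  have := ext_sup (cyl_le _) (cyl_le _) (bE.integrable le_rfl) (fun u v hu hv => by
    have bv : Bdd P MeasurableSpace.pi v := hv.mono (cyl_le _)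
    have h1 := ext_cyl ((bv.mul bE).integrable le_rfl) (fun u' hu' => by
      have bu : Bdd P MeasurableSpace.pi u' := hu'.bd.bdd.mono (cyl_le _)
      have h2 := ext_cyl ((bu.mul bE).integrable le_rfl)
        (fun v' hv' => avg_core h hmt hI hm hd hl hU hu' hv') v hv
      rw [← h2]
      exact integral_congr_ae (Eventually.of_forall fun ω => by ring)) u hu
    rw [← h1]
    exact integral_congr_ae (Eventually.of_forall fun ω => by ring)) H hH
  rw [← sub_eq_zero, ← integral_sub ((bU.mul bH).integrable le_rfl)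
    ((bρ.mul bH).integrable le_rfl), ← this]
  exact integral_congr_ae (Eventually.of_forall fun ω => by ring)

end Crest.Agent.R069
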