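import Crest.Agent.R069.CN

/-! The thin coordinates are independent of the environment (box norm argument). -/

set_option autoImplicit false
open MeasureTheory Filter Topology
open scoped ENNReal ComplexConjugate

namespace Crest.Agent.R069
set_option linter.unusedSectionVars false

variable {L V A κ : Type} [AddCommGroup L] [Countable L] [Fintype V] [DecidableEq V]
  [MeasurableSpace A] [Fintype A] [Nonempty A] [DiscreteMeasurableSpace A]
  {v0 : V} {vec : V → L} {P : Measure (Gam L → A)} [IsProbabilityMeasure P]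
  {𝒰 : Ultrafilter κ} {b : κ → V → ℕ}

/-- Thin functions placed at distinct admissible positions are independent.  Induction on `K`
removing its maximum `t` (`Finset.induction_on_max`): group the positions by their value
`vec l - vec (c t).1` at `t` (`Finset.prod_fiberwise`), apply `top` with `j0 = (c t).2`,
`x = -vec (c t).1`, and shift each group back (`integral_sh`, `Finsupp.erase`). -/
theorem Arr.box_base (h : Arr v0 vec P 𝒰 b) (K : Finset ℚ) (c : ℚ → V × V) {ι : Type}
    (s : Finset ι) (p : ι → ℚ →₀ L) (hp : Set.InjOn p s)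
    (hsupp : ∀ i ∈ s, ∀ q, p i q ≠ 0 → q ∈ K)
    (hadm : ∀ i ∈ s, ∀ r ∈ K, ∃ l, l ≠ (c r).2 ∧ p i r = vec l - vec (c r).1)
    (U : ι → (Gam L → A) → ℂ) (hU : ∀ i ∈ s, Bd (cyl A (GamOn L ∅)) (U i)) :
    ∫ ω, ∏ i ∈ s, U i (sh ((0 : ℤ), p i) ω) ∂P = ∏ i ∈ s, ∫ ω, U i ω ∂P := by
  classical
  induction K using Finset.induction_on_max generalizing s p with
  | empty =>
    have h0 : ∀ i ∈ s, p i = 0 := fun i hi => Finsupp.ext fun q => by
      by_contra hq
      simpa using hsupp i hi q hq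
    rcases s.eq_empty_or_nonempty with rfl | ⟨i, hi⟩
    · simp
    · have : s = {i} := Finset.eq_singleton_iff_unique_mem.2
        ⟨hi, fun j hj => hp hj hi (by rw [h0 j hj, h0 i hi])⟩
      subst this
      simp only [Finset.prod_singleton]
      exact integral_sh h.inv _ _
  | insert t K hK ih =>
    have : ∀ i, ∃ l, i ∈ s → l ≠ (c t).2 ∧ p i t = vec l - vec (c t).1 := fun i => by
      by_cases hi : i ∈ s
      · obtain ⟨l, hl⟩ := hadm i hi t (Finset.mem_insert_self _ _)
        exact ⟨l, fun _ => hl⟩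
      · exact ⟨v0, fun h => (hi h).elim⟩
    choose lab hlab using this
    have hmaps : ∀ i ∈ s, lab i ∈ Finset.univ.erase (c t).2 := fun i hi => by
      simpa using (hlab i hi).1
    simp_rw [← Finset.prod_fiberwise_of_maps_to hmaps]
    rw [h.top t (c t).2 (-vec (c t).1)
      (fun l ω => ∏ i ∈ s with lab i = l, U i (sh ((0 : ℤ), p i) ω))]
    · refine Finset.prod_congr rfl fun l _ => ?_
      have hval : ∀ i ∈ s.filter (fun i => lab i = l), p i t = vec l - vec (c t).1 := fun i hi => by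
        obtain ⟨h1, h2⟩ := Finset.mem_filter.1 hi
        rw [← h2]; exact (hlab i h1).2
      rw [← ih (s.filter fun i => lab i = l) (fun i => (p i).erase t),
        ← integral_sh h.inv (atq t (vec l - vec (c t).1))
          (fun ω => ∏ i ∈ s with lab i = l, U i (sh ((0 : ℤ), (p i).erase t) ω))]
      · refine integral_congr_ae (Eventually.of_forall fun ω => Finset.prod_congr rfl fun i hi => ?_)
        rw [sh_sh]
        congr 2
        ext q
        · simp
        · by_cases hq : q = t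
          · subst hq; simp [hval i hi]
          · simp [Finsupp.erase_ne hq, Finsupp.single_eq_of_ne hq]
      · intro i hi j hj e
        refine hp (Finset.mem_filter.1 hi).1 (Finset.mem_filter.1 hj).1 (Finsupp.ext fun q => ?_)
        by_cases hq : q = t
        · subst hq; rw [hval i hi, hval j hj]
        · have := DFunLike.congr_fun e q
          simpa [Finsupp.erase_ne hq] using this
      · intro i hi q hq
        by_cases hqt : q = t
        · subst hqt; simp at hq
        · rw [Finsupp.erase_ne hqt] at hq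
          exact (Finset.mem_insert.1 (hsupp i (Finset.mem_filter.1 hi).1 q hq)).resolve_left hqt
      · intro i hi r hr
        rw [Finsupp.erase_ne (hK r hr).ne]
        exact hadm i (Finset.mem_filter.1 hi).1 r (Finset.mem_insert_of_mem hr)
      · exact fun i hi => hU i (Finset.mem_filter.1 hi).1
    · intro l _
      refine (Bd.prod _ fun i hi => ?_).bdd
      obtain ⟨h1, h2⟩ := Finset.mem_filter.1 hi
      refine ((hU i h1).shift _).mono (cyl_mono fun γ hγ => ?_)
      have e : γ.2 = p i := by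
        have := mem_GamOn_empty.1 hγ
        simpa [sub_eq_zero] using this
      refine mem_GamOn'.2 fun q hq => ?_
      by_cases hqt : q = t
      · subst hqt
        simp [e, (hlab i h1).2, h2, sub_eq_add_neg]
      · have : p i q = 0 := by
          by_contra hne
          rcases Finset.mem_insert.1 (hsupp i h1 q hne) with h3 | h3
          · exact hqt h3
          · exact hq (hK q h3)
        simp [e, this, Finsupp.single_eq_of_ne hqt]

lemma box_scales (K : Finset ℚ) (Rem : ℚ → Finset V) (H : ℚ → V → Set (Gam L))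
    (W : ℚ → V → (Gam L → A) → ℂ) (hW : ∀ r ∈ K, ∀ l ∈ Rem r, Cyl (H r l) (W r l)) :
    ∃ K0 : Finset ℚ, K ⊆ K0 ∧ ∀ r ∈ K, ∀ l ∈ Rem r, Cyl (H r l ∩ GamOn L K0) (W r l) := by
  classical
  have : ∀ r l, ∃ S0 : Finset (Gam L), r ∈ K → l ∈ Rem r →
      (S0 : Set (Gam L)) ⊆ H r l ∧ Bd (cyl A (S0 : Set (Gam L))) (W r l) := fun r l => by
    by_cases hh : r ∈ K ∧ l ∈ Rem r
    · obtain ⟨S0, h⟩ := hW r hh.1 l hh.2
      exact ⟨S0, fun _ _ => h⟩
    · exact ⟨∅, fun h1 h2 => (hh ⟨h1, h2⟩).elim⟩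
  choose S0 hS0 using this
  obtain ⟨K1, h1, -⟩ := exists_scales (K.biUnion fun r => (Rem r).biUnion fun l => S0 r l)
  refine ⟨K ∪ K1, Finset.subset_union_left, fun r hr l hl => ⟨S0 r l, fun γ hγ =>
    ⟨(hS0 r l hr hl).1 hγ, GamOn_mono (by simp) (h1 γ ?_)⟩, (hS0 r l hr hl).2⟩⟩
  exact Finset.mem_biUnion.2 ⟨r, hr, Finset.mem_biUnion.2 ⟨l, hl, hγ⟩⟩

/-- Removal of the hyperplane functions `W r l`.  Strong induction on the potential
`∑ r ∈ K, (3 ^ (Rem r).card - 1)` (generalising everything, including `ι`).  Step: pick `r ∈ K`,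
`l1 ∈ Rem r`, `h1 = vec l1 - vec (c r).1`; shift by `-atq r h1`; `G = W r l1` shifted does not use
the scale `r`, `F` = the rest; apply `xcs` with a fresh `r' < r` above all used scales below `r`
(`exists_scales`, `exists_gap`); shift `F · conj (F∘Rm φ)` by `atq r h1 + atq r' h1` (`sh_Rm`).
New data: `ι ⊕ ι`, positions `p i + single r' h1` and `mapDomain φ (p i) + single r h1`,
`K' = insert r' K`, `c' r' = c r`, `Rem' r = Rem' r' = (Rem r).erase l1`, and for `q ≠ r, r'`
`W' q l = W q l ∘ sh (atq r' h1) · conj (W q l ∘ Rm φ ∘ sh (atq r h1))`. -/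
theorem Arr.box_step (h : Arr v0 vec P 𝒰 b) (K : Finset ℚ) (c : ℚ → V × V) (Rem : ℚ → Finset V)
    (hRem : ∀ r ∈ K, (c r).2 ∉ Rem r) {ι : Type} [Fintype ι] [Nonempty ι] (p : ι → ℚ →₀ L)
    (hp : Function.Injective p) (hsupp : ∀ i q, p i q ≠ 0 → q ∈ K)
    (hadm : ∀ i, ∀ r ∈ K, ∃ l, l ≠ (c r).2 ∧ l ∉ Rem r ∧ p i r = vec l - vec (c r).1)
    (U : ι → (Gam L → A) → ℂ) (hU : ∀ i, Bd (cyl A (GamOn L ∅)) (U i))
    (hU0 : ∀ i, ∫ ω, U i ω ∂P = 0) (W : ℚ → V → (Gam L → A) → ℂ)
    (hW : ∀ r ∈ K, ∀ l ∈ Rem r, Cyl {γ : Gam L | γ.2 r = vec l - vec (c r).1} (W r l)) :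
    ∫ ω, (∏ i, U i (sh ((0 : ℤ), p i) ω)) * ∏ r ∈ K, ∏ l ∈ Rem r, W r l ω ∂P = 0 := by
  classical
  induction hn : ∑ r ∈ K, (3 ^ (Rem r).card - 1) using Nat.strong_induction_on
    generalizing K c Rem ι W with
  | _ n ih =>
  by_cases hex : ∀ r ∈ K, Rem r = ∅
  · have : ∀ ω, ∏ r ∈ K, ∏ l ∈ Rem r, W r l ω = 1 := fun ω =>
      Finset.prod_eq_one fun r hr => by simp [hex r hr]
    simp only [this, mul_one]
    rw [h.box_base K c Finset.univ p hp.injOn (fun i _ => hsupp i) (fun i _ r hr => by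
      obtain ⟨l, h1, -, h2⟩ := hadm i r hr
      exact ⟨l, h1, h2⟩) U fun i _ => hU i]
    exact Finset.prod_eq_zero (Finset.mem_univ (Classical.arbitrary ι)) (hU0 _)
  push Not at hex
  obtain ⟨r, hr, l1, hl1⟩ := hex
  obtain ⟨K0, hKK0, hW0⟩ := box_scales K Rem (fun r l => {γ : Gam L | γ.2 r = vec l - vec (c r).1})
    W hW
  obtain ⟨a, ha, hgap⟩ := exists_gap K0 r
  set r' : ℚ := (a + r) / 2 with hr'
  have har' : a < r' := by rw [hr']; linarith
  have hr'r : r' < r := by rw [hr']; linarith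
  have hgap' : ∀ k ∈ (K0 : Set ℚ), k < r → k < r' := fun k hk hkr =>
    (hgap k hk hkr).trans_lt har'
  have hr'K0 : r' ∉ K0 := fun hk => lt_irrefl _ (hgap' r' hk hr'r)
  have hr'K : r' ∉ K := fun hk => hr'K0 (hKK0 hk)
  have hne : r' ≠ r := hr'r.ne
  set φ : ℚ → ℚ := Function.update id r r' with hφ
  have hφm : StrictMonoOn φ K0 := strictMonoOn_update hr'r.le hgap'
  have hφr : φ r = r' := by simp [hφ]
  have hφq : ∀ q, q ≠ r → φ q = q := fun q hq => by simp [hφ, hq]
  set h1 : L := vec l1 - vec (c r).1 with hh1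
  have hpK0 : ∀ i, (((0 : ℤ), p i) : Gam L) ∈ GamOn L K0 := fun i q hq => hKK0 (hsupp i q hq)
  let rest : (Gam L → A) → ℂ := fun ω => (∏ i, U i (sh ((0 : ℤ), p i) ω)) *
    ((∏ l ∈ (Rem r).erase l1, W r l ω) * ∏ q ∈ K.erase r, ∏ l ∈ Rem q, W q l ω)
  have hrest : Bd (cyl A (GamOn L K0)) rest := by
    refine (Bd.prod _ fun i _ => ?_).mul ((Bd.prod _ fun l hl => ?_).mul
      (Bd.prod _ fun q hq => Bd.prod _ fun l hl => ?_))
    · exact ((hU i).shift _).mono (cyl_mono (shS_GamOn_subset (hpK0 i) (Set.empty_subset _)))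
    · exact ((hW0 r hr l (Finset.mem_of_mem_erase hl)).mono Set.inter_subset_right).bd
    · exact ((hW0 q (Finset.mem_of_mem_erase hq) l hl).mono Set.inter_subset_right).bd
  have hsplit : ∀ ω, (∏ i, U i (sh ((0 : ℤ), p i) ω)) * ∏ r ∈ K, ∏ l ∈ Rem r, W r l ω =
      rest ω * W r l1 ω := fun ω => by
    rw [← Finset.mul_prod_erase K _ hr, ← Finset.mul_prod_erase _ _ hl1]
    simp only [rest]; ring
  simp_rw [hsplit]
  rw [← integral_sh h.inv (-atq r h1)]
  have hF : Bd (cyl A (GamOn L K0)) (fun ω => rest (sh (-atq r h1) ω)) := by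
    have := hrest.shift (-atq r h1)
    rwa [shS_GamOn (neg_mem_GamOn (atq_mem_GamOn (by simpa using hKK0 hr) _))] at this
  have hG : Bd (cyl A (GamOn L ((K0 : Set ℚ) \ {r}))) (fun ω => W r l1 (sh (-atq r h1) ω)) := by
    refine ((hW0 r hr l1 hl1).bd.shift _).mono (cyl_mono fun γ hγ => ?_)
    obtain ⟨h2, h3⟩ := hγ
    intro q hq
    have hqr : q ≠ r := by
      rintro rfl
      apply hq
      simpa [← hh1] using h2
    refine ⟨h3 q ?_, hqr⟩
    simpa [Finsupp.single_eq_of_ne hqr] using hq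
  have key := h.xcs hr'r hgap' hF hG
  suffices hz : ∫ ω, rest (sh (-atq r h1) ω) * conj (rest (sh (-atq r h1) (Rm φ ω))) ∂P = 0 by
    rw [← hφ, hz] at key
    simpa using key
  rw [← integral_sh h.inv (atq r h1 + atq r' h1)]
  have e1 : ∀ ω : Gam L → A, sh (-atq r h1) (sh (atq r h1 + atq r' h1) ω) = sh (atq r' h1) ω :=
    fun ω => by rw [sh_sh]; congr 1; abel
  have e2 : ∀ ω : Gam L → A, sh (-atq r h1) (Rm φ (sh (atq r h1 + atq r' h1) ω)) =
      Rm φ (sh (atq r h1) ω) := fun ω => by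
    rw [sh_Rm, sh_sh, push_neg, push_atq, hφr]; congr 2; abel
  simp_rw [e1, e2]
  -- new data
  let p' : ι ⊕ ι → ℚ →₀ L := Sum.elim (fun i => p i + Finsupp.single r' h1)
    (fun i => (p i).mapDomain φ + Finsupp.single r h1)
  let U' : ι ⊕ ι → (Gam L → A) → ℂ := Sum.elim U (fun i ω => conj (U i ω))
  let c' : ℚ → V × V := Function.update c r' (c r)
  let Rem' : ℚ → Finset V := fun q => if q = r ∨ q = r' then (Rem r).erase l1 else Rem q
  let W' : ℚ → V → (Gam L → A) → ℂ := fun q l ω =>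
    if q = r then W r l (sh (atq r' h1) ω) else
      if q = r' then conj (W r l (Rm φ (sh (atq r h1) ω))) else
        W q l (sh (atq r' h1) ω) * conj (W q l (Rm φ (sh (atq r h1) ω)))
  have hc'r : c' r = c r := by simp [c', hne.symm]
  have hc'r' : c' r' = c r := by simp [c']
  have hc'q : ∀ q, q ≠ r' → c' q = c q := fun q hq => by simp [c', hq]
  have hRr : Rem' r = (Rem r).erase l1 := by simp [Rem']
  have hRr' : Rem' r' = (Rem r).erase l1 := by simp [Rem']
  have hRq : ∀ q, q ≠ r → q ≠ r' → Rem' q = Rem q := fun q h1 h2 => by simp [Rem', h1, h2]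
  have hpr' : ∀ i, p i r' = 0 := fun i => by
    by_contra hq; exact hr'K (hsupp i r' hq)
  have hmr' : ∀ i, (p i).mapDomain φ r' = p i r := fun i => by
    have := push_apply (hpK0 i) hφm.injOn (show r ∈ (K0 : Set ℚ) from hKK0 hr)
    rwa [hφr] at this
  have hnim : r ∉ φ '' (K0 : Set ℚ) := by
    rintro ⟨q, -, hq⟩
    by_cases hqr : q = r
    · rw [hqr, hφr] at hq; exact hne hq
    · rw [hφq q hqr] at hq; exact hqr hq
  have hmr : ∀ i, (p i).mapDomain φ r = 0 := fun i => push_apply_of_notMem (hpK0 i) hnim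
  have hpushq : ∀ γ ∈ GamOn L (K0 : Set ℚ), ∀ q, q ≠ r → q ≠ r' → (push φ γ).2 q = γ.2 q := by
    intro γ hγ q h1 h2
    by_cases hq : q ∈ (K0 : Set ℚ)
    · have := push_apply hγ hφm.injOn hq
      rwa [hφq q h1] at this
    · rw [mem_GamOn'.1 hγ q hq]
      refine push_apply_of_notMem hγ ?_
      rintro ⟨q', hq', e⟩
      by_cases hqr : q' = r
      · rw [hqr, hφr] at e; exact h2 e.symm
      · rw [hφq q' hqr] at e; exact hq (e ▸ hq')
  have hmq : ∀ i q, q ≠ r → q ≠ r' → (p i).mapDomain φ q = p i q := fun i q =>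
    hpushq _ (hpK0 i) q
  have hpr : ∀ i, p i r ≠ h1 := fun i e => by
    obtain ⟨l, -, h3, h4⟩ := hadm i r hr
    rw [h4, hh1, sub_left_inj] at e
    exact h3 (h.inj e ▸ hl1)
  have hlt : ∑ q ∈ insert r' K, (3 ^ (Rem' q).card - 1) < n := by
    rw [← hn, Finset.sum_insert hr'K, ← Finset.add_sum_erase K _ hr,
      ← Finset.add_sum_erase K (fun r => 3 ^ (Rem r).card - 1) hr, hRr, hRr',
      Finset.sum_congr rfl fun q hq => by
        rw [hRq q (Finset.ne_of_mem_erase hq) fun e => hr'K (e ▸ Finset.mem_of_mem_erase hq)],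
      ← Finset.card_erase_add_one hl1, pow_succ]
    have : 1 ≤ 3 ^ ((Rem r).erase l1).card := Nat.one_le_pow _ _ (by norm_num)
    omega
  have := ih _ hlt (insert r' K) c' Rem' ?_ p' ?_ ?_ ?_ U' ?_ ?_ W' ?_ rfl
  · rw [← this]
    refine integral_congr_ae (Eventually.of_forall fun ω => ?_)
    simp only [rest, Fintype.prod_sum_type, map_mul, map_prod]
    rw [Finset.prod_insert hr'K, ← Finset.mul_prod_erase K _ hr, hRr, hRr']
    have a1 : ∏ q ∈ K.erase r, ∏ l ∈ Rem' q, W' q l ω =
        (∏ q ∈ K.erase r, ∏ l ∈ Rem q, W q l (sh (atq r' h1) ω)) *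
          ∏ q ∈ K.erase r, ∏ l ∈ Rem q, conj (W q l (Rm φ (sh (atq r h1) ω))) := by
      rw [← Finset.prod_mul_distrib]
      refine Finset.prod_congr rfl fun q hq => ?_
      have q1 : q ≠ r := Finset.ne_of_mem_erase hq
      have q2 : q ≠ r' := fun e => hr'K (e ▸ Finset.mem_of_mem_erase hq)
      rw [hRq q q1 q2, ← Finset.prod_mul_distrib]
      simp [W', q1, q2]
    have a2 : ∏ i, U' (Sum.inl i) (sh ((0 : ℤ), p' (Sum.inl i)) ω) =
        ∏ i, U i (sh ((0 : ℤ), p i) (sh (atq r' h1) ω)) :=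
      Finset.prod_congr rfl fun i _ => by
        rw [sh_sh]; simp [U', p', atq]
    have a3 : ∏ i, U' (Sum.inr i) (sh ((0 : ℤ), p' (Sum.inr i)) ω) =
        ∏ i, conj (U i (sh ((0 : ℤ), p i) (Rm φ (sh (atq r h1) ω)))) :=
      Finset.prod_congr rfl fun i _ => by
        rw [sh_Rm, sh_sh, (hU i).Rm_eq fun γ hγ => push_eq_self hγ (by simp)]
        simp [U', p', atq, push]
    rw [a1, a2, a3]
    simp only [W', if_true, hne, if_false]
    ring
  · intro q hq
    by_cases q1 : q = r'
    · rw [q1, hc'r', hRr']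
      exact fun e => hRem r hr (Finset.mem_of_mem_erase e)
    · have hqK := (Finset.mem_insert.1 hq).resolve_left q1
      rw [hc'q q q1]
      by_cases q2 : q = r
      · rw [q2, hRr]
        exact fun e => hRem r hr (Finset.mem_of_mem_erase e)
      · rw [hRq q q2 q1]; exact hRem q hqK
  · rintro (i | i) (j | j) e
    · simp only [p', Sum.elim_inl, add_left_inj] at e
      rw [hp e]
    · have := DFunLike.congr_fun e r
      simp [p', hmr, Finsupp.single_eq_of_ne hne.symm] at this
      exact (hpr i this).elim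
    · have := DFunLike.congr_fun e r
      simp [p', hmr, Finsupp.single_eq_of_ne hne.symm] at this
      exact (hpr j this.symm).elim
    · simp only [p', Sum.elim_inr, add_left_inj] at e
      congr 1
      refine hp (Finsupp.ext fun q => ?_)
      by_cases q1 : q = r
      · rw [q1, ← hmr', ← hmr', e]
      · by_cases q2 : q = r'
        · rw [q2, hpr', hpr']
        · rw [← hmq i q q1 q2, ← hmq j q q1 q2, e]
  · rintro (i | i) q hq
    · by_cases q1 : q = r'
      · simp [q1]
      · refine Finset.mem_insert_of_mem (hsupp i q ?_)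
        simpa [p', Finsupp.single_eq_of_ne q1] using hq
    · by_cases q1 : q = r'
      · simp [q1]
      · by_cases q2 : q = r
        · simp [q2, hr]
        · refine Finset.mem_insert_of_mem (hsupp i q ?_)
          simpa [p', Finsupp.single_eq_of_ne q2, hmq i q q2 q1] using hq
  · have hl1' : l1 ≠ (c r).2 := fun e => hRem r hr (e ▸ hl1)
    rintro (i | i) q hq
    · by_cases q1 : q = r'
      · rw [q1, hc'r', hRr']
        exact ⟨l1, hl1', by simp, by simp [p', hpr', hh1]⟩
      · have hqK := (Finset.mem_insert.1 hq).resolve_left q1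
        obtain ⟨l, a1, a2, a3⟩ := hadm i q hqK
        rw [hc'q q q1]
        refine ⟨l, a1, ?_, by simp [p', Finsupp.single_eq_of_ne q1, a3]⟩
        by_cases q2 : q = r
        · rw [q2, hRr]; exact fun e => a2 (q2 ▸ Finset.mem_of_mem_erase e)
        · rwa [hRq q q2 q1]
    · by_cases q1 : q = r'
      · obtain ⟨l, a1, a2, a3⟩ := hadm i r hr
        rw [q1, hc'r', hRr']
        exact ⟨l, a1, fun e => a2 (Finset.mem_of_mem_erase e),
          by simp [p', hmr', Finsupp.single_eq_of_ne hne, a3]⟩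
      · have hqK := (Finset.mem_insert.1 hq).resolve_left q1
        rw [hc'q q q1]
        by_cases q2 : q = r
        · rw [q2, hRr]
          exact ⟨l1, hl1', by simp, by simp [p', hmr, hh1]⟩
        · obtain ⟨l, a1, a2, a3⟩ := hadm i q hqK
          rw [hRq q q2 q1]
          exact ⟨l, a1, a2, by simp [p', Finsupp.single_eq_of_ne q2, hmq i q q2 q1, a3]⟩
  · rintro (i | i)
    · exact hU i
    · exact (hU i).conj
  · rintro (i | i)
    · exact hU0 i
    · show ∫ ω, conj (U i ω) ∂P = 0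
      rw [integral_conj, hU0 i, map_zero]
  · intro q hq l hl
    by_cases q1 : q = r'
    · rw [q1, hRr'] at hl
      rw [q1, hc'r']
      simp only [W', hne, if_false, if_true]
      refine ((hW0 r hr l (Finset.mem_of_mem_erase hl)).reindex
        (fun γ => push φ γ + atq r h1) fun γ hγ => ?_).conj
      have := push_apply hγ.2 hφm.injOn (show r ∈ (K0 : Set ℚ) from hKK0 hr)
      rw [hφr, show γ.2 r = _ from hγ.1] at this
      show (push φ γ).2 r' + (Finsupp.single r h1) r' = _
      rw [this, Finsupp.single_eq_of_ne hne, add_zero]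
    · have hqK := (Finset.mem_insert.1 hq).resolve_left q1
      rw [hc'q q q1]
      by_cases q2 : q = r
      · rw [q2, hRr] at hl
        rw [q2]
        simp only [W', if_true]
        refine (hW0 r hr l (Finset.mem_of_mem_erase hl)).reindex
          (fun γ => γ + atq r' h1) fun γ hγ => ?_
        show γ.2 r + (Finsupp.single r' h1) r = _
        rw [show γ.2 r = _ from hγ.1, Finsupp.single_eq_of_ne hne.symm, add_zero]
      · rw [hRq q q2 q1] at hl
        simp only [W', q1, q2, if_false]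
        refine ((hW0 q hqK l hl).reindex (fun γ => γ + atq r' h1) fun γ hγ => ?_).mul
          ((hW0 q hqK l hl).reindex (fun γ => push φ γ + atq r h1) fun γ hγ => ?_).conj
        · show γ.2 q + (Finsupp.single r' h1) q = _
          rw [show γ.2 q = _ from hγ.1, Finsupp.single_eq_of_ne q1, add_zero]
        · show (push φ γ).2 q + (Finsupp.single r h1) q = _
          rw [hpushq γ hγ.2 q q2 q1, show γ.2 q = _ from hγ.1, Finsupp.single_eq_of_ne q2,
            add_zero]

/-- Test against atoms over the environment (`ext_pi`, `generateFrom_atoms`): the indicator of an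
atom is a product over finitely many positions, each having a witness `(r, l)`; use `box_step`
with `ι = Unit`, `p = 0`, `K` = the witnesses, `c = ty`, `Rem r = univ \ {(ty r).1, (ty r).2}`. -/
theorem Arr.box (h : Arr v0 vec P 𝒰 b) (ty : ℚ → V × V) (J S : Set ℚ) :
    Ind P (cyl A (GamOn L ∅)) (cyl A (Env vec ty J S)) := by
  classical
  rw [ind_iff_ci]
  refine CI.of_bd fun U H hU hH => ?_
  rw [condExp_bot, integral_const_mul]
  set e := ∫ ω, U ω ∂P with he
  have hU0 : Bd (cyl A (GamOn L ∅)) (fun ω => U ω - e) := hU.sub (Bd.const e)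
  have hUi : Integrable U P := hU.bdd.integrable (cyl_le _)
  have hm0 : ∫ ω, (U ω - e) ∂P = 0 := by
    rw [integral_sub hUi (integrable_const _)]; simp [he]
  have key := ext_pi (μ := P) (isPiSystem_atoms (A := A) (Env vec ty J S))
    (generateFrom_atoms _) (cyl_le _) (hU0.bdd.integrable (cyl_le _)) hm0 ?_ H hH.bdd
  · simp_rw [mul_sub] at key
    rw [integral_sub ((hH.bdd.mono (cyl_le _)).mul_integrable le_rfl hUi)
      ((hH.mul (Bd.const e)).bdd.integrable (cyl_le _)), integral_mul_const, sub_eq_zero] at key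
    simp_rw [mul_comm (U _)]
    rw [key, mul_comm]
  intro s hs
  have hsm : MeasurableSet s := cyl_le _ _ (measurableSet_of_mem_atoms hs)
  obtain ⟨S0, a, hS0, rfl⟩ := hs
  have : ∀ γ : Gam L, ∃ r l, γ ∈ S0 → (ty r).1 ≠ (ty r).2 ∧ l ≠ (ty r).1 ∧ l ≠ (ty r).2 ∧
      γ.2 r = vec l - vec (ty r).1 := fun γ => by
    by_cases hγ : γ ∈ S0
    · obtain ⟨-, r, -, l, h1⟩ := hS0 hγ
      exact ⟨r, l, fun _ => h1⟩
    · exact ⟨0, v0, fun h => (hγ h).elim⟩
  choose wr wl hw using this
  let ind : Gam L → (Gam L → A) → ℂ := fun γ ω => if ω γ = a γ then 1 else 0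
  have hind : ∀ γ (T : Set (Gam L)), γ ∈ T → Cyl T (ind γ) := fun γ T hγ => by
    refine ⟨{γ}, by simpa using hγ, ?_, 1, fun ω => by by_cases h : ω γ = a γ <;> simp [ind, h]⟩
    exact (measurable_of_countable (fun x : A => if x = a γ then (1 : ℂ) else 0)).comp
      (measurable_cylinderEvent_apply (X := fun _ => A) (by simp))
  have := h.box_step (S0.image wr) ty
    (fun r => Finset.univ.filter fun l => l ≠ (ty r).1 ∧ l ≠ (ty r).2) (fun r _ => by simp)
    (ι := Unit) (fun _ => 0) (fun _ _ _ => rfl) (fun _ _ h => (h rfl).elim)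
    (fun _ r hr => by
      obtain ⟨γ, hγ, rfl⟩ := Finset.mem_image.1 hr
      exact ⟨(ty (wr γ)).1, (hw γ hγ).1, by simp, by simp⟩)
    (fun _ ω => U ω - e) (fun _ => hU0) (fun _ => hm0)
    (fun r l ω => ∏ γ ∈ (S0.filter fun γ => wr γ = r).filter fun γ => wl γ = l, ind γ ω)
    (fun r _ l _ => Cyl.prod _ fun γ hγ => hind γ _ (by
      obtain ⟨h1, h2⟩ := Finset.mem_filter.1 hγ
      obtain ⟨h3, h4⟩ := Finset.mem_filter.1 h1
      rw [← h2, ← h4]
      exact (hw γ h3).2.2.2))
  rw [← integral_indicator hsm, ← this]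
  refine integral_congr_ae (Eventually.of_forall fun ω => ?_)
  have e1 : ∏ r ∈ S0.image wr, ∏ l ∈ Finset.univ.filter fun l => l ≠ (ty r).1 ∧ l ≠ (ty r).2,
      ∏ γ ∈ (S0.filter fun γ => wr γ = r).filter fun γ => wl γ = l, ind γ ω =
      ∏ γ ∈ S0, ind γ ω := by
    rw [← Finset.prod_fiberwise_of_maps_to (g := wr) (t := S0.image wr)
      fun γ hγ => Finset.mem_image_of_mem _ hγ]
    refine Finset.prod_congr rfl fun r _ => Finset.prod_fiberwise_of_maps_to (fun γ hγ => ?_) _
    obtain ⟨h3, h4⟩ := Finset.mem_filter.1 hγ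
    rw [← h4]
    simpa using ⟨(hw γ h3).2.1, (hw γ h3).2.2.1⟩
  have e0 : (((0 : ℤ), (0 : ℚ →₀ L)) : Gam L) = 0 := rfl
  simp only [e1, e0, sh_zero, Finset.univ_unique, Finset.prod_singleton]
  by_cases hω : ∀ γ ∈ S0, ω γ = a γ
  · rw [Set.indicator_of_mem (show ω ∈ {ω | ∀ γ ∈ S0, ω γ = a γ} from hω),
      Finset.prod_eq_one fun γ hγ => by simp [ind, hω γ hγ], mul_one]
  · rw [Set.indicator_of_notMem (show ω ∉ {ω | ∀ γ ∈ S0, ω γ = a γ} from hω)]
    push Not at hω
    obtain ⟨γ, hγ, hne⟩ := hω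
    rw [Finset.prod_eq_zero hγ (by simp [ind, hne]), mul_zero]

/-- environments over disjoint sets of scales are independent (`disj` + `box`) -/
theorem Arr.ind_env (h : Arr v0 vec P 𝒰 b) (ty : ℚ → V × V) {J S J' S' : Set ℚ}
    (hd : Disjoint (J ∪ S) (J' ∪ S')) :
    Ind P (cyl A (Env vec ty J S)) (cyl A (Env vec ty J' S')) := by
  intro U H hU hH
  rw [h.disj _ _ hd U H (hU.mono (cyl_mono Env_subset)) (hH.mono (cyl_mono Env_subset)),
    ← integral_const_mul]
  refine integral_congr_ae ?_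
  filter_upwards [(h.box ty J S).symm.condExp_eq (cyl_le _) (cyl_le _) hU] with ω hω
  rw [hω]

end Crest.Agent.R069
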