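import Crest.Agent.R069.Defs

/-! Toolkit 1: bounded functions and conditional expectations of complex functions. -/

set_option autoImplicit false
open MeasureTheory Filter Topology
open scoped ENNReal ComplexConjugate

namespace Crest.Agent.R069
set_option linter.unusedSectionVars false

variable {Ω : Type*} {a b m m' : MeasurableSpace Ω} {m0 : MeasurableSpace Ω} {μ : Measure Ω}
  {U U' H : Ω → ℂ}

/-! ### `Bd` -/

lemma Bd.const (c : ℂ) : Bd m (fun _ => c) := ⟨measurable_const, ‖c‖, fun _ => le_rfl⟩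

lemma Bd.mono (h : Bd a U) (hab : a ≤ b) : Bd b U := ⟨h.1.mono hab le_rfl, h.2⟩

lemma Bd.mul (h : Bd m U) (h' : Bd m U') : Bd m (fun ω => U ω * U' ω) := by
  obtain ⟨h1, C, hC⟩ := h
  obtain ⟨h2, D, hD⟩ := h'
  refine ⟨h1.mul h2, C * D, fun ω => ?_⟩
  rw [norm_mul]
  exact mul_le_mul (hC ω) (hD ω) (norm_nonneg _) ((norm_nonneg _).trans (hC ω))

lemma Bd.add (h : Bd m U) (h' : Bd m U') : Bd m (fun ω => U ω + U' ω) := by
  obtain ⟨h1, C, hC⟩ := h
  obtain ⟨h2, D, hD⟩ := h'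
  exact ⟨h1.add h2, C + D, fun ω => (norm_add_le _ _).trans (add_le_add (hC ω) (hD ω))⟩

lemma Bd.sub (h : Bd m U) (h' : Bd m U') : Bd m (fun ω => U ω - U' ω) := by
  obtain ⟨h1, C, hC⟩ := h
  obtain ⟨h2, D, hD⟩ := h'
  exact ⟨h1.sub h2, C + D, fun ω => (norm_sub_le _ _).trans (add_le_add (hC ω) (hD ω))⟩

lemma Bd.conj (h : Bd m U) : Bd m (fun ω => conj (U ω)) := by
  obtain ⟨h1, C, hC⟩ := h
  exact ⟨Complex.continuous_conj.measurable.comp h1, C, fun ω => by simpa using hC ω⟩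

lemma Bd.prod {ι : Type*} (s : Finset ι) {F : ι → Ω → ℂ} (h : ∀ i ∈ s, Bd m (F i)) :
    Bd m (fun ω => ∏ i ∈ s, F i ω) := by
  classical
  induction s using Finset.induction_on with
  | empty => simpa using Bd.const (m := m) 1
  | insert i s hi ih =>
    simp_rw [Finset.prod_insert hi]
    exact (h i (Finset.mem_insert_self _ _)).mul
      (ih fun j hj => h j (Finset.mem_insert_of_mem hj))

lemma Bd.sum {ι : Type*} (s : Finset ι) {F : ι → Ω → ℂ} (h : ∀ i ∈ s, Bd m (F i)) :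
    Bd m (fun ω => ∑ i ∈ s, F i ω) := by
  classical
  induction s using Finset.induction_on with
  | empty => simpa using Bd.const (m := m) 0
  | insert i s hi ih =>
    simp_rw [Finset.sum_insert hi]
    exact (h i (Finset.mem_insert_self _ _)).add
      (ih fun j hj => h j (Finset.mem_insert_of_mem hj))

lemma Bd.comp {Ω' : Type*} {n : MeasurableSpace Ω'} {T : Ω' → Ω} (h : Bd m U)
    (hT : @Measurable _ _ n m T) : Bd n (fun ω => U (T ω)) := by
  obtain ⟨h1, C, hC⟩ := h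
  exact ⟨h1.comp hT, C, fun ω => hC _⟩

lemma Bd.indicator {s : Set Ω} (hs : MeasurableSet[m] s) : Bd m (s.indicator (1 : Ω → ℂ)) := by
  refine ⟨Measurable.indicator measurable_const hs, 1, fun ω => ?_⟩
  by_cases h : ω ∈ s <;> simp [h]

lemma Bd.cf {χ : Ω → Circle} (h : Measurable[m] (cf χ)) : Bd m (cf χ) :=
  ⟨h, 1, fun ω => by simp [R069.cf]⟩

lemma Bd.bdd (h : Bd m U) : Bdd μ m U := by
  obtain ⟨h1, C, hC⟩ := h
  exact ⟨h1.stronglyMeasurable.aestronglyMeasurable, C, Eventually.of_forall hC⟩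

/-! ### `Bdd` -/

lemma Bdd.const (c : ℂ) : Bdd μ m (fun _ => c) := (Bd.const c).bdd

lemma Bdd.mono (h : Bdd μ a U) (hab : a ≤ b) : Bdd μ b U := ⟨h.1.mono hab, h.2⟩

lemma Bdd.congr (h : Bdd μ m U) (hU : U =ᵐ[μ] U') : Bdd μ m U' := by
  obtain ⟨h1, C, hC⟩ := h
  exact ⟨h1.congr hU, C, by filter_upwards [hC, hU] with ω h2 h3 using h3 ▸ h2⟩

/-- honest representative with the same bound -/
lemma Bdd.exists_bd' {C : ℝ} (h : AEStronglyMeasurable[m] U μ) (hC0 : 0 ≤ C)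
    (hC : ∀ᵐ ω ∂μ, ‖U ω‖ ≤ C) :
    ∃ U', Measurable[m] U' ∧ (∀ ω, ‖U' ω‖ ≤ C) ∧ U =ᵐ[μ] U' := by
  classical
  obtain ⟨g, hg, hUg⟩ := h
  refine ⟨{ω | ‖g ω‖ ≤ C}.indicator g, hg.measurable.indicator ?_, fun ω => ?_, ?_⟩
  · exact @measurableSet_le _ _ _ _ _ m _ _ _ _ _ (@Measurable.norm _ _ _ _ _ m _ hg.measurable) measurable_const
  · by_cases h : ‖g ω‖ ≤ C
    · rwa [Set.indicator_of_mem (show ω ∈ {ω | ‖g ω‖ ≤ C} from h)]
    · rw [Set.indicator_of_notMem (show ω ∉ {ω | ‖g ω‖ ≤ C} from h)]; simpa using hC0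
  · filter_upwards [hC, hUg] with ω h1 h2
    rw [Set.indicator_of_mem (show ω ∈ {ω | ‖g ω‖ ≤ C} from by simpa [← h2] using h1), h2]

lemma Bdd.exists_bd (h : Bdd μ m U) : ∃ U', Bd m U' ∧ U =ᵐ[μ] U' := by
  obtain ⟨h1, C, hC⟩ := h
  obtain ⟨U', h2, h3, h4⟩ := Bdd.exists_bd' (C := max C 0) h1 (le_max_right _ _)
    (by filter_upwards [hC] with ω h using h.trans (le_max_left _ _))
  exact ⟨U', ⟨h2, _, h3⟩, h4⟩

lemma Bdd.mul (h : Bdd μ m U) (h' : Bdd μ m U') : Bdd μ m (fun ω => U ω * U' ω) := by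
  obtain ⟨V, hV, e⟩ := h.exists_bd
  obtain ⟨V', hV', e'⟩ := h'.exists_bd
  exact (hV.mul hV').bdd.congr (by filter_upwards [e, e'] with ω h1 h2 using by rw [h1, h2])

lemma Bdd.mul' (h : Bdd μ m U) (h' : Bdd μ m U') : Bdd μ m (U * U') := h.mul h'

lemma Bdd.add (h : Bdd μ m U) (h' : Bdd μ m U') : Bdd μ m (fun ω => U ω + U' ω) := by
  obtain ⟨V, hV, e⟩ := h.exists_bd
  obtain ⟨V', hV', e'⟩ := h'.exists_bd
  exact (hV.add hV').bdd.congr (by filter_upwards [e, e'] with ω h1 h2 using by rw [h1, h2])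

lemma Bdd.sub (h : Bdd μ m U) (h' : Bdd μ m U') : Bdd μ m (fun ω => U ω - U' ω) := by
  obtain ⟨V, hV, e⟩ := h.exists_bd
  obtain ⟨V', hV', e'⟩ := h'.exists_bd
  exact (hV.sub hV').bdd.congr (by filter_upwards [e, e'] with ω h1 h2 using by rw [h1, h2])

lemma Bdd.conj (h : Bdd μ m U) : Bdd μ m (fun ω => conj (U ω)) := by
  obtain ⟨V, hV, e⟩ := h.exists_bd
  exact hV.conj.bdd.congr (by filter_upwards [e] with ω h1 using by rw [h1])

lemma Bdd.prod {ι : Type*} (s : Finset ι) {F : ι → Ω → ℂ} (h : ∀ i ∈ s, Bdd μ m (F i)) :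
    Bdd μ m (fun ω => ∏ i ∈ s, F i ω) := by
  classical
  induction s using Finset.induction_on with
  | empty => simpa using Bdd.const (μ := μ) (m := m) 1
  | insert i s hi ih =>
    simp_rw [Finset.prod_insert hi]
    exact (h i (Finset.mem_insert_self _ _)).mul
      (ih fun j hj => h j (Finset.mem_insert_of_mem hj))

lemma Bdd.sum {ι : Type*} (s : Finset ι) {F : ι → Ω → ℂ} (h : ∀ i ∈ s, Bdd μ m (F i)) :
    Bdd μ m (fun ω => ∑ i ∈ s, F i ω) := by
  classical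
  induction s using Finset.induction_on with
  | empty => simpa using Bdd.const (μ := μ) (m := m) 0
  | insert i s hi ih =>
    simp_rw [Finset.sum_insert hi]
    exact (h i (Finset.mem_insert_self _ _)).add
      (ih fun j hj => h j (Finset.mem_insert_of_mem hj))

lemma Bdd.memLp [IsFiniteMeasure μ] (h : Bdd μ m U) (hm : m ≤ m0) (p : ℝ≥0∞) : MemLp U p μ := by
  obtain ⟨h1, C, hC⟩ := h
  exact MemLp.of_bound (h1.mono hm) C hC

lemma Bdd.integrable [IsFiniteMeasure μ] (h : Bdd μ m U) (hm : m ≤ m0) : Integrable U μ :=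
  memLp_one_iff_integrable.1 (h.memLp hm 1)

lemma Bdd.mul_integrable (h : Bdd μ m U) (hm : m ≤ m0) (hH : Integrable H μ) :
    Integrable (fun ω => U ω * H ω) μ := by
  obtain ⟨h1, C, hC⟩ := h
  exact hH.bdd_mul (h1.mono hm) hC

lemma Bdd.condExp (h : Bdd μ a U) : Bdd μ m (μ[U|m]) := by
  obtain ⟨-, C, hC⟩ := h
  exact ⟨stronglyMeasurable_condExp.aestronglyMeasurable, C, ae_bdd_norm_condExp_of_ae_bdd_norm hC⟩

/-- composition with a measure preserving map -/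
lemma Bdd.comp {Ω' : Type*} {n : MeasurableSpace Ω'} {n0 : MeasurableSpace Ω'} {ν : Measure Ω'}
    {T : Ω' → Ω} (h : Bdd μ m U) (hT : @Measurable _ _ n m T) (hT' : MeasurePreserving T ν μ) :
    Bdd ν n (fun ω => U (T ω)) := by
  obtain ⟨V, hV, e⟩ := h.exists_bd
  exact (hV.comp hT).bdd.congr (hT'.quasiMeasurePreserving.ae_eq e.symm)

/-! ### conditional expectation -/

section
variable [IsFiniteMeasure μ]

lemma condExp_of_bdd (hm : m ≤ m0) (h : Bdd μ m U) : μ[U|m] =ᵐ[μ] U :=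
  condExp_of_aestronglyMeasurable' hm h.1 (h.integrable hm)

/-- pull-out property -/
lemma condExp_mul_left (hm : m ≤ m0) (h : Bdd μ m U) (hH : Integrable H μ) :
    μ[fun ω => U ω * H ω|m] =ᵐ[μ] fun ω => U ω * (μ[H|m]) ω :=
  condExp_bilin_of_aestronglyMeasurable_left (ContinuousLinearMap.mul ℝ ℂ) h.1
    (h.mul_integrable hm hH) hH

lemma condExp_mul_left' (hm : m ≤ m0) (h : Bdd μ m U) (hH : Integrable H μ) :
    μ[U * H|m] =ᵐ[μ] U * μ[H|m] := condExp_mul_left hm h hH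

lemma condExp_mul_right (hm : m ≤ m0) (h : Bdd μ m U) (hH : Integrable H μ) :
    μ[fun ω => H ω * U ω|m] =ᵐ[μ] fun ω => (μ[H|m]) ω * U ω := by
  simp_rw [mul_comm _ (U _)]
  exact condExp_mul_left hm h hH

lemma integral_condExp_mul (hm : m ≤ m0) (hU : Integrable U μ) (hH : Bdd μ m H) :
    ∫ ω, (μ[U|m]) ω * H ω ∂μ = ∫ ω, U ω * H ω ∂μ := by
  rw [← integral_congr_ae (condExp_mul_right hm hH hU), integral_condExp hm]

/-- conditional expectation is its own transpose -/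
lemma integral_condExp_mul_comm (hm : m ≤ m0) (hU : Bdd μ m0 U) (hH : Bdd μ m0 H) :
    ∫ ω, (μ[U|m]) ω * H ω ∂μ = ∫ ω, U ω * (μ[H|m]) ω ∂μ := by
  rw [← integral_condExp_mul hm (hU.integrable le_rfl) (hH.condExp (m := m))]
  simp_rw [mul_comm ((μ[U|m]) _)]
  rw [integral_condExp_mul hm (hH.integrable le_rfl) (hU.condExp (m := m))]

lemma condExp_conj (hU : Integrable U μ) :
    μ[fun ω => conj (U ω)|m] =ᵐ[μ] fun ω => conj ((μ[U|m]) ω) := by
  have := (Complex.conjCLE.toContinuousLinearMap).comp_condExp_comm (m := m) hU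
  exact this.symm

lemma ae_eq_zero_of_integral_mul_conj (hU : Bdd μ m0 U)
    (h : ∫ ω, U ω * conj (U ω) ∂μ = 0) : U =ᵐ[μ] 0 := by
  have h2 : Integrable (fun ω => ‖U ω‖ ^ 2) μ := (hU.memLp le_rfl 2).integrable_norm_pow (by norm_num)
  have h1 : ∫ ω, ‖U ω‖ ^ 2 ∂μ = 0 := by
    have : ∫ ω, U ω * conj (U ω) ∂μ = ((∫ ω, ‖U ω‖ ^ 2 ∂μ : ℝ) : ℂ) := by
      rw [← integral_complex_ofReal]
      exact integral_congr_ae (Eventually.of_forall fun ω => by
        simp [Complex.mul_conj, Complex.normSq_eq_norm_sq])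
    rw [this] at h
    exact_mod_cast h
  rw [integral_eq_zero_iff_of_nonneg (fun ω => by positivity) h2] at h1
  filter_upwards [h1] with ω hω
  simpa using hω

lemma integral_mul_conj_eq (U : Ω → ℂ) :
    ∫ ω, U ω * conj (U ω) ∂μ = ((∫ ω, ‖U ω‖ ^ 2 ∂μ : ℝ) : ℂ) := by
  rw [← integral_complex_ofReal]
  exact integral_congr_ae (Eventually.of_forall fun ω => by
    simp [Complex.mul_conj, Complex.normSq_eq_norm_sq])

/-- bounded `m`-measurable functions are determined by testing against such -/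
lemma ae_eq_of_forall_integral_mul_eq (hm : m ≤ m0) (hU : Bdd μ m U) (hU' : Bdd μ m U')
    (h : ∀ H, Bdd μ m H → ∫ ω, U ω * H ω ∂μ = ∫ ω, U' ω * H ω ∂μ) : U =ᵐ[μ] U' := by
  have hd := hU.sub hU'
  have := ae_eq_zero_of_integral_mul_conj (hd.mono hm) (by
    simp_rw [sub_mul]
    rw [integral_sub ((hU.mul hd.conj).integrable hm) ((hU'.mul hd.conj).integrable hm),
      h _ hd.conj, sub_self])
  filter_upwards [this] with ω hω
  exact sub_eq_zero.1 hω

/-- characterisation of the conditional expectation by bounded test functions -/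
lemma ae_eq_condExp_of_forall (hm : m ≤ m0) (hU : Bdd μ m0 U) (hU' : Bdd μ m U')
    (h : ∀ H, Bdd μ m H → ∫ ω, U' ω * H ω ∂μ = ∫ ω, U ω * H ω ∂μ) : U' =ᵐ[μ] μ[U|m] :=
  ae_eq_of_forall_integral_mul_eq hm hU' hU.condExp fun H hH => by
    rw [h H hH, integral_condExp_mul hm (hU.integrable le_rfl) hH]

/-- equality case of Jensen -/
lemma ae_eq_condExp_of_integral_mul_conj (hm : m ≤ m0) (hU : Bdd μ m0 U)
    (h : ∫ ω, U ω * conj (U ω) ∂μ = ∫ ω, (μ[U|m]) ω * conj (U ω) ∂μ) : U =ᵐ[μ] μ[U|m] := by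
  have hE : Bdd μ m (μ[U|m]) := hU.condExp
  have hE0 := hE.mono hm
  have hd := hU.sub hE0
  have := ae_eq_zero_of_integral_mul_conj hd (by
    simp_rw [map_sub, sub_mul, mul_sub]
    rw [integral_sub (((hU.mul hU.conj).sub (hU.mul hE0.conj)).integrable le_rfl)
      (((hE0.mul hU.conj).sub (hE0.mul hE0.conj)).integrable le_rfl),
      integral_sub ((hU.mul hU.conj).integrable le_rfl) ((hU.mul hE0.conj).integrable le_rfl),
      integral_sub ((hE0.mul hU.conj).integrable le_rfl) ((hE0.mul hE0.conj).integrable le_rfl),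
      h, integral_condExp_mul hm (hU.integrable le_rfl) hE.conj]
    ring)
  filter_upwards [this] with ω hω
  exact sub_eq_zero.1 hω

end

/-- Cauchy–Schwarz -/
lemma norm_integral_mul_sq_le (hU : MemLp U 2 μ) (hH : MemLp H 2 μ) :
    ‖∫ ω, U ω * H ω ∂μ‖ ^ 2 ≤ (∫ ω, ‖U ω‖ ^ 2 ∂μ) * ∫ ω, ‖H ω‖ ^ 2 ∂μ := by
  have h1 := integral_mul_norm_le_Lp_mul_Lq (μ := μ) (f := U) (g := H) Real.HolderConjugate.two_two
    (by simpa using hU) (by simpa using hH)
  have h2 : ‖∫ ω, U ω * H ω ∂μ‖ ≤ ∫ ω, ‖U ω‖ * ‖H ω‖ ∂μ := by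
    refine (norm_integral_le_integral_norm _).trans (le_of_eq ?_)
    simp_rw [norm_mul]
  simp_rw [Real.rpow_two] at h1
  have hA : 0 ≤ ∫ ω, ‖U ω‖ ^ 2 ∂μ := integral_nonneg fun ω => by positivity
  have hB : 0 ≤ ∫ ω, ‖H ω‖ ^ 2 ∂μ := integral_nonneg fun ω => by positivity
  rw [← Real.sqrt_eq_rpow, ← Real.sqrt_eq_rpow] at h1
  calc ‖∫ ω, U ω * H ω ∂μ‖ ^ 2
      ≤ (√(∫ ω, ‖U ω‖ ^ 2 ∂μ) * √(∫ ω, ‖H ω‖ ^ 2 ∂μ)) ^ 2 :=
        pow_le_pow_left₀ (norm_nonneg _) (h2.trans h1) 2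
    _ = _ := by rw [mul_pow, Real.sq_sqrt hA, Real.sq_sqrt hB]

lemma ce1_norm_prod_sub_le {ι : Type*} (s : Finset ι) {f g : ι → ℂ} {C : ℝ} (hC : 1 ≤ C)
    (hf : ∀ i ∈ s, ‖f i‖ ≤ C) (hg : ∀ i ∈ s, ‖g i‖ ≤ C) :
    ‖∏ i ∈ s, f i - ∏ i ∈ s, g i‖ ≤ C ^ s.card * ∑ i ∈ s, ‖f i - g i‖ := by
  classical
  induction s using Finset.induction_on with
  | empty => simp
  | insert i s hi ih =>
    have ih' := ih (fun j hj => hf j (Finset.mem_insert_of_mem hj))
      (fun j hj => hg j (Finset.mem_insert_of_mem hj))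
    have h1 := hf i (Finset.mem_insert_self _ _)
    have h2 : ‖∏ j ∈ s, g j‖ ≤ C ^ s.card := by
      rw [norm_prod, ← Finset.prod_const]
      exact Finset.prod_le_prod (fun j _ => norm_nonneg _)
        (fun j hj => hg j (Finset.mem_insert_of_mem hj))
    rw [Finset.prod_insert hi, Finset.prod_insert hi, Finset.sum_insert hi,
      Finset.card_insert_of_notMem hi]
    have h3 : f i * ∏ j ∈ s, f j - g i * ∏ j ∈ s, g j =
        f i * (∏ j ∈ s, f j - ∏ j ∈ s, g j) + (f i - g i) * ∏ j ∈ s, g j := by ring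
    have hC0 : 0 ≤ C := by linarith
    have h4 : C ^ s.card ≤ C ^ (s.card + 1) := pow_le_pow_right₀ hC (Nat.le_succ _)
    rw [h3]
    calc _ ≤ ‖f i‖ * ‖∏ j ∈ s, f j - ∏ j ∈ s, g j‖ + ‖f i - g i‖ * ‖∏ j ∈ s, g j‖ := by
          rw [← norm_mul, ← norm_mul]; exact norm_add_le _ _
      _ ≤ C * (C ^ s.card * ∑ j ∈ s, ‖f j - g j‖) + ‖f i - g i‖ * C ^ (s.card + 1) :=
          add_le_add (mul_le_mul h1 ih' (norm_nonneg _) hC0)
            (mul_le_mul_of_nonneg_left (h2.trans h4) (norm_nonneg _))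
      _ = _ := by ring

/-- telescoping estimate for integrals of products -/
lemma norm_integral_prod_sub_le [IsProbabilityMeasure μ] {ι : Type*} (s : Finset ι)
    {F G : ι → Ω → ℂ} {C : ℝ} (hC : 1 ≤ C)
    (hF : ∀ i ∈ s, AEStronglyMeasurable (F i) μ) (hG : ∀ i ∈ s, AEStronglyMeasurable (G i) μ)
    (hFC : ∀ i ∈ s, ∀ᵐ ω ∂μ, ‖F i ω‖ ≤ C) (hGC : ∀ i ∈ s, ∀ᵐ ω ∂μ, ‖G i ω‖ ≤ C) :
    ‖∫ ω, ∏ i ∈ s, F i ω ∂μ - ∫ ω, ∏ i ∈ s, G i ω ∂μ‖ ≤
      C ^ s.card * ∑ i ∈ s, ∫ ω, ‖F i ω - G i ω‖ ∂μ := by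
  have bF : ∀ i ∈ s, Bdd μ m0 (F i) := fun i hi => ⟨hF i hi, C, hFC i hi⟩
  have bG : ∀ i ∈ s, Bdd μ m0 (G i) := fun i hi => ⟨hG i hi, C, hGC i hi⟩
  have iF := (Bdd.prod s bF).integrable le_rfl
  have iG := (Bdd.prod s bG).integrable le_rfl
  have iD : ∀ i ∈ s, Integrable (fun ω => ‖F i ω - G i ω‖) μ := fun i hi =>
    (((bF i hi).sub (bG i hi)).integrable le_rfl).norm
  rw [← integral_sub iF iG, ← integral_finsetSum _ iD, ← integral_const_mul]
  refine (norm_integral_le_integral_norm _).trans (integral_mono_ae (iF.sub iG).norm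
    ((integrable_finsetSum _ iD).const_mul _) ?_)
  filter_upwards [(eventually_all_finset s).2 hFC, (eventually_all_finset s).2 hGC] with ω h1 h2
  exact ce1_norm_prod_sub_le s hC h1 h2

/-- Exchangeable Cauchy–Schwarz: a bounded sequence with constant correlations `c` and constant
correlation `a` with `G`. -/
lemma norm_sq_le_of_const_corr [IsProbabilityMeasure μ] {F : ℕ → Ω → ℂ} {G : Ω → ℂ} {C : ℝ}
    {x c : ℂ} (hF : ∀ n, AEStronglyMeasurable (F n) μ) (hFC : ∀ n, ∀ᵐ ω ∂μ, ‖F n ω‖ ≤ C)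
    (hG : Bdd μ m0 G) (hx : ∀ n, ∫ ω, F n ω * G ω ∂μ = x)
    (hc : ∀ n k, n < k → ∫ ω, F k ω * conj (F n ω) ∂μ = c) :
    ‖x‖ ^ 2 ≤ ‖c‖ * ∫ ω, ‖G ω‖ ^ 2 ∂μ := by
  have bF : ∀ n, Bdd μ m0 (F n) := fun n => ⟨hF n, C, hFC n⟩
  set I := ∫ ω, ‖G ω‖ ^ 2 ∂μ with hI
  have hI0 : 0 ≤ I := integral_nonneg fun ω => by positivity
  have hpair : ∀ k n, ‖∫ ω, F k ω * conj (F n ω) ∂μ‖ ≤ ‖c‖ + if k = n then C ^ 2 else 0 := by
    intro k n
    rcases lt_trichotomy n k with h | h | h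
    · rw [hc n k h, if_neg h.ne', add_zero]
    · subst h
      rw [if_pos rfl]
      have : ‖∫ ω, F n ω * conj (F n ω) ∂μ‖ ≤ C ^ 2 * μ.real Set.univ := by
        refine norm_integral_le_of_norm_le_const ?_
        filter_upwards [hFC n] with ω h
        rw [norm_mul, RCLike.norm_conj, ← sq]
        exact pow_le_pow_left₀ (norm_nonneg _) h 2
      rw [probReal_univ, mul_one] at this
      linarith [norm_nonneg c]
    · have : ∫ ω, F k ω * conj (F n ω) ∂μ = conj c := by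
        rw [← hc k n h, ← integral_conj]
        refine integral_congr_ae (Eventually.of_forall fun ω => ?_)
        simp [mul_comm]
      rw [this, if_neg h.ne, add_zero, RCLike.norm_conj]
  have key : ∀ N : ℕ, (N : ℝ) ^ 2 * ‖x‖ ^ 2 ≤ ((N : ℝ) ^ 2 * ‖c‖ + N * C ^ 2) * I := by
    intro N
    have bS : Bdd μ m0 (fun ω => ∑ n ∈ Finset.range N, F n ω) := Bdd.sum _ fun n _ => bF n
    have h1 := norm_integral_mul_sq_le (bS.memLp le_rfl 2) (hG.memLp le_rfl 2)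
    have h2 : ∫ ω, (∑ n ∈ Finset.range N, F n ω) * G ω ∂μ = N * x := by
      simp_rw [Finset.sum_mul]
      rw [integral_finsetSum _ fun n _ => ((bF n).mul hG).integrable le_rfl]
      simp [hx]
    have h3 : ∫ ω, ‖∑ n ∈ Finset.range N, F n ω‖ ^ 2 ∂μ ≤ (N : ℝ) ^ 2 * ‖c‖ + N * C ^ 2 := by
      have h4 := integral_mul_conj_eq (μ := μ) (fun ω => ∑ n ∈ Finset.range N, F n ω)
      have h5 : ∫ ω, (∑ n ∈ Finset.range N, F n ω) * conj (∑ n ∈ Finset.range N, F n ω) ∂μ =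
          ∑ k ∈ Finset.range N, ∑ n ∈ Finset.range N, ∫ ω, F k ω * conj (F n ω) ∂μ := by
        simp_rw [map_sum, Finset.sum_mul_sum]
        rw [integral_finsetSum _ fun k _ => integrable_finsetSum _ fun n _ =>
          ((bF k).mul (bF n).conj).integrable le_rfl]
        exact Finset.sum_congr rfl fun k _ => integral_finsetSum _ fun n _ =>
          ((bF k).mul (bF n).conj).integrable le_rfl
      calc ∫ ω, ‖∑ n ∈ Finset.range N, F n ω‖ ^ 2 ∂μ
          ≤ ‖((∫ ω, ‖∑ n ∈ Finset.range N, F n ω‖ ^ 2 ∂μ : ℝ) : ℂ)‖ := by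
            rw [Complex.norm_real]; exact le_abs_self _
        _ ≤ ∑ k ∈ Finset.range N, ∑ n ∈ Finset.range N, (‖c‖ + if k = n then C ^ 2 else 0) := by
            rw [← h4, h5]
            exact (norm_sum_le _ _).trans (Finset.sum_le_sum fun k _ =>
              (norm_sum_le _ _).trans (Finset.sum_le_sum fun n _ => hpair k n))
        _ = ∑ k ∈ Finset.range N, (N * ‖c‖ + C ^ 2) := by
            refine Finset.sum_congr rfl fun k hk => ?_
            rw [Finset.sum_add_distrib, Finset.sum_ite_eq, if_pos hk]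
            simp
        _ = _ := by simp; ring
    rw [h2, norm_mul, mul_pow, Complex.norm_natCast] at h1
    exact h1.trans (mul_le_mul_of_nonneg_right h3 hI0)
  have hlim : Tendsto (fun N : ℕ => ‖c‖ * I + C ^ 2 * I / (N : ℝ)) atTop (𝓝 (‖c‖ * I + 0)) :=
    tendsto_const_nhds.add (tendsto_const_div_atTop_nhds_zero_nat _)
  rw [add_zero] at hlim
  refine ge_of_tendsto hlim ?_
  filter_upwards [eventually_gt_atTop 0] with N hN
  have hN' : (0 : ℝ) < N := by exact_mod_cast hN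
  have h1 := key N
  have h2 : ‖c‖ * I + C ^ 2 * I / (N : ℝ) = ((N : ℝ) ^ 2 * ‖c‖ + N * C ^ 2) * I / (N : ℝ) ^ 2 := by
    field_simp
  rw [h2, le_div_iff₀ (by positivity)]
  linarith

end Crest.Agent.R069
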