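import Crest.Agent.R069.CE1

/-! Toolkit 2: extension lemmas, inclusion mod null sets. -/

set_option autoImplicit false
open MeasureTheory Filter Topology
open scoped ENNReal ComplexConjugate

namespace Crest.Agent.R069
set_option linter.unusedSectionVars false

variable {Ω : Type*} {a a' b b' c m m' z : MeasurableSpace Ω} {m0 : MeasurableSpace Ω}
  {μ : Measure Ω} {U U' H : Ω → ℂ}

/-! ### extension from generators -/

/-- an integrable function orthogonal to the indicators of a generating π-system (and to `1`)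
is orthogonal to all bounded measurable functions -/
lemma ext_pi [IsFiniteMeasure μ] {Ps : Set (Set Ω)} (hP : IsPiSystem Ps)
    (ha : a = MeasurableSpace.generateFrom Ps) (ham : a ≤ m0) (hH : Integrable H μ)
    (h0 : ∫ ω, H ω ∂μ = 0) (h : ∀ s ∈ Ps, ∫ ω in s, H ω ∂μ = 0) :
    ∀ G, Bdd μ a G → ∫ ω, G ω * H ω ∂μ = 0 := by
  have hall : ∀ s, MeasurableSet[a] s → ∫ ω in s, H ω ∂μ = 0 := by
    intro s hs
    refine @MeasurableSpace.induction_on_inter Ω a (fun s _ => ∫ ω in s, H ω ∂μ = 0) Ps ha hP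
      ?_ ?_ ?_ ?_ s hs
    · simp
    · exact fun t ht => h t ht
    · intro t ht iht
      have := integral_add_compl (ham t ht) hH
      rw [iht, h0, zero_add] at this
      exact this
    · intro f hd hf ih
      rw [integral_iUnion (fun i => ham _ (hf i)) hd hH.integrableOn]
      simp [ih]
  have hce : (0 : Ω → ℂ) =ᵐ[μ] μ[H|a] :=
    ae_eq_condExp_of_forall_setIntegral_eq ham hH (fun s _ _ => integrableOn_zero)
      (fun s hs _ => by rw [hall s hs]; simp) aestronglyMeasurable_zero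
  intro G hG
  simp_rw [mul_comm (G _)]
  rw [← integral_condExp_mul ham hH hG]
  refine (integral_congr_ae (g := fun _ => 0) ?_).trans (by simp)
  filter_upwards [hce] with ω hω
  rw [← hω]; simp

/-- orthogonality to products extends to the join -/
lemma ext_sup [IsFiniteMeasure μ] (ham : a ≤ m0) (hbm : b ≤ m0) (hH : Integrable H μ)
    (h : ∀ u v, Bdd μ a u → Bdd μ b v → ∫ ω, u ω * v ω * H ω ∂μ = 0) :
    ∀ G, Bdd μ (a ⊔ b) G → ∫ ω, G ω * H ω ∂μ = 0 := by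
  let Ps : Set (Set Ω) := {t | ∃ s s', MeasurableSet[a] s ∧ MeasurableSet[b] s' ∧ t = s ∩ s'}
  have hP : IsPiSystem Ps := by
    rintro _ ⟨s1, t1, hs1, ht1, rfl⟩ _ ⟨s2, t2, hs2, ht2, rfl⟩ -
    exact ⟨s1 ∩ s2, t1 ∩ t2, hs1.inter hs2, ht1.inter ht2, Set.inter_inter_inter_comm _ _ _ _⟩
  have hgen : a ⊔ b = MeasurableSpace.generateFrom Ps := by
    refine le_antisymm (sup_le ?_ ?_) (MeasurableSpace.generateFrom_le ?_)
    · intro s hs
      exact MeasurableSpace.measurableSet_generateFrom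
        ⟨s, Set.univ, hs, MeasurableSet.univ, (Set.inter_univ s).symm⟩
    · intro s hs
      exact MeasurableSpace.measurableSet_generateFrom
        ⟨Set.univ, s, MeasurableSet.univ, hs, (Set.univ_inter s).symm⟩
    · rintro _ ⟨s, t, hs, ht, rfl⟩
      exact MeasurableSet.inter ((le_sup_left : a ≤ a ⊔ b) s hs) ((le_sup_right : b ≤ a ⊔ b) t ht)
  refine ext_pi hP hgen (sup_le ham hbm) hH ?_ ?_
  · simpa using h (fun _ => 1) (fun _ => 1) (Bdd.const 1) (Bdd.const 1)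
  · rintro _ ⟨s, t, hs, ht, rfl⟩
    rw [← h _ _ (Bd.indicator hs).bdd (Bd.indicator ht).bdd,
      ← integral_indicator ((ham s hs).inter (hbm t ht))]
    refine integral_congr_ae (Eventually.of_forall fun ω => ?_)
    by_cases h1 : ω ∈ s <;> by_cases h2 : ω ∈ t <;> simp [Set.indicator, h1, h2]

/-- an integrable a.e. `m`-measurable function orthogonal to all bounded `m`-measurable
functions vanishes -/
lemma ae_eq_zero_of_forall_integral_mul [IsFiniteMeasure μ] (hm : m ≤ m0) (hH : Integrable H μ)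
    (hH' : AEStronglyMeasurable[m] H μ) (h : ∀ G, Bdd μ m G → ∫ ω, G ω * H ω ∂μ = 0) :
    H =ᵐ[μ] 0 := by
  have hce : (0 : Ω → ℂ) =ᵐ[μ] μ[H|m] := by
    refine ae_eq_condExp_of_forall_setIntegral_eq hm hH (fun s _ _ => integrableOn_zero)
      (fun s hs _ => ?_) aestronglyMeasurable_zero
    rw [← integral_indicator (hm s hs) (f := H)]
    have e : ∫ ω, s.indicator H ω ∂μ = ∫ ω, s.indicator (1 : Ω → ℂ) ω * H ω ∂μ := by
      refine integral_congr_ae (Eventually.of_forall fun ω => ?_)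
      by_cases h1 : ω ∈ s <;> simp [Set.indicator, h1]
    rw [e, h _ (Bd.indicator hs).bdd]
    simp
  exact (condExp_of_aestronglyMeasurable' hm hH' hH).symm.trans hce.symm

/-! ### `Sle` -/

lemma Sle.of_le (h : a ≤ b) : Sle μ a b := h.trans le_eventuallyMeasurableSpace

lemma Sle.refl : Sle μ a a := Sle.of_le le_rfl

lemma Sle.trans (h : Sle μ a b) (h' : Sle μ b c) : Sle μ a c := by
  intro s hs
  obtain ⟨t, ht, e⟩ := h s hs
  obtain ⟨u, hu, e'⟩ := h' t ht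
  exact ⟨u, hu, e.trans e'⟩

lemma Sle.sup (h : Sle μ a c) (h' : Sle μ b c) : Sle μ (a ⊔ b) c := sup_le h h'

lemma Sle.lsig {ι : Type*} {𝓑 : ι → MeasurableSpace Ω} {S : Set ι}
    (h : ∀ i ∈ S, Sle μ (𝓑 i) c) : Sle μ (lsig 𝓑 S) c := iSup₂_le h

lemma Sle.gsig {α β : Type*} {𝓐 : α → β → MeasurableSpace Ω} {S : Set (α × β)}
    (h : ∀ p ∈ S, Sle μ (𝓐 p.1 p.2) c) : Sle μ (gsig 𝓐 S) c := iSup₂_le h

lemma Sle.mono_right (h : Sle μ a b) (h' : b ≤ c) : Sle μ a c := h.trans (Sle.of_le h')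

lemma Sle.mono_left (h : a ≤ b) (h' : Sle μ b c) : Sle μ a c := (Sle.of_le h).trans h'

lemma Sle.aestronglyMeasurable (h : Sle μ a b) (hU : AEStronglyMeasurable[a] U μ) :
    AEStronglyMeasurable[b] U μ := by
  obtain ⟨g, hg, hUg⟩ := hU
  have hsimple : ∀ f : @SimpleFunc Ω a ℂ, AEStronglyMeasurable[b] f μ := by
    intro f
    refine @SimpleFunc.induction Ω ℂ a _ (fun f => AEStronglyMeasurable[b] f μ) ?_ ?_ f
    · intro x s hs
      obtain ⟨t, ht, e⟩ := h s hs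
      refine ⟨t.indicator fun _ => x, StronglyMeasurable.indicator (@stronglyMeasurable_const _ _ b _ x) ht, ?_⟩
      filter_upwards [e.mem_iff] with ω hω
      by_cases h1 : ω ∈ s
      · simp [h1, hω.1 h1]
      · have h2 : ω ∉ t := fun h2 => h1 (hω.2 h2)
        simp [h1, h2]
    · intro f f' _ hf hf'
      exact hf.add hf'
  choose g' hg' e' using fun n => hsimple (hg.approx n)
  refine ⟨fun ω => limUnder atTop (fun n => g' n ω),
    @StronglyMeasurable.limUnder _ _ _ b _ _ _ _ _ _ _ hg', ?_⟩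
  filter_upwards [hUg, ae_all_iff.2 e'] with ω h1 h2
  have h3 : Tendsto (fun n => g' n ω) atTop (𝓝 (g ω)) := by
    simpa only [h2] using hg.tendsto_approx ω
  rw [h1, h3.limUnder_eq]

lemma Sle.bdd (h : Sle μ a b) (hU : Bdd μ a U) : Bdd μ b U :=
  ⟨h.aestronglyMeasurable hU.1, hU.2⟩

lemma Sle.of_indicator
    (h : ∀ s, MeasurableSet[a] s → Bdd μ b (s.indicator (1 : Ω → ℂ))) : Sle μ a b := by
  intro s hs
  obtain ⟨⟨g, hg, e⟩, -⟩ := h s hs
  refine ⟨g ⁻¹' {1}, hg.measurable (measurableSet_singleton 1), ?_⟩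
  filter_upwards [e] with ω hω
  apply propext
  change ω ∈ s ↔ g ω = 1
  rw [← hω]
  by_cases h1 : ω ∈ s <;> simp [h1]

lemma Sle.of_bdd (h : ∀ U, Bdd μ a U → Bdd μ b U) : Sle μ a b :=
  Sle.of_indicator fun _ hs => h _ (Bd.indicator hs).bdd

lemma bdd_compl0_iff : Bdd μ (compl0 μ b) U ↔ Bdd μ b U :=
  ⟨fun h => Sle.bdd (a := compl0 μ b) (le_refl _) h, fun h => h.mono le_eventuallyMeasurableSpace⟩

/-- bounded functions for the intersection with completed σ-algebras -/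
lemma bdd_inf_compl0 (ha : Bdd μ a U) (hb : Bdd μ b U) (hc : Bdd μ c U) :
    Bdd μ (a ⊓ (compl0 μ b ⊓ compl0 μ c)) U := by
  obtain ⟨⟨g, hg, e⟩, hC⟩ := ha
  have key : ∀ {d : MeasurableSpace Ω}, AEStronglyMeasurable[d] U μ →
      Measurable[compl0 μ d] g := by
    rintro d ⟨g', hg', e'⟩ s hs
    refine ⟨g' ⁻¹' s, hg'.measurable hs, ?_⟩
    filter_upwards [e, e'] with ω h1 h2
    apply propext
    change g ω ∈ s ↔ g' ω ∈ s
    rw [← h1, ← h2]
  have hm : Measurable[a ⊓ (compl0 μ b ⊓ compl0 μ c)] g := fun s hs =>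
    ⟨hg.measurable hs, key hb.1 hs, key hc.1 hs⟩
  exact ⟨⟨g, hm.stronglyMeasurable, e⟩, hC⟩

lemma condExp_congr_sle [IsFiniteMeasure μ] (hm : m ≤ m0) (hm' : m' ≤ m0) (h : Sle μ m m')
    (h' : Sle μ m' m) (hU : Bdd μ m0 U) : μ[U|m] =ᵐ[μ] μ[U|m'] :=
  ae_eq_condExp_of_forall hm' hU (h.bdd hU.condExp) fun _ hH =>
    integral_condExp_mul hm (hU.integrable le_rfl) (h'.bdd hH)

/-- a bounded function measurable for the trivial σ-algebra is a.e. constant -/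
lemma Bdd.ae_eq_const_of_bot [IsProbabilityMeasure μ] (h : Bdd μ ⊥ U) :
    U =ᵐ[μ] fun _ => ∫ ω, U ω ∂μ := by
  have := condExp_of_bdd bot_le h
  rw [condExp_bot] at this
  exact this.symm

/-! ### joins -/

lemma le_lsig {ι : Type*} (𝓑 : ι → MeasurableSpace Ω) {S : Set ι} {i : ι} (hi : i ∈ S) :
    𝓑 i ≤ lsig 𝓑 S := le_iSup₂ (f := fun i (_ : i ∈ S) => 𝓑 i) i hi

lemma lsig_mono {ι : Type*} (𝓑 : ι → MeasurableSpace Ω) {S S' : Set ι} (h : S ⊆ S') :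
    lsig 𝓑 S ≤ lsig 𝓑 S' := biSup_mono h

lemma lsig_le {ι : Type*} {𝓑 : ι → MeasurableSpace Ω} {S : Set ι} (h : ∀ i ∈ S, 𝓑 i ≤ c) :
    lsig 𝓑 S ≤ c := iSup₂_le h

lemma lsig_union {ι : Type*} (𝓑 : ι → MeasurableSpace Ω) (S S' : Set ι) :
    lsig 𝓑 (S ∪ S') = lsig 𝓑 S ⊔ lsig 𝓑 S' := iSup_union

lemma lsig_singleton {ι : Type*} (𝓑 : ι → MeasurableSpace Ω) (i : ι) : lsig 𝓑 {i} = 𝓑 i := by
  simp [lsig]

lemma lsig_empty {ι : Type*} (𝓑 : ι → MeasurableSpace Ω) : lsig 𝓑 ∅ = ⊥ := by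
  simp [lsig]

lemma lsig_insert {ι : Type*} (𝓑 : ι → MeasurableSpace Ω) (i : ι) (S : Set ι) :
    lsig 𝓑 (insert i S) = 𝓑 i ⊔ lsig 𝓑 S := iSup_insert

lemma lsig_mono' {ι : Type*} {𝓑 𝓑' : ι → MeasurableSpace Ω} (h : ∀ i, 𝓑 i ≤ 𝓑' i) (S : Set ι) :
    lsig 𝓑 S ≤ lsig 𝓑' S := iSup₂_mono fun i _ => h i

lemma le_gsig {α β : Type*} (𝓐 : α → β → MeasurableSpace Ω) {S : Set (α × β)} {i : α} {j : β}
    (h : (i, j) ∈ S) : 𝓐 i j ≤ gsig 𝓐 S :=
  le_iSup₂ (f := fun (p : α × β) (_ : p ∈ S) => 𝓐 p.1 p.2) (i, j) h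

lemma gsig_mono {α β : Type*} (𝓐 : α → β → MeasurableSpace Ω) {S S' : Set (α × β)}
    (h : S ⊆ S') : gsig 𝓐 S ≤ gsig 𝓐 S' := biSup_mono h

lemma gsig_le {α β : Type*} {𝓐 : α → β → MeasurableSpace Ω} {S : Set (α × β)}
    (h : ∀ i j, (i, j) ∈ S → 𝓐 i j ≤ c) : gsig 𝓐 S ≤ c := iSup₂_le fun p hp => h p.1 p.2 hp

lemma gsig_union {α β : Type*} (𝓐 : α → β → MeasurableSpace Ω) (S S' : Set (α × β)) :
    gsig 𝓐 (S ∪ S') = gsig 𝓐 S ⊔ gsig 𝓐 S' := iSup_union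

lemma gsig_mono' {α β : Type*} {𝓐 𝓐' : α → β → MeasurableSpace Ω} (h : ∀ i j, 𝓐 i j ≤ 𝓐' i j)
    (S : Set (α × β)) : gsig 𝓐 S ≤ gsig 𝓐' S := iSup₂_mono fun p _ => h p.1 p.2

lemma gsig_flip {α β : Type*} (𝓐 : α → β → MeasurableSpace Ω) (S : Set (β × α)) :
    gsig (flip 𝓐) S = gsig 𝓐 {p | p.swap ∈ S} :=
  le_antisymm (gsig_le fun j i h => le_gsig 𝓐 (i := i) (j := j) h)
    (gsig_le fun i j h => le_gsig (flip 𝓐) (i := j) (j := i) h)

lemma lsig_col {α β : Type*} (𝓐 : α → β → MeasurableSpace Ω) (i : α) (S : Set β) :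
    lsig (𝓐 i) S = gsig 𝓐 {p | p.1 = i ∧ p.2 ∈ S} :=
  le_antisymm (lsig_le fun j h => le_gsig 𝓐 (i := i) (j := j) ⟨rfl, h⟩)
    (gsig_le fun _ _ h => by obtain ⟨rfl, h⟩ := h; exact le_lsig (𝓐 _) h)

lemma lsig_row {α β : Type*} (𝓐 : α → β → MeasurableSpace Ω) (j : β) (S : Set α) :
    lsig (flip 𝓐 j) S = gsig 𝓐 {p | p.1 ∈ S ∧ p.2 = j} :=
  le_antisymm (lsig_le fun i h => le_gsig 𝓐 (i := i) (j := j) ⟨h, rfl⟩)
    (gsig_le fun _ _ h => by obtain ⟨h, rfl⟩ := h; exact le_lsig (flip 𝓐 _) h)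

end Crest.Agent.R069
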