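import Crest.Agent.R069.CE2

/-! Toolkit 3: `CI`, `Ind`, `IsOp`. -/

set_option autoImplicit false
open MeasureTheory Filter Topology
open scoped ENNReal ComplexConjugate

namespace Crest.Agent.R069
set_option linter.unusedSectionVars false

variable {Ω : Type*} {a a' b b' c d m m' z : MeasurableSpace Ω} {m0 : MeasurableSpace Ω}
  {μ : Measure Ω} [IsProbabilityMeasure μ] {U U' H : Ω → ℂ}

lemma CI.symm (ha : a ≤ m0) (hm : m ≤ m0) (hb : b ≤ m0) (h : CI μ a m b) : CI μ b m a := by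
  intro U H hU hH
  rw [integral_condExp_mul_comm hm (hU.mono hb) (hH.mono ha)]
  simp_rw [mul_comm (U _)]
  exact h H U hH hU

lemma CI.mono (h : CI μ a m b) (ha : a' ≤ a) (hb : b' ≤ b) : CI μ a' m b' :=
  fun U H hU hH => h U H (hU.mono ha) (hH.mono hb)

lemma CI.mono_sle (h : CI μ a m b) (ha : Sle μ a' a) (hb : Sle μ b' b) : CI μ a' m b' :=
  fun U H hU hH => h U H (ha.bdd hU) (hb.bdd hH)

lemma CI.condExp_eq (ha : a ≤ m0) (hb : b ≤ m0) (hmb : m ≤ b) (h : CI μ a m b)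
    (hU : Bdd μ a U) : μ[U|b] =ᵐ[μ] μ[U|m] :=
  (ae_eq_condExp_of_forall hb (hU.mono ha) (hU.condExp.mono hmb)
    fun H hH => (h U H hU hH).symm).symm

lemma CI.of_condExp_eq (ha : a ≤ m0) (hb : b ≤ m0)
    (h : ∀ U, Bdd μ a U → μ[U|b] =ᵐ[μ] μ[U|m]) : CI μ a m b := by
  intro U H hU hH
  rw [← integral_condExp_mul hb (hU.integrable ha) hH]
  exact integral_congr_ae (by filter_upwards [h U hU] with ω hω using by rw [hω])

/-- enlarge the middle σ-algebra -/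
lemma CI.mid (ha : a ≤ m0) (hb : b ≤ m0) (hmm' : m ≤ m') (hm'b : m' ≤ b) (h : CI μ a m b) :
    CI μ a m' b :=
  CI.of_condExp_eq ha hb fun _ hU =>
    (h.condExp_eq ha hb (hmm'.trans hm'b) hU).trans
      ((h.mono le_rfl hm'b).condExp_eq ha (hm'b.trans hb) hmm' hU).symm

lemma CI.congr_mid (ha : a ≤ m0) (hm : m ≤ m0) (hm' : m' ≤ m0) (h1 : Sle μ m m')
    (h2 : Sle μ m' m) (h : CI μ a m b) : CI μ a m' b := by
  intro U H hU hH
  rw [h U H hU hH]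
  exact integral_congr_ae (by
    filter_upwards [condExp_congr_sle hm hm' h1 h2 (hU.mono ha)] with ω hω using by rw [hω])

lemma CI.of_le (hm : m ≤ m0) (h : a ≤ m) : CI μ a m b := fun U _ hU _ =>
  integral_congr_ae (by
    filter_upwards [condExp_of_bdd hm (hU.mono h)] with ω hω using by rw [hω])

/-- it suffices to test on honest functions -/
lemma CI.of_bd (h : ∀ U H, Bd a U → Bd b H →
    ∫ ω, U ω * H ω ∂μ = ∫ ω, (μ[U|m]) ω * H ω ∂μ) : CI μ a m b := by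
  intro U H hU hH
  obtain ⟨U', hU', e⟩ := hU.exists_bd
  obtain ⟨H', hH', e'⟩ := hH.exists_bd
  have := h U' H' hU' hH'
  rw [integral_congr_ae (g := fun ω => U' ω * H' ω)
    (by filter_upwards [e, e'] with ω h1 h2 using by rw [h1, h2]), this]
  exact integral_congr_ae (by
    filter_upwards [condExp_congr_ae (m := m) e, e'] with ω h1 h2 using by rw [h1, h2])

/-- adjoin `z ≤ b` to the first two σ-algebras -/
lemma CI.sup (ha : a ≤ m0) (hb : b ≤ m0) (hmb : m ≤ b) (hzb : z ≤ b) (h : CI μ a m b) :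
    CI μ (a ⊔ z) (m ⊔ z) b := by
  intro U H hU hH
  have hz : z ≤ m0 := hzb.trans hb
  have hmz : m ⊔ z ≤ m0 := sup_le (hmb.trans hb) hz
  have h' : CI μ a (m ⊔ z) b := h.mid ha hb le_sup_left (sup_le hmb hzb)
  have hH0 := hH.mono hb
  have hE : Bdd μ (m ⊔ z) (μ[H|m ⊔ z]) := hH.condExp
  have hU0 := hU.mono (sup_le ha hz)
  rw [integral_condExp_mul_comm hmz hU0 hH0, ← sub_eq_zero,
    ← integral_sub ((hU0.mul hH0).integrable le_rfl) ((hU0.mul (hE.mono hmz)).integrable le_rfl)]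
  simp_rw [← mul_sub]
  refine ext_sup ha hz ((hH0.sub (hE.mono hmz)).integrable le_rfl) (fun u v hu hv => ?_) U hU
  have hu0 := hu.mono ha
  have hv0 := hv.mono hz
  have hEu : Bdd μ (m ⊔ z) (μ[u|m ⊔ z]) := hu.condExp
  simp_rw [mul_sub, mul_assoc]
  rw [integral_sub ((hu0.mul (hv0.mul hH0)).integrable le_rfl)
    ((hu0.mul (hv0.mul (hE.mono hmz))).integrable le_rfl), sub_eq_zero,
    h' u _ hu ((hv.mono hzb).mul hH),
    ← integral_condExp_mul hmz (hu0.integrable le_rfl) ((hv.mono le_sup_right).mul hE)]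
  simp_rw [← mul_assoc, mul_comm (_ * v _)]
  exact (integral_condExp_mul hmz (hH0.integrable le_rfl) (hEu.mul (hv.mono le_sup_right))).symm

lemma ind_iff_ci : Ind μ a b ↔ CI μ a ⊥ b := by
  simp only [Ind, CI, condExp_bot, integral_const_mul]

lemma Ind.symm (h : Ind μ a b) : Ind μ b a := fun U H hU hH => by
  simp_rw [mul_comm (U _)]
  rw [h H U hH hU, mul_comm]

lemma Ind.mono (h : Ind μ a b) (ha : a' ≤ a) (hb : b' ≤ b) : Ind μ a' b' :=
  fun U H hU hH => h U H (hU.mono ha) (hH.mono hb)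

lemma Ind.mono_sle (h : Ind μ a b) (ha : Sle μ a' a) (hb : Sle μ b' b) : Ind μ a' b' :=
  fun U H hU hH => h U H (ha.bdd hU) (hb.bdd hH)

lemma Ind.condExp_eq (ha : a ≤ m0) (hb : b ≤ m0) (h : Ind μ a b) (hU : Bdd μ a U) :
    μ[U|b] =ᵐ[μ] fun _ => ∫ ω, U ω ∂μ := by
  have := (ind_iff_ci.1 h).condExp_eq ha hb bot_le hU
  rwa [condExp_bot] at this

lemma Ind.ci_sup (ha : a ≤ m0) (hb : b ≤ m0) (hzb : z ≤ b) (h : Ind μ a b) :
    CI μ (a ⊔ z) z b := by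
  simpa using (ind_iff_ci.1 h).sup ha hb bot_le hzb

lemma Ind.ci_of_le (ha : a ≤ m0) (hb : b ≤ m0) (hd : d ≤ a) (h : Ind μ a b) :
    CI μ a d (b ⊔ d) :=
  (h.symm.ci_sup hb ha hd).symm (sup_le hb (hd.trans ha)) (hd.trans ha) ha

/-- chain rule for independence -/
lemma Ind.sup (ha : a ≤ m0) (hb : b ≤ m0) (hc : c ≤ m0) (h1 : Ind μ a (b ⊔ c)) (h2 : Ind μ b c) :
    Ind μ (a ⊔ b) c := by
  intro G H hG hH
  have hG0 := hG.mono (sup_le ha hb)
  have hH' : Bdd μ c (fun ω => H ω - ∫ ω, H ω ∂μ) := hH.sub (Bdd.const _)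
  have h0 : ∫ ω, (H ω - ∫ ω, H ω ∂μ) ∂μ = 0 := by
    rw [integral_sub (hH.integrable hc) (integrable_const _)]
    simp
  have h3 := ext_sup ha hb (hH'.integrable hc) (fun u v hu hv => by
    simp_rw [mul_assoc]
    rw [h1 u _ hu ((hv.mono le_sup_left).mul (hH'.mono le_sup_right)), h2 v _ hv hH', h0,
      mul_zero, mul_zero]) G hG
  simp_rw [mul_sub] at h3
  rwa [integral_sub ((hG0.mul (hH.mono hc)).integrable le_rfl)
    ((hG0.integrable le_rfl).mul_const _), integral_mul_const, sub_eq_zero] at h3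

lemma ce3_indep (ha : a ≤ m0) (hb : b ≤ m0) (h : Ind μ a b) : ProbabilityTheory.Indep a b μ := by
  rw [ProbabilityTheory.Indep_iff]
  intro s t hs ht
  have h1 := h _ _ (Bd.indicator hs).bdd (Bd.indicator ht).bdd
  have h2 : (fun ω => s.indicator (1 : Ω → ℂ) ω * t.indicator (1 : Ω → ℂ) ω) =
      (s ∩ t).indicator (fun _ => (1 : ℂ)) := by
    funext ω
    by_cases h3 : ω ∈ s <;> by_cases h4 : ω ∈ t <;> simp [h3, h4]
  have h5 : ∀ u, MeasurableSet u → ∫ ω, u.indicator (fun _ => (1 : ℂ)) ω ∂μ = μ.real u := by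
    intro u hu
    rw [integral_indicator_const _ hu]
    simp
  rw [h2, h5 _ ((ha _ hs).inter (hb _ ht))] at h1
  erw [h5 _ (ha _ hs), h5 _ (hb _ ht)] at h1
  have h6 : μ.real (s ∩ t) = μ.real s * μ.real t := by exact_mod_cast h1
  rw [← ENNReal.toReal_eq_toReal_iff' (measure_ne_top _ _)
    (ENNReal.mul_ne_top (measure_ne_top _ _) (measure_ne_top _ _)), ENNReal.toReal_mul]
  exact h6

/-- `Ind` gives the product formula for `L²` functions too -/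
lemma Ind.integral_norm_sq_mul (ha : a ≤ m0) (hb : b ≤ m0) (h : Ind μ a b)
    (hU : AEStronglyMeasurable[a] U μ) (hU2 : MemLp U 2 μ)
    (hH : AEStronglyMeasurable[b] H μ) (hH2 : MemLp H 2 μ) :
    MemLp (fun ω => U ω * H ω) 2 μ ∧
      ∫ ω, ‖U ω * H ω‖ ^ 2 ∂μ = (∫ ω, ‖U ω‖ ^ 2 ∂μ) * ∫ ω, ‖H ω‖ ^ 2 ∂μ := by
  have hi := ce3_indep ha hb h
  obtain ⟨U', hU', e⟩ := id hU
  obtain ⟨H', hH', e'⟩ := id hH
  have h1 : ProbabilityTheory.IndepFun U' H' μ :=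
    (ProbabilityTheory.IndepFun_iff_Indep U' H' μ).2 (ProbabilityTheory.indep_of_indep_of_le_right
      (ProbabilityTheory.indep_of_indep_of_le_left hi hU'.measurable.comap_le)
      hH'.measurable.comap_le)
  have hm : Measurable fun x : ℂ => ‖x‖ ^ 2 := measurable_norm.pow_const 2
  have h2 : ProbabilityTheory.IndepFun (fun ω => ‖U ω‖ ^ 2) (fun ω => ‖H ω‖ ^ 2) μ :=
    (h1.congr e.symm e'.symm).comp hm hm
  have iU : Integrable (fun ω => ‖U ω‖ ^ 2) μ := hU2.integrable_norm_pow (by norm_num)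
  have iH : Integrable (fun ω => ‖H ω‖ ^ 2) μ := hH2.integrable_norm_pow (by norm_num)
  simp_rw [norm_mul, mul_pow]
  refine ⟨(memLp_two_iff_integrable_sq_norm (hU2.1.mul hH2.1)).2 ?_,
    h2.integral_fun_mul_eq_mul_integral iU.1 iH.1⟩
  simp_rw [Pi.mul_apply, norm_mul, mul_pow]
  exact h2.integrable_mul iU iH

/-! ### `IsOp` -/

lemma IsOp.id : IsOp μ (fun G => G) :=
  ⟨fun _ h => h, fun G => G, fun _ h => h, fun _ _ _ _ => rfl⟩

lemma IsOp.comp {Φ Ψ : (Ω → ℂ) → (Ω → ℂ)} (h : IsOp μ Φ) (h' : IsOp μ Ψ) :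
    IsOp μ (fun G => Φ (Ψ G)) := by
  obtain ⟨h1, Φ', h2, h3⟩ := h
  obtain ⟨h1', Ψ', h2', h3'⟩ := h'
  exact ⟨fun G hG => h1 _ (h1' G hG), fun ψ => Ψ' (Φ' ψ), fun ψ hψ => h2' _ (h2 ψ hψ),
    fun G ψ hG hψ => by rw [h3 _ _ (h1' G hG) hψ, h3' _ _ hG (h2 ψ hψ)]⟩

lemma IsOp.mul (hU : Bdd μ m0 U) : IsOp μ (fun G => U * G) :=
  ⟨fun _ h => hU.mul' h, fun G => U * G, fun _ h => hU.mul' h, fun G ψ _ _ =>
    integral_congr_ae (Eventually.of_forall fun ω => by simp only [Pi.mul_apply]; ring)⟩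

lemma IsOp.condExp (hm : m ≤ m0) : IsOp μ (fun G => μ[G|m]) :=
  ⟨fun _ h => h.condExp.mono hm, fun G => μ[G|m], fun _ h => h.condExp.mono hm,
    fun _ _ hG hψ => integral_condExp_mul_comm hm hG hψ⟩

lemma IsOp.zero : IsOp μ (fun _ => 0) :=
  ⟨fun _ _ => Bdd.const 0, fun _ => 0, fun _ _ => Bdd.const 0, fun _ _ _ _ => by simp⟩

lemma IsOp.congr {Φ : (Ω → ℂ) → (Ω → ℂ)} (h : IsOp μ Φ) (hU : Bdd μ m0 U) (e : U =ᵐ[μ] U') :
    Φ U =ᵐ[μ] Φ U' := by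
  obtain ⟨h1, Φ', h2, h3⟩ := h
  refine ae_eq_of_forall_integral_mul_eq le_rfl (h1 _ hU) (h1 _ (hU.congr e)) fun H hH => ?_
  rw [h3 _ _ hU hH, h3 _ _ (hU.congr e) hH]
  exact integral_congr_ae (by filter_upwards [e] with ω hω using by rw [hω])

/-- operators agreeing on products agree on the join -/
lemma IsOp.ext_sup {Φ Ψ : (Ω → ℂ) → (Ω → ℂ)} (h : IsOp μ Φ) (h' : IsOp μ Ψ) (ha : a ≤ m0)
    (hb : b ≤ m0) (e : ∀ u v, Bdd μ a u → Bdd μ b v → Φ (u * v) =ᵐ[μ] Ψ (u * v)) :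
    ∀ G, Bdd μ (a ⊔ b) G → Φ G =ᵐ[μ] Ψ G := by
  intro G hG
  obtain ⟨h1, Φ', h2, h3⟩ := h
  obtain ⟨h1', Ψ', h2', h3'⟩ := h'
  have key : ∀ G ψ, Bdd μ m0 G → Bdd μ m0 ψ → ∫ ω, G ω * (Φ' ψ ω - Ψ' ψ ω) ∂μ =
      ∫ ω, Φ G ω * ψ ω ∂μ - ∫ ω, Ψ G ω * ψ ω ∂μ := by
    intro G ψ hG hψ
    simp_rw [mul_sub]
    rw [integral_sub ((hG.mul (h2 ψ hψ)).integrable le_rfl) ((hG.mul (h2' ψ hψ)).integrable le_rfl),
      h3 G ψ hG hψ, h3' G ψ hG hψ]
  have hG0 := hG.mono (sup_le ha hb)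
  refine ae_eq_of_forall_integral_mul_eq le_rfl (h1 _ hG0) (h1' _ hG0) fun ψ hψ => ?_
  rw [← sub_eq_zero, ← key G ψ hG0 hψ]
  refine R069.ext_sup ha hb (((h2 ψ hψ).sub (h2' ψ hψ)).integrable le_rfl) (fun u v hu hv => ?_) G hG
  have h4 := key (u * v) ψ ((hu.mono ha).mul' (hv.mono hb)) hψ
  simp only [Pi.mul_apply] at h4
  rw [h4, sub_eq_zero]
  exact integral_congr_ae (by filter_upwards [e u v hu hv] with ω hω using by rw [hω])

end Crest.Agent.R069
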