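import Crest.Agent.R069.Geo

/-! The constant norm lemma and its instances. -/

set_option autoImplicit false
open MeasureTheory Filter Topology
open scoped ENNReal ComplexConjugate

namespace Crest.Agent.R069
set_option linter.unusedSectionVars false

variable {L V A κ : Type} [AddCommGroup L] [Countable L] [Fintype V] [DecidableEq V]
  [MeasurableSpace A] [Fintype A] [Nonempty A] [DiscreteMeasurableSpace A]
  {v0 : V} {vec : V → L} {P : Measure (Gam L → A)} [IsProbabilityMeasure P]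
  {𝒰 : Ultrafilter κ} {b : κ → V → ℕ}

lemma cn_sq {Ω : Type*} {m0 : MeasurableSpace Ω} {μ : Measure Ω} [IsProbabilityMeasure μ]
    {E W : Ω → ℂ} (hE : Bdd μ m0 E) (hW : Bdd μ m0 W) :
    ∫ ω, ‖conj (E ω) - W ω‖ ^ 2 ∂μ =
      ∫ ω, ‖E ω‖ ^ 2 ∂μ - 2 * (∫ ω, E ω * W ω ∂μ).re + ∫ ω, ‖W ω‖ ^ 2 ∂μ := by
  have h1 : Integrable (fun ω => ‖E ω‖ ^ 2) μ :=
    (hE.memLp le_rfl 2).integrable_norm_pow (by norm_num)
  have h2 : Integrable (fun ω => ‖W ω‖ ^ 2) μ :=
    (hW.memLp le_rfl 2).integrable_norm_pow (by norm_num)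
  have h3 : Integrable (fun ω => E ω * W ω) μ := (hE.mul hW).integrable le_rfl
  have h4 : ∫ ω, (E ω * W ω).re ∂μ = (∫ ω, E ω * W ω ∂μ).re := integral_re h3
  have h5 : Integrable (fun ω => 2 * (E ω * W ω).re) μ := h3.re.const_mul 2
  have h6 : Integrable (fun ω => ‖E ω‖ ^ 2 - 2 * (E ω * W ω).re) μ := h1.sub h5
  rw [← h4, ← integral_const_mul, ← integral_sub h1 h5, ← integral_add h6 h2]
  refine integral_congr_ae (Eventually.of_forall fun ω => ?_)
  simp only [Complex.sq_norm, Complex.normSq_apply, Complex.sub_re, Complex.sub_im,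
    Complex.conj_re, Complex.conj_im, Complex.mul_re]
  ring

lemma cn_Rm_congr {K : Set ℚ} {F : (Gam L → A) → ℂ} (hF : Bd (cyl A (GamOn L K)) F)
    {φ ψ : ℚ → ℚ} (e : ∀ k ∈ K, φ k = ψ k) (ω : Gam L → A) : F (Rm φ ω) = F (Rm ψ ω) :=
  hF.eq_of_eqOn fun γ hγ => by simp only [Rm, push_congr hγ e]

/-- Constant norm lemma.  For a cylinder function `U` on `R` and a cylinder function `W` on `S2`,
`∫ U W = ∫ U · W∘Rm φ` (`spr`), `W∘Rm φ` is `cyl S1`-measurable with the same `L²` norm, so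
`‖∫ U W‖ ≤ ‖E[U|S1]‖₂ ‖W‖₂`.  By `approx_cyl_sq` this holds for `W = conj E[U|S2]`, so
`‖E[U|S2]‖₂ ≤ ‖E[U|S1]‖₂`; since `E[U|S1] = E[E[U|S2]|S1]` the two agree
(`ae_eq_condExp_of_integral_mul_conj`).  Then `CI.of_cyl_left`. -/
theorem Arr.cn (h : Arr v0 vec P 𝒰 b) {R S1 S2 : Set (Gam L)} (h12 : S1 ⊆ S2)
    (hmv : ∀ R0 S0 : Finset (Gam L), (R0 : Set (Gam L)) ⊆ R → (S0 : Set (Gam L)) ⊆ S2 →
      ∃ (K : Set ℚ) (φ : ℚ → ℚ), StrictMonoOn φ K ∧ (∀ γ ∈ R0, γ ∈ GamOn L K) ∧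
        (∀ γ ∈ S0, γ ∈ GamOn L K) ∧ (∀ γ ∈ R0, push φ γ = γ) ∧ ∀ γ ∈ S0, push φ γ ∈ S1) :
    CI P (cyl A R) (cyl A S1) (cyl A S2) := by
  refine CI.of_cyl_left (cyl_le _) (cyl_le _) fun U H hU hH => ?_
  obtain ⟨R0, hR0, hU0⟩ := hU
  have hUb : Bdd P MeasurableSpace.pi U := (hU0.mono (cyl_le _)).bdd
  have hUi := hUb.integrable le_rfl
  have hE1 : Bdd P (cyl A S1) (P[U|cyl A S1]) := hUb.condExp
  have hE2 : Bdd P (cyl A S2) (P[U|cyl A S2]) := hUb.condExp
  have hE1' := hE1.mono (cyl_le _)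
  have hE2' := hE2.mono (cyl_le _)
  have key : ∀ W, Cyl S2 W →
      2 * (∫ ω, U ω * W ω ∂P).re - ∫ ω, ‖W ω‖ ^ 2 ∂P ≤ ∫ ω, ‖(P[U|cyl A S1]) ω‖ ^ 2 ∂P := by
    rintro W ⟨S0, hS0, hW⟩
    obtain ⟨K, φ, hφ, h1, h2, h3, h4⟩ := hmv R0 S0 hR0 hS0
    have hUK := hU0.mono (cyl_mono (S' := GamOn L K) h1)
    have hWK := hW.mono (cyl_mono (S' := GamOn L K) h2)
    have hW' : Bd (cyl A S1) fun ω => W (Rm φ ω) := hW.comp (measurable_Rm_cyl φ h4)
    have e1 := h.spr K φ hφ _ (hUK.mul hWK)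
    simp only [hU0.Rm_eq h3] at e1
    have e2 := h.spr K φ hφ _ (hWK.mul hWK.conj)
    rw [integral_mul_conj_eq (fun ω => W (Rm φ ω)), integral_mul_conj_eq W,
      Complex.ofReal_inj] at e2
    have e3 := cn_sq hE1' (hW'.mono (cyl_le _)).bdd
    rw [integral_condExp_mul (cyl_le _) hUi hW'.bdd, e1, e2] at e3
    have e4 : 0 ≤ ∫ ω, ‖conj ((P[U|cyl A S1]) ω) - W (Rm φ ω)‖ ^ 2 ∂P :=
      integral_nonneg fun ω => by positivity
    linarith
  have hle : ∫ ω, ‖(P[U|cyl A S2]) ω‖ ^ 2 ∂P ≤ ∫ ω, ‖(P[U|cyl A S1]) ω‖ ^ 2 ∂P := by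
    refine le_of_forall_pos_le_add fun ε hε => ?_
    obtain ⟨hm, C, hC⟩ := hE2.conj
    obtain ⟨W, hW, -, hWε⟩ := approx_cyl_sq (C := max C 0) hm (le_max_right _ _)
      (by filter_upwards [hC] with ω hω using hω.trans (le_max_left _ _)) hε
    have e1 := cn_sq hE2' (hW.bd.mono (cyl_le _)).bdd
    rw [integral_condExp_mul (cyl_le _) hUi hW.bd.bdd] at e1
    have := key W hW
    linarith
  have e1 := cn_sq hE2' hE1'.conj
  rw [integral_condExp_mul (cyl_le _) hUi (hE1.conj.mono (cyl_mono h12)),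
    ← integral_condExp_mul (cyl_le S1) hUi hE1.conj, integral_mul_conj_eq, Complex.ofReal_re] at e1
  simp only [← map_sub, RCLike.norm_conj] at e1
  have e2 : 0 ≤ ∫ ω, ‖(P[U|cyl A S2]) ω - (P[U|cyl A S1]) ω‖ ^ 2 ∂P :=
    integral_nonneg fun ω => by positivity
  have e3 := ae_eq_zero_of_integral_mul_conj (hE2'.sub hE1') (by
    rw [integral_mul_conj_eq (fun ω => (P[U|cyl A S2]) ω - (P[U|cyl A S1]) ω), Complex.ofReal_eq_zero]
    linarith)
  rw [← integral_condExp_mul (cyl_le S2) hUi hH]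
  refine integral_congr_ae ?_
  filter_upwards [e3] with ω hω
  rw [sub_eq_zero.1 hω]

/-- Exchangeable Cauchy–Schwarz.  Take `r_n ↑` in `(r, q)`, `F_n = F ∘ Rm (update id q r_n)`, use
`spr` (on `K`, resp. on `insert r K` with `r ↦ r_n`, `q ↦ r_k`), `Rm_Rm`, `Bd.Rm_eq` and
`norm_sq_le_of_const_corr`. -/
theorem Arr.xcs (h : Arr v0 vec P 𝒰 b) {K : Set ℚ} {q r : ℚ} (hr : r < q)
    (hgap : ∀ k ∈ K, k < q → k < r) {F G : (Gam L → A) → ℂ} (hF : Bd (cyl A (GamOn L K)) F)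
    (hG : Bd (cyl A (GamOn L (K \ {q}))) G) :
    ‖∫ ω, F ω * G ω ∂P‖ ^ 2 ≤
      ‖∫ ω, F ω * conj (F (Rm (Function.update id q r) ω)) ∂P‖ * ∫ ω, ‖G ω‖ ^ 2 ∂P := by
  let ρ : ℕ → ℚ := fun n => q - (q - r) / (n + 2)
  have hqr : 0 < q - r := sub_pos.2 hr
  have h1 : ∀ n, ρ n < q := fun n => sub_lt_self _ (by positivity)
  have h2 : ∀ n, r < ρ n := fun n => by
    have : (q - r) / (n + 2) < q - r := div_lt_self hqr (by
      have : (0 : ℚ) ≤ n := Nat.cast_nonneg n
      linarith)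
    simp only [ρ]
    linarith
  have h3 : ∀ n k, n < k → ρ n < ρ k := fun n k hnk => by
    have : (q - r) / (k + 2) < (q - r) / (n + 2) :=
      div_lt_div_of_pos_left hqr (by positivity) (by exact_mod_cast Nat.add_lt_add_right hnk 2)
    simp only [ρ]
    linarith
  have hrK : r ∉ K := fun h' => lt_irrefl _ (hgap r h' hr)
  obtain ⟨hFm, C, hC⟩ := id hF
  refine norm_sq_le_of_const_corr (F := fun n ω => F (Rm (Function.update id q (ρ n)) ω)) (C := C)
    (fun n => ((hFm.mono (cyl_le _) le_rfl).comp (measurable_Rm _)).aestronglyMeasurable)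
    (fun n => Eventually.of_forall fun ω => hC _) (hG.mono (cyl_le _)).bdd (fun n => ?_)
    fun n k hnk => ?_
  · have e1 := h.spr K _ (strictMonoOn_update (h1 n).le fun k hk hkq => (hgap k hk hkq).trans (h2 n))
      _ (hF.mul (hG.mono (cyl_mono (GamOn_mono Set.sdiff_subset))))
    simp only [hG.Rm_eq fun γ hγ => push_eq_self (φ := Function.update id q (ρ n)) hγ
      fun k hk => Function.update_of_ne hk.2 _ _] at e1
    exact e1
  · let ψ : ℚ → ℚ := Function.update (Function.update id q (ρ k)) r (ρ n)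
    have hψ1 : ψ r = ρ n := Function.update_self _ _ _
    have hψ2 : ψ q = ρ k := by
      simp only [ψ]
      rw [Function.update_of_ne hr.ne', Function.update_self]
    have hψ3 : ∀ x, x ≠ r → x ≠ q → ψ x = x := fun x hx hx' => by
      simp only [ψ]
      rw [Function.update_of_ne hx, Function.update_of_ne hx', id]
    have hψ : StrictMonoOn ψ (insert r K) := by
      intro x hx y hy hxy
      have a1 := h1 n
      have a2 := h1 k
      have a3 := h2 n
      have a4 := h2 k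
      have a5 := h3 n k hnk
      have hx' : x = r ∨ x = q ∨ (x ≠ r ∧ x ≠ q ∧ (x < r ∨ q < x)) := by
        rcases hx with hx | hx
        · exact Or.inl hx
        · rcases lt_trichotomy x q with h' | h' | h'
          · exact Or.inr (Or.inr ⟨(hgap x hx h').ne, h'.ne, Or.inl (hgap x hx h')⟩)
          · exact Or.inr (Or.inl h')
          · exact Or.inr (Or.inr ⟨(hr.trans h').ne', h'.ne', Or.inr h'⟩)
      have hy' : y = r ∨ y = q ∨ (y ≠ r ∧ y ≠ q ∧ (y < r ∨ q < y)) := by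
        rcases hy with hy | hy
        · exact Or.inl hy
        · rcases lt_trichotomy y q with h' | h' | h'
          · exact Or.inr (Or.inr ⟨(hgap y hy h').ne, h'.ne, Or.inl (hgap y hy h')⟩)
          · exact Or.inr (Or.inl h')
          · exact Or.inr (Or.inr ⟨(hr.trans h').ne', h'.ne', Or.inr h'⟩)
      rcases hx' with rfl | rfl | ⟨b1, b2, b3⟩ <;> rcases hy' with rfl | rfl | ⟨c1, c2, c3⟩
      · exact absurd hxy (lt_irrefl _)
      · rw [hψ1, hψ2]; exact a5
      · rw [hψ1, hψ3 y c1 c2]; rcases c3 with c3 | c3 <;> linarith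
      · exact absurd hxy (not_lt.2 hr.le)
      · exact absurd hxy (lt_irrefl _)
      · rw [hψ2, hψ3 y c1 c2]; rcases c3 with c3 | c3 <;> linarith
      · rw [hψ1, hψ3 x b1 b2]; linarith
      · rw [hψ2, hψ3 x b1 b2]; rcases b3 with b3 | b3 <;> linarith
      · rw [hψ3 x b1 b2, hψ3 y c1 c2]; exact hxy
    have hF' : Bd (cyl A (GamOn L (insert r K))) fun ω => F (Rm (Function.update id q r) ω) :=
      hF.comp (measurable_Rm_cyl _ fun γ hγ => push_mem_GamOn hγ fun x hx => by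
        by_cases h' : x = q
        · rw [h', Function.update_self]; exact Set.mem_insert _ _
        · rw [Function.update_of_ne h']; exact Set.mem_insert_of_mem _ hx)
    have e1 := h.spr _ ψ hψ _
      ((hF.mono (cyl_mono (GamOn_mono (Set.subset_insert r K)))).mul hF'.conj)
    rw [← e1]
    refine integral_congr_ae (Eventually.of_forall fun ω => ?_)
    simp only [Rm_Rm]
    rw [cn_Rm_congr hF (φ := ψ) (ψ := Function.update id q (ρ k)) (fun x hx =>
        Function.update_of_ne (fun e : x = r => hrK (e ▸ hx)) _ _),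
      cn_Rm_congr hF (φ := ψ ∘ Function.update id q r) (ψ := Function.update id q (ρ n))
        (fun x hx => ?_)]
    by_cases h' : x = q
    · rw [h', Function.comp_apply, Function.update_self, Function.update_self, hψ1]
    · rw [Function.comp_apply, Function.update_of_ne h', Function.update_of_ne h', id,
        hψ3 x (fun e => hrK (e ▸ hx)) h']

end Crest.Agent.R069
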