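import Crest.Agent.R069.Line

/-! Characters of a free line. -/

set_option autoImplicit false
open MeasureTheory Filter Topology
open scoped ENNReal ComplexConjugate

namespace Crest.Agent.R069
set_option linter.unusedSectionVars false

variable {Ω ι : Type*} [Fintype ι] {a b : MeasurableSpace Ω} {𝓑 : ι → MeasurableSpace Ω}
  {m0 : MeasurableSpace Ω} {μ : Measure Ω} [IsProbabilityMeasure μ]

/-- zero variance implies constant -/
lemma char_const_of_var {U : Ω → ℂ} (hU : Bdd μ m0 U)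
    (h : ∫ ω, U ω * conj (U ω) ∂μ = (∫ ω, U ω ∂μ) * conj (∫ ω, U ω ∂μ)) :
    U =ᵐ[μ] fun _ => ∫ ω, U ω ∂μ := by
  have := ae_eq_condExp_of_integral_mul_conj (m := ⊥) bot_le hU (by
    rw [h, condExp_bot, integral_const_mul, integral_conj])
  rwa [condExp_bot] at this

/-- honest circle valued representative -/
lemma exists_circle_of_ae_norm_eq_one {G : Ω → ℂ} (hG : AEStronglyMeasurable[a] G μ)
    (h1 : ∀ᵐ ω ∂μ, ‖G ω‖ = 1) : ∃ χ : Ω → Circle, Measurable[a] (cf χ) ∧ G =ᵐ[μ] cf χ := by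
  classical
  obtain ⟨g, hg, hGg⟩ := hG
  refine ⟨fun ω => if h : ‖g ω‖ = 1 then (⟨g ω, mem_sphere_zero_iff_norm.2 h⟩ : Circle) else 1,
    ?_, ?_⟩
  · have : cf (fun ω => if h : ‖g ω‖ = 1 then (⟨g ω, mem_sphere_zero_iff_norm.2 h⟩ : Circle)
        else 1) = fun ω => if ‖g ω‖ = 1 then g ω else 1 := by
      ext ω
      by_cases h : ‖g ω‖ = 1
      · simp only [cf, h, dite_true, if_true]
      · simp [cf, h]
    rw [this]
    letI := a
    exact Measurable.ite (measurableSet_eq_fun hg.measurable.norm measurable_const)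
      hg.measurable measurable_const
  · filter_upwards [hGg, h1] with ω e1 e2
    rw [e1] at e2 ⊢
    simp only [cf, e2, dite_true]

/-- a unimodular function whose mean has modulus one is constant -/
lemma mem_constSub_of_norm_integral_eq_one {χ : Ω → Circle} (hχ : Measurable[m0] (cf χ))
    (h : ‖∫ ω, cf χ ω ∂μ‖ = 1) : χ ∈ constSub μ := by
  have hb : Bdd μ m0 (cf χ) := (Bd.cf hχ).bdd
  have := char_const_of_var hb (by
    have e : (fun ω => cf χ ω * conj (cf χ ω)) = fun _ => (1 : ℂ) := by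
      ext ω
      simp [cf, Complex.mul_conj, Complex.normSq_eq_norm_sq]
    rw [e, Complex.mul_conj, Complex.normSq_eq_norm_sq, h]
    simp)
  refine ⟨⟨∫ ω, cf χ ω ∂μ, mem_sphere_zero_iff_norm.2 h⟩, ?_⟩
  filter_upwards [this] with ω hω
  exact Circle.ext hω

/-- if `‖U‖ = ‖V‖` a.e. with `U`, `V` independent then `‖U‖` is a.e. constant -/
lemma Ind.norm_const (ha : a ≤ m0) (hb : b ≤ m0) (h : Ind μ a b) {U V : Ω → ℂ}
    (hU : Bdd μ a U) (hV : Bdd μ b V) (e : ∀ᵐ ω ∂μ, ‖U ω‖ = ‖V ω‖) :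
    ∃ r : ℝ, ∀ᵐ ω ∂μ, ‖U ω‖ = r := by
  have hF : Bdd μ a (fun ω => U ω * conj (U ω)) := hU.mul hU.conj
  have hG : Bdd μ b (fun ω => V ω * conj (V ω)) := hV.mul hV.conj
  have e' : (fun ω => conj (U ω * conj (U ω))) =ᵐ[μ] fun ω => V ω * conj (V ω) := by
    filter_upwards [e] with ω hω
    simp [Complex.mul_conj, Complex.normSq_eq_norm_sq, hω]
  have := char_const_of_var (hF.mono ha) (by
    rw [← integral_conj, integral_congr_ae e', ← h _ _ hF hG]
    exact integral_congr_ae (by filter_upwards [e'] with ω hω using by rw [hω]))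
  refine ⟨Real.sqrt ‖∫ ω, U ω * conj (U ω) ∂μ‖, ?_⟩
  filter_upwards [this] with ω hω
  rw [← hω, norm_mul, Complex.norm_conj, Real.sqrt_mul_self (norm_nonneg _)]

/-- A character is constant or has mean zero.  Proof: with `e_i = ∫ c_i`, for every `j`
`conj e_j = ∏_{i ≠ j} e_i`; so all `|e_i|` are equal to some `r` with `r = r^(card-1)`. -/
theorem Free.const_or_mean_zero (h : Free μ 𝓑) {i0 : ι} {χ : Ω → Circle}
    (hχ : χ ∈ charSub μ 𝓑 i0) : χ ∈ constSub μ ∨ ∫ ω, cf χ ω ∂μ = 0 := by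
  classical
  obtain ⟨c, hc, rfl, hc'⟩ := hχ
  set e : ι → ℂ := fun i => ∫ ω, cf (c i) ω ∂μ with he
  have h1 : ∀ j, conj (e j) = ∏ i ∈ Finset.univ.erase j, e i := by
    intro j
    rw [he]
    simp only
    rw [← h.integral_prod (j0 := j) (Finset.univ.erase j) (Finset.notMem_erase _ _)
      (fun i _ => (Bd.cf (hc i)).bdd), ← integral_conj]
    refine integral_congr_ae ?_
    filter_upwards [hc'] with ω hω
    rw [← Finset.mul_prod_erase _ _ (Finset.mem_univ j)] at hω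
    have h2 := eq_inv_of_mul_eq_one_right hω
    simp only [cf]
    rw [← Circle.coe_inv_eq_conj, ← h2]
    exact map_prod Circle.coeHom _ _
  have h2 : ∀ j, ‖e j‖ ^ 2 = ∏ i, ‖e i‖ := by
    intro j
    rw [← Finset.mul_prod_erase _ _ (Finset.mem_univ j), ← norm_prod, ← h1 j, Complex.norm_conj, sq]
  have h3 : ∀ j, ‖e j‖ = ‖e i0‖ := fun j =>
    (pow_left_inj₀ (norm_nonneg _) (norm_nonneg _) two_ne_zero).1 ((h2 j).trans (h2 i0).symm)
  by_cases h0 : e i0 = 0
  · exact Or.inr h0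
  · left
    have hr : 0 < ‖e i0‖ := norm_pos_iff.2 h0
    have h4 := h2 i0
    rw [Finset.prod_congr rfl (fun j _ => h3 j), Finset.prod_const, Finset.card_univ] at h4
    refine mem_constSub_of_norm_integral_eq_one ((hc i0).mono (h.le i0) le_rfl) ?_
    by_contra hne
    have := pow_right_injective₀ hr hne h4
    have := h.card
    omega

/-- Separation lemma.  Proof: `‖d‖ = ‖w‖` is a positive constant, so `c_i = d/‖d‖` is
unimodular and `χ · conj c_i` is measurable for the vertices `≠ i0, i`.  Then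
`χ ∏_{i ≠ i0} conj c_i` is measurable for `{l ≠ i0, i}` for every `i ≠ i0`, hence constant
(`Free.bdd_iInter`, `Bdd.ae_eq_const_of_bot`). Absorb the constant in one factor. -/
theorem Free.mem_charSub_of_sep (h : Free μ 𝓑) {i0 : ι} {χ : Ω → Circle}
    (hχ : Measurable[𝓑 i0] (cf χ))
    (hsep : ∀ i, i ≠ i0 → ∃ d w : Ω → ℂ, Bdd μ (𝓑 i) d ∧
      Bdd μ (lsig 𝓑 {l | l ≠ i0 ∧ l ≠ i}) w ∧ ¬ d =ᵐ[μ] 0 ∧
      d =ᵐ[μ] fun ω => cf χ ω * w ω) :
    χ ∈ charSub μ 𝓑 i0 := by
  classical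
  have key : ∀ i, ∃ c : Ω → Circle, i ≠ i0 → (Measurable[𝓑 i] (cf c) ∧
      Bdd μ (lsig 𝓑 {l | l ≠ i0 ∧ l ≠ i}) (cf (χ * c))) := by
    intro i
    by_cases hi : i = i0
    · exact ⟨1, fun h => absurd hi h⟩
    obtain ⟨d, w, hd, hw, hd0, e⟩ := hsep i hi
    have hind : Ind μ (𝓑 i) (lsig 𝓑 {l | l ≠ i0 ∧ l ≠ i}) :=
      (h.ind i i0 hi).mono le_rfl (lsig_mono 𝓑 fun l hl => ⟨hl.2, hl.1⟩)
    obtain ⟨r, hr⟩ := hind.norm_const (h.le i) (h.lsig_le _) hd hw (by
      filter_upwards [e] with ω hω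
      rw [hω, norm_mul]
      simp [cf])
    have hr0 : r ≠ 0 := by
      rintro rfl
      exact hd0 (by filter_upwards [hr] with ω hω using norm_eq_zero.1 hω)
    obtain ⟨c, hc, e'⟩ := exists_circle_of_ae_norm_eq_one
      (hd.conj.mul (Bdd.const ((r : ℂ)⁻¹))).1 (by
        filter_upwards [hr] with ω hω
        have : 0 ≤ r := hω ▸ norm_nonneg _
        rw [norm_mul, Complex.norm_conj, hω, norm_inv, Complex.norm_real, Real.norm_eq_abs,
          abs_of_nonneg this, mul_inv_cancel₀ hr0])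
    refine ⟨c, fun _ => ⟨hc, (hw.conj.mul (Bdd.const ((r : ℂ)⁻¹))).congr ?_⟩⟩
    filter_upwards [e, e'] with ω h1 h2
    have h3 : cf (χ * c) ω = cf χ ω * cf c ω := by simp [cf]
    have h4 : cf χ ω * conj (cf χ ω) = 1 := by
      simp [cf, Complex.mul_conj, Complex.normSq_eq_norm_sq]
    rw [h3, ← h2, h1, map_mul]
    linear_combination (-(conj (w ω)) * (r : ℂ)⁻¹) * h4
  choose c hc using key
  obtain ⟨j, hj, -⟩ := h.exists_third i0 i0
  set F : Ω → Circle := fun ω => χ ω * ∏ i ∈ Finset.univ.erase i0, c i ω with hF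
  have hFb : ∀ i ∈ Finset.univ.erase i0, Bdd μ (lsig 𝓑 {l | l ≠ i0 ∧ l ≠ i}) (cf F) := by
    intro i hi
    have hi' := Finset.ne_of_mem_erase hi
    have h1 : Bdd μ (lsig 𝓑 {l | l ≠ i0 ∧ l ≠ i})
        (fun ω => ∏ l ∈ (Finset.univ.erase i0).erase i, cf (c l) ω) :=
      Bdd.prod _ fun l hl =>
        have hl0 := Finset.ne_of_mem_erase (Finset.mem_of_mem_erase hl)
        (Bd.cf (hc l hl0).1).bdd.mono (le_lsig 𝓑 ⟨hl0, Finset.ne_of_mem_erase hl⟩)
    refine ((hc i hi').2.mul h1).congr (Eventually.of_forall fun ω => ?_)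
    simp only [cf, hF, Pi.mul_apply]
    rw [← Finset.mul_prod_erase _ _ hi, ← mul_assoc, Circle.coe_mul (χ ω * c i ω)]
    congr 1
    exact (map_prod Circle.coeHom _ _).symm
  have hbot := h.bdd_iInter (Finset.univ.erase i0) ⟨j, Finset.mem_erase.2 ⟨hj, Finset.mem_univ _⟩⟩
    (S := fun i => {l | l ≠ i0 ∧ l ≠ i}) (j0 := i0) (fun _ _ hl => hl.1 rfl) hFb
  have hemp : (⋂ k ∈ Finset.univ.erase i0, {l | l ≠ i0 ∧ l ≠ k}) = (∅ : Set ι) := by
    ext l
    simp only [Set.mem_iInter, Set.mem_setOf_eq, Set.mem_empty_iff_false, iff_false]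
    intro hl
    have hl0 := (hl j (Finset.mem_erase.2 ⟨hj, Finset.mem_univ _⟩)).1
    exact (hl l (Finset.mem_erase.2 ⟨hl0, Finset.mem_univ _⟩)).2 rfl
  rw [hemp, lsig_empty] at hbot
  have hconst := hbot.ae_eq_const_of_bot
  obtain ⟨ω0, hω0⟩ := hconst.exists
  set k : Circle := F ω0 with hk
  have hFk : ∀ᵐ ω ∂μ, F ω = k := by
    filter_upwards [hconst] with ω hω
    exact Circle.ext (hω.trans hω0.symm)
  refine ⟨Function.update (fun i => c i * fun _ => if i = j then k⁻¹ else 1) i0 χ, fun i => ?_,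
    Function.update_self _ _ _, ?_⟩
  · by_cases hi : i = i0
    · subst hi
      rwa [Function.update_self]
    · rw [Function.update_of_ne hi]
      exact measurable_cf_mul (hc i hi).1 measurable_const
  · filter_upwards [hFk] with ω hω
    rw [← Finset.mul_prod_erase _ _ (Finset.mem_univ i0), Function.update_self,
      Finset.prod_congr rfl (g := fun i => c i ω * if i = j then k⁻¹ else 1)
        (fun i hi => by rw [Function.update_of_ne (Finset.ne_of_mem_erase hi)]; rfl),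
      Finset.prod_mul_distrib, Finset.prod_ite_eq', if_pos (Finset.mem_erase.2 ⟨hj, Finset.mem_univ _⟩),
      ← mul_assoc]
    simp only [hF] at hω
    rw [hω, mul_inv_cancel]

end Crest.Agent.R069
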