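import Crest.Agent.R069.Defs

/-! A colouring of `ℚ` all of whose colour classes are dense. -/

set_option autoImplicit false
open MeasureTheory Filter Topology
open scoped ENNReal ComplexConjugate

namespace Crest.Agent.R069
set_option linter.unusedSectionVars false

/-- e.g. colour `q` by the `2`-adic valuation of its denominator mod `card C` -/
theorem exists_dense_colouring (C : Type) [Fintype C] [Nonempty C] :
    ∃ col : ℚ → C, ∀ c a b, a < b → ∃ r, a < r ∧ r < b ∧ col r = c := by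
  have hn : 0 < Fintype.card C := Fintype.card_pos
  let e := Fintype.equivFin C
  refine ⟨fun q => e.symm ⟨Nat.log 2 q.den % Fintype.card C, Nat.mod_lt _ hn⟩, fun c a b hab => ?_⟩
  obtain ⟨j, hj⟩ := pow_unbounded_of_one_lt (2 / (b - a)) (one_lt_two : (1 : ℚ) < 2)
  set k := (e c).val + Fintype.card C * j with hk
  have hjk : (2 : ℚ) ^ j ≤ 2 ^ k :=
    pow_le_pow_right₀ one_le_two (le_trans (Nat.le_mul_of_pos_left j hn) (Nat.le_add_left _ _))
  have hp : (0 : ℚ) < 2 ^ k := by positivity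
  have h1 : 2 < (b - a) * 2 ^ k := by
    have := hj.trans_le hjk
    rwa [div_lt_iff₀ (sub_pos.2 hab), mul_comm] at this
  set t : ℤ := ⌊(a * 2 ^ k - 1) / 2⌋ + 1 with ht
  have h2 := Int.floor_le ((a * 2 ^ k - 1) / 2)
  have h3 := Int.lt_floor_add_one ((a * 2 ^ k - 1) / 2)
  have ht' : (t : ℚ) = ⌊(a * 2 ^ k - 1) / 2⌋ + 1 := by rw [ht]; push_cast; rfl
  refine ⟨((2 * t + 1 : ℤ) : ℚ) / ((2 ^ k : ℤ) : ℚ), ?_, ?_, ?_⟩
  · push_cast
    rw [lt_div_iff₀ hp]
    linarith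
  · push_cast
    rw [div_lt_iff₀ hp]
    linarith
  · have hd := Rat.den_div_eq_of_coprime (a := 2 * t + 1) (b := 2 ^ k) (by positivity) (by
      rw [Int.natAbs_pow]
      refine Nat.Coprime.pow_right _ ?_
      exact (Nat.coprime_two_right).2 (Int.natAbs_odd.2 ⟨t, rfl⟩))
    have hd' : (((2 * t + 1 : ℤ) : ℚ) / ((2 ^ k : ℤ) : ℚ)).den = 2 ^ k := by exact_mod_cast hd
    rw [Equiv.symm_apply_eq]
    apply Fin.ext
    show Nat.log 2 (((2 * t + 1 : ℤ) : ℚ) / ((2 ^ k : ℤ) : ℚ)).den % Fintype.card C = (e c).val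
    rw [hd', Nat.log_pow one_lt_two, hk, Nat.add_mul_mod_self_left]
    exact Nat.mod_eq_of_lt (e c).2

theorem exists_types (V : Type) [Fintype V] [Nonempty V] :
    ∃ (ty : ℚ → V × V) (I I' : Set ℚ) (s s' : ℚ), TDense ty I ∧ TDense ty I' ∧ Disjoint I I' ∧
      s ∉ I ∪ I' ∧ s' ∉ I ∪ I' ∧ s ≠ s' := by
  obtain ⟨col, hcol⟩ := exists_dense_colouring ((V × V) × Fin 3)
  obtain ⟨v⟩ := ‹Nonempty V›
  obtain ⟨s, -, h1, h2⟩ := hcol ((v, v), 2) 0 1 one_pos
  obtain ⟨s', h3, -, h4⟩ := hcol ((v, v), 2) 1 2 one_lt_two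
  refine ⟨fun q => (col q).1, {q | (col q).2 = 0}, {q | (col q).2 = 1}, s, s', fun t c a ha => ?_,
    fun t c a ha => ?_, ?_, by simp [h2], by simp [h4], (h1.trans h3).ne⟩
  · obtain ⟨r, h5, h6, h7⟩ := hcol (c, 0) a t ha
    exact ⟨r, by simp [h7], h5, h6, by simp [h7]⟩
  · obtain ⟨r, h5, h6, h7⟩ := hcol (c, 1) a t ha
    exact ⟨r, by simp [h7], h5, h6, by simp [h7]⟩
  · rw [Set.disjoint_left]
    intro q h5 h6
    simp only [Set.mem_ofPred_eq] at h5 h6
    rw [h5] at h6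
    exact absurd h6 (by decide)

end Crest.Agent.R069
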