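import Crest.Agent.R069.Rel

/-! Unipotent characters do not correlate with a mixing system (van der Corput). -/

set_option autoImplicit false
open MeasureTheory Filter Topology
open scoped ENNReal ComplexConjugate

namespace Crest.Agent.R069
set_option linter.unusedSectionVars false

variable {Ω : Type*} {t : MeasurableSpace Ω} {m0 : MeasurableSpace Ω} {Q : Measure Ω}
  [IsProbabilityMeasure Q] {T : Ω → Ω} {M : Type*} [AddCommGroup M] {rep : M → Ω → Circle}

lemma ThinSys.inv_iterate (h : ThinSys Q t T) (n : ℕ) {U : Ω → ℂ} (hU : Bd t U) :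
    ∫ ω, U (T^[n] ω) ∂Q = ∫ ω, U ω ∂Q := by
  induction n with
  | zero => rfl
  | succ n ih =>
    rw [← ih]
    exact h.inv (fun ω => U (T^[n] ω)) (hU.comp (@Measurable.iterate _ t _ h.meas n))

lemma ThinSys.iterate (h : ThinSys Q t T) {K : ℕ} (hK : 0 < K) : ThinSys Q t T^[K] := by
  refine ⟨h.le, @Measurable.iterate _ t _ h.meas K, fun U hU => h.inv_iterate K hU,
    fun U U' hU hU' => ?_⟩
  have h1 : Tendsto (fun n : ℕ => K * n) atTop atTop :=
    tendsto_atTop_mono (fun n => Nat.le_mul_of_pos_left n hK) tendsto_id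
  refine ((h.mix U U' hU hU').comp h1).congr (fun n => ?_)
  simp only [Function.comp, Function.iterate_mul]

/-- a non-principal idempotent ultrafilter -/
lemma vdc_ultra : ∃ p : Ultrafilter ℕ, (p : Filter ℕ) ≤ atTop ∧ ∀ P : ℕ → Prop,
    (∀ᶠ n in (p : Filter ℕ), P n) → ∀ᶠ h in (p : Filter ℕ), ∀ᶠ n in (p : Filter ℕ), P (h + n) := by
  obtain ⟨p, hp, hF⟩ := Hindman.exists_idempotent_ultrafilter_le_FS (Stream'.const (1 : ℕ))
  have hadd : ∀ P : ℕ → Prop, (∀ᶠ n in (p : Filter ℕ), P n) →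
      ∀ᶠ h in (p : Filter ℕ), ∀ᶠ n in (p : Filter ℕ), P (h + n) := fun P hP =>
    (Ultrafilter.eventually_add p p P).1
      ((congrArg (fun W : Ultrafilter ℕ => ∀ᶠ n in (W : Filter ℕ), P n) hp).mpr hP)
  have hpos : ∀ (a : Stream' ℕ) (n : ℕ), Hindman.FS a n → (∀ i, 0 < a.get i) → 0 < n := by
    intro a n hn
    induction hn with
    | head' a => exact fun h => h 0
    | tail' a m _ ih => exact fun h => ih (fun i => h (i + 1))
    | cons' a m _ _ => exact fun h => Nat.add_pos_left (h 0) m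
  refine ⟨p, ?_, hadd⟩
  rcases p.le_cofinite_or_eq_pure with h | ⟨a, rfl⟩
  · rwa [Nat.cofinite_eq_atTop] at h
  · have h1 : 0 < a := hpos (Stream'.const 1) a hF (fun _ => Nat.one_pos)
    have h2 := hadd (fun n => n = a) (by simp)
    simp only [Ultrafilter.coe_pure, eventually_pure] at h2
    omega

/-- almost orthogonal bounded functions cannot all have a large mean -/
lemma vdc_fin (s : Finset ℕ) (y : ℕ → Ω → ℂ) (hy : ∀ i, Bd m0 (y i)) {C η ε : ℝ}
    (hC : ∀ i ω, ‖y i ω‖ ≤ C) (hη : 0 ≤ η) (hε : 0 ≤ ε)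
    (h1 : ∀ i ∈ s, η ≤ ‖∫ ω, y i ω ∂Q‖)
    (h2 : ∀ i ∈ s, ∀ j ∈ s, i ≠ j → ‖∫ ω, y i ω * conj (y j ω) ∂Q‖ ≤ ε) :
    (s.card * η) ^ 2 ≤ s.card * (C ^ 2 + s.card * ε) := by
  classical
  choose θ hθ1 hθ2 using fun i => Complex.exists_norm_eq_mul_self (∫ ω, y i ω ∂Q)
  have hz : ∀ i, Bd m0 (fun ω => θ i * y i ω) := fun i => (Bd.const _).mul (hy i)
  have hS : Bd m0 (fun ω => ∑ i ∈ s, θ i * y i ω) := Bd.sum s (fun i _ => hz i)
  have e1 : ∫ ω, (∑ i ∈ s, θ i * y i ω) * 1 ∂Q = ((∑ i ∈ s, ‖∫ ω, y i ω ∂Q‖ : ℝ) : ℂ) := by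
    simp only [mul_one]
    rw [integral_finsetSum s (fun i _ => (hz i).bdd.integrable le_rfl)]
    push_cast
    exact Finset.sum_congr rfl (fun i _ => by rw [integral_const_mul, hθ2])
  have e2 := norm_integral_mul_sq_le (μ := Q) (hS.bdd.memLp le_rfl 2)
    ((Bd.const (m := m0) 1).bdd.memLp le_rfl 2)
  rw [e1, Complex.norm_real, Real.norm_of_nonneg (Finset.sum_nonneg fun _ _ => norm_nonneg _)] at e2
  have e3 : s.card * η ≤ ∑ i ∈ s, ‖∫ ω, y i ω ∂Q‖ := by
    have := Finset.card_nsmul_le_sum s _ η h1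
    rwa [nsmul_eq_mul] at this
  have e4 : ∫ ω, (∑ i ∈ s, θ i * y i ω) * conj (∑ i ∈ s, θ i * y i ω) ∂Q =
      ∑ i ∈ s, ∑ j ∈ s, θ i * conj (θ j) * ∫ ω, y i ω * conj (y j ω) ∂Q := by
    simp only [map_sum, Finset.sum_mul_sum]
    rw [integral_finsetSum s (fun i _ => (Bd.sum s (fun j _ =>
      (hz i).mul (hz j).conj)).bdd.integrable le_rfl)]
    refine Finset.sum_congr rfl (fun i _ => ?_)
    rw [integral_finsetSum s (fun j _ => ((hz i).mul (hz j).conj).bdd.integrable le_rfl)]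
    refine Finset.sum_congr rfl (fun j _ => ?_)
    rw [← integral_const_mul]
    congr 1
    ext ω
    rw [map_mul]
    ring
  have e5 : ∀ i ∈ s, ∀ j ∈ s, ‖θ i * conj (θ j) * ∫ ω, y i ω * conj (y j ω) ∂Q‖ ≤
      (if j = i then C ^ 2 else 0) + ε := by
    intro i hi j hj
    rw [norm_mul, norm_mul, hθ1, Complex.norm_conj, hθ1, one_mul, one_mul]
    by_cases hij : j = i
    · subst hij
      rw [if_pos rfl]
      have := norm_integral_le_of_norm_le_const (μ := Q) (f := fun ω => y j ω * conj (y j ω))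
        (C := C ^ 2) (Eventually.of_forall fun ω => by
          rw [norm_mul, Complex.norm_conj, sq]
          exact mul_self_le_mul_self (norm_nonneg _) (hC j ω))
      simp only [probReal_univ, mul_one] at this
      linarith
    · rw [if_neg hij, zero_add]
      exact h2 i hi j hj (Ne.symm hij)
  have e6 : ∫ ω, ‖∑ i ∈ s, θ i * y i ω‖ ^ 2 ∂Q ≤ s.card * (C ^ 2 + s.card * ε) := by
    have e7 := integral_mul_conj_eq (μ := Q) (fun ω => ∑ i ∈ s, θ i * y i ω)
    refine (le_abs_self _).trans ?_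
    rw [← Real.norm_eq_abs, ← Complex.norm_real, ← e7, e4, ← nsmul_eq_mul]
    refine (norm_sum_le _ _).trans (Finset.sum_le_card_nsmul s _ _ (fun i hi => ?_))
    refine (norm_sum_le _ _).trans ((Finset.sum_le_sum (e5 i hi)).trans (le_of_eq ?_))
    rw [Finset.sum_add_distrib, Finset.sum_ite_eq' s i, if_pos hi]
    simp
  simp only [norm_one, one_pow, integral_const, probReal_univ, smul_eq_mul, mul_one] at e2
  exact (pow_le_pow_left₀ (by positivity) e3 2).trans (e2.trans e6)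

/-- van der Corput's lemma along an idempotent ultrafilter -/
lemma vdc_abs {p : Ultrafilter ℕ} (hp : (p : Filter ℕ) ≤ atTop)
    (hadd : ∀ P : ℕ → Prop, (∀ᶠ n in (p : Filter ℕ), P n) →
      ∀ᶠ h in (p : Filter ℕ), ∀ᶠ n in (p : Filter ℕ), P (h + n))
    (x : ℕ → Ω → ℂ) (hx : ∀ n, Bd m0 (x n)) {C : ℝ} (hC : ∀ n ω, ‖x n ω‖ ≤ C)
    (hG : ∀ ε > 0, ∀ h, ∀ᶠ h' in atTop, ∀ᶠ n in (p : Filter ℕ),
      ‖∫ ω, x (h + n) ω * conj (x (h' + n) ω) ∂Q‖ ≤ ε) {η : ℝ} (hη : 0 < η) :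
    ∀ᶠ n in (p : Filter ℕ), ‖∫ ω, x n ω ∂Q‖ < η := by
  classical
  by_contra hc
  rw [← Ultrafilter.eventually_not] at hc
  have hA : ∀ᶠ n in (p : Filter ℕ), η ≤ ‖∫ ω, x n ω ∂Q‖ := hc.mono (fun n hn => not_lt.1 hn)
  have hsym : ∀ f g : Ω → ℂ, ‖∫ ω, f ω * conj (g ω) ∂Q‖ = ‖∫ ω, g ω * conj (f ω) ∂Q‖ := by
    intro f g
    rw [← Complex.norm_conj, ← integral_conj]
    simp only [map_mul, Complex.conj_conj, mul_comm]
  have hε : 0 < η ^ 2 / 2 := by positivity
  have key : ∀ L : ℕ, ∃ s : Finset ℕ, s.card = L ∧ ∀ᶠ n in (p : Filter ℕ),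
      (∀ i ∈ s, η ≤ ‖∫ ω, x (i + n) ω ∂Q‖) ∧ ∀ i ∈ s, ∀ j ∈ s, i ≠ j →
        ‖∫ ω, x (i + n) ω * conj (x (j + n) ω) ∂Q‖ ≤ η ^ 2 / 2 := by
    intro L
    induction L with
    | zero => exact ⟨∅, rfl, Eventually.of_forall (by simp)⟩
    | succ L ih =>
      obtain ⟨s, hs, hev⟩ := ih
      have a1 := hadd _ hA
      have a2 : ∀ᶠ h' in (p : Filter ℕ), h' ∉ s :=
        hp (by rw [← Nat.cofinite_eq_atTop]; exact s.eventually_cofinite_notMem)
      have a3 := hp ((eventually_all_finset s).2 (fun h _ => hG _ hε h))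
      obtain ⟨k, b1, b2, b3⟩ := (a1.and (Filter.Eventually.and a2 a3)).exists
      refine ⟨insert k s, by rw [Finset.card_insert_of_notMem b2, hs], ?_⟩
      filter_upwards [hev, b1, (eventually_all_finset s).2 b3] with n c1 c2 c3
      refine ⟨fun i hi => ?_, fun i hi j hj hij => ?_⟩
      · rcases Finset.mem_insert.1 hi with rfl | hi
        · exact c2
        · exact c1.1 i hi
      · rcases Finset.mem_insert.1 hi with rfl | hi' <;> rcases Finset.mem_insert.1 hj with rfl | hj'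
        · exact absurd rfl hij
        · rw [hsym]; exact c3 j hj'
        · exact c3 i hi'
        · exact c1.2 i hi' j hj' hij
  obtain ⟨L, hL⟩ := exists_nat_gt (C ^ 2 / (η ^ 2 / 2))
  obtain ⟨s, hs, hev⟩ := key L
  obtain ⟨n, h1, h2⟩ := hev.exists
  have h3 := vdc_fin (Q := Q) s (fun i => x (i + n)) (fun i => hx _) (fun i => hC _) hη.le hε.le h1 h2
  rw [hs] at h3
  have hL0 : (0 : ℝ) < L := lt_of_le_of_lt (by positivity) hL
  rw [div_lt_iff₀ hε] at hL
  nlinarith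

lemma vdc_nil {R : Type*} [Ring R] (τ : R) (m k : ℕ) :
    (τ - 1) ^ m * (τ ^ k - 1) = (∑ i ∈ Finset.range k, τ ^ i) * (τ - 1) ^ (m + 1) := by
  have hc : Commute (τ - 1) τ := (Commute.refl τ).sub_left (Commute.one_left τ)
  have h1 : Commute ((τ - 1) ^ m) (∑ i ∈ Finset.range k, τ ^ i) :=
    Commute.sum_right _ _ _ (fun i _ => hc.pow_pow m i)
  rw [← geom_sum_mul, ← mul_assoc, h1.eq, mul_assoc, ← pow_succ]

lemma vdc_main (h : CharMod Q rep) (hT : ThinSys Q t T) (τ : Module.End ℤ M)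
    {p : Ultrafilter ℕ} (hp : (p : Filter ℕ) ≤ atTop)
    (hadd : ∀ P : ℕ → Prop, (∀ᶠ n in (p : Filter ℕ), P n) →
      ∀ᶠ h in (p : Filter ℕ), ∀ᶠ n in (p : Filter ℕ), P (h + n)) (m : ℕ) :
    ∀ v : M, ((τ - 1) ^ m) v = 0 → ∀ U : Ω → ℂ, Bd t U → ∫ ω, U ω ∂Q = 0 → ∀ η > 0,
      ∀ᶠ n in (p : Filter ℕ), ‖ip Q (fun ω => U (T^[n] ω)) (cf (rep ((τ ^ n) v)))‖ < η := by
  have hit : ∀ {U : Ω → ℂ} (n : ℕ), Bd t U → Bd t (fun ω => U (T^[n] ω)) := fun n hU =>
    hU.comp (@Measurable.iterate _ t _ hT.meas n)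
  induction m with
  | zero =>
    intro v hv U hU h0 η hη
    have hv0 : v = 0 := by simpa using hv
    refine Eventually.of_forall (fun n => ?_)
    rw [hv0, map_zero, norm_ip_congr_const (χ' := 1) (by simpa using h.rep_zero)]
    simp only [ip, cf, Pi.one_apply, Circle.coe_one, map_one, mul_one]
    rw [hT.inv_iterate n hU, h0, norm_zero]
    exact hη
  | succ m ih =>
    intro v hv U hU h0 η hη
    obtain ⟨C, hC⟩ := hU.2
    refine vdc_abs (Q := Q) hp hadd (fun n ω => U (T^[n] ω) * conj (cf (rep ((τ ^ n) v)) ω))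
      (fun n => ((hit n hU).mono hT.le).mul (Bd.cf (h.meas _)).conj) (C := C)
      (fun n ω => by rw [norm_mul, Complex.norm_conj, cf, Circle.norm_coe, mul_one]; exact hC _)
      (fun ε hε k => ?_) hη
    have hmix := hT.mix _ _ (hit k hU) hU.conj
    rw [integral_conj, h0, map_zero, mul_zero] at hmix
    filter_upwards [(tendsto_zero_iff_norm_tendsto_zero.1 hmix).eventually
      (gt_mem_nhds (half_pos hε))] with k' hk'
    set c : ℂ := ∫ ω, U (T^[k] ω) * conj (U (T^[k'] ω)) ∂Q with hc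
    have hW : Bd t (fun ω => U (T^[k] ω) * conj (U (T^[k'] ω))) := (hit k hU).mul (hit k' hU).conj
    have hW' : Bd t (fun ω => U (T^[k] ω) * conj (U (T^[k'] ω)) - c) := hW.sub (Bd.const c)
    have hW0 : ∫ ω, (U (T^[k] ω) * conj (U (T^[k'] ω)) - c) ∂Q = 0 := by
      rw [integral_sub (hW.bdd.integrable hT.le) (integrable_const c)]
      simp [hc]
    have hv' : ((τ - 1) ^ m) ((τ ^ k) v - (τ ^ k') v) = 0 := by
      have e : ∀ j : ℕ, ((τ - 1) ^ m) ((τ ^ j) v - v) = 0 := fun j => by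
        have := congrArg (fun f : Module.End ℤ M => f v) (vdc_nil τ m j)
        simpa only [Module.End.mul_apply, hv, map_zero, LinearMap.sub_apply,
          Module.End.one_apply] using this
      rw [show (τ ^ k) v - (τ ^ k') v = ((τ ^ k) v - v) - ((τ ^ k') v - v) by abel, map_sub, e, e,
        sub_zero]
    filter_upwards [ih _ hv' _ hW' hW0 _ (half_pos hε)] with n hn
    have e1 : (τ ^ n) ((τ ^ k) v - (τ ^ k') v) = (τ ^ (k + n)) v - (τ ^ (k' + n)) v := by
      rw [map_sub, add_comm k, add_comm k', pow_add, pow_add]; rfl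
    rw [e1, norm_ip_congr_const (h.rep_sub _ _)] at hn
    set χ : Ω → Circle := rep ((τ ^ (k + n)) v) * (rep ((τ ^ (k' + n)) v))⁻¹ with hχ
    have hχm : Bd m0 (cf χ) := Bd.cf (measurable_cf_mul (h.meas _) (measurable_cf_inv (h.meas _)))
    have e2 : ∫ ω, U (T^[k + n] ω) * conj (cf (rep ((τ ^ (k + n)) v)) ω) *
        conj (U (T^[k' + n] ω) * conj (cf (rep ((τ ^ (k' + n)) v)) ω)) ∂Q =
        ip Q (fun ω => U (T^[k] (T^[n] ω)) * conj (U (T^[k'] (T^[n] ω))) - c) (cf χ) +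
          c * ∫ ω, conj (cf χ ω) ∂Q := by
      rw [ip, ← integral_const_mul, ← integral_add
        ((((hit n hW').mono hT.le).mul hχm.conj).bdd.integrable le_rfl)
        (((Bd.const c).mul hχm.conj).bdd.integrable le_rfl)]
      congr 1
      ext ω
      simp only [hχ, cf, Function.iterate_add_apply, Pi.mul_apply, Pi.inv_apply, Circle.coe_mul,
        Circle.coe_inv_eq_conj, map_mul, Complex.conj_conj]
      ring
    have e3 : ‖∫ ω, conj (cf χ ω) ∂Q‖ ≤ 1 := by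
      have := norm_integral_le_of_norm_le_const (μ := Q) (f := fun ω => conj (cf χ ω)) (C := 1)
        (Eventually.of_forall fun ω => by rw [Complex.norm_conj, cf, Circle.norm_coe])
      simpa using this
    rw [e2]
    refine (norm_add_le _ _).trans ?_
    rw [norm_mul]
    have e4 : ‖c‖ * ‖∫ ω, conj (cf χ ω) ∂Q‖ ≤ ‖c‖ := mul_le_of_le_one_right (norm_nonneg _) e3
    linarith

/-- Suggested proof: take a non-principal idempotent ultrafilter `p` on `(ℕ,+)`
(`Hindman.exists_idempotent_ultrafilter_le_FS` for the constant stream `1`), and show by induction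
on `m`: for all `v` with `(τ-1)^m v = 0` and all mean zero `U`,
`x_n = U∘T^n · conj (rep (τ^n v))` has `∫ x_n → 0` along `p`.  Step: if `A = {n | η ≤ ‖∫ x_n‖} ∈ p`
choose `h_1, …, h_L` far apart with `A - h_i ∈ p`; `⟨x_{n+h}, x_{n+h'}⟩` is, up to a unimodular
constant, the same expression for `U∘T^h · conj U∘T^{h'}` (mean `c_{h,h'}` small by mixing) and
`(τ^h - τ^{h'}) v`, which is killed by `(τ-1)^{m-1}`; then `L η ≤ ‖∑ θ_i x_{n+h_i}‖₂` is absurd.
(A Cesàro / density version is equally fine.) -/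
theorem CharMod.vdc (h : CharMod Q rep) (hT : ThinSys Q t T) (τ : Module.End ℤ M) (m : ℕ)
    (v : M) (hv : ((τ - 1) ^ m) v = 0) {U : Ω → ℂ} (hU : Bd t U) (h0 : ∫ ω, U ω ∂Q = 0)
    {η : ℝ} (hη : 0 < η) :
    ¬ ∀ n : ℕ, η ≤ ‖ip Q (fun ω => U (T^[n] ω)) (cf (rep ((τ ^ n) v)))‖ := by
  obtain ⟨p, hp, hadd⟩ := vdc_ultra
  obtain ⟨n, hn⟩ := (vdc_main h hT τ hp hadd m v hv U hU h0 η hη).exists
  exact fun hall => absurd (hall n) (not_le.2 hn)

end Crest.Agent.R069
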