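import Crest.Agent.R069.Tau
import Crest.Agent.R069.Vdc
import Crest.Agent.R069.Alg

/-! The endgame. -/

set_option autoImplicit false
open MeasureTheory Filter Topology
open scoped ENNReal ComplexConjugate

namespace Crest.Agent.R069
set_option linter.unusedSectionVars false

/-- Assembly: `exists_tau`; labels `‖ip (f i ∘ T^n) (rep (τ^n a))‖ = ‖ip (f i) (rep a)‖` for
`a ∈ S'`; `exists_trunc` transported to `M` gives `happ` of `exists_relation` with
`p i a := a ∈ S' ∧ ip (f i) (rep a) ≠ 0` and `t n = τ^n`; pigeonhole along `𝒰` over the finite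
set of choices of `σ`; `quasi_unipotent_of_lacunary`; `CharMod.vdc` for `T^[K]`, `τ^K`,
`v = τ^a (σ v0)`, `U = f v0 ∘ T^a`. -/
theorem endgame {Ω V κ : Type*} [Fintype V] {t : MeasurableSpace Ω} {m0 : MeasurableSpace Ω}
    {Q : Measure Ω} [IsProbabilityMeasure Q] {T : Ω → Ω} (hT : ThinSys Q t T)
    (f : V → Ω → ℂ) (hf : ∀ i, Bd t (f i)) (v0 : V) (h0 : ∫ ω, f v0 ω ∂Q = 0)
    (𝒰 : Ultrafilter κ) (b : κ → V → ℕ)
    (hdiv : ∀ i j, i ≠ j → Tendsto (fun n => |(b n i : ℤ) - b n j|) 𝒰 atTop)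
    {δ : ℂ} (hδ : δ ≠ 0)
    (hlim : Tendsto (fun n => ∫ ω, ∏ i, f i (T^[b n i] ω) ∂Q) 𝒰 (𝓝 δ))
    (X : Subgroup (Ω → Circle)) (hXm : ∀ χ ∈ X, Measurable (cf χ))
    (hX : ∀ χ ∈ X, χ ∈ constSub Q ∨ ∫ ω, cf χ ω ∂Q = 0) (hspan : ∀ i, InSpan Q X (f i))
    (hE : Emb Q Q (Sig Q X (orb T f)) (Sig Q X (orb T f)) (orb T f)
      (fun x => orb T f (x.1, x.2 + 1))) : False := by
  classical
  obtain ⟨M, _, rep, τ, S', hC, hinj, hS, hτ⟩ :=
    exists_tau X hXm hX (S := Sig Q X (orb T f)) (fun χ h => h.1) hE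
  have hlab : ∀ n : ℕ, ∀ a ∈ S', (τ ^ n) a ∈ S' ∧ ∀ i,
      ‖ip Q (fun ω => f i (T^[n] ω)) (cf (rep ((τ ^ n) a)))‖ = ‖ip Q (f i) (cf (rep a))‖ := by
    intro n a ha
    induction n with
    | zero => exact ⟨ha, fun i => rfl⟩
    | succ n ih =>
      rw [pow_succ', Module.End.mul_apply]
      exact ⟨(hτ _ ih.1).1, fun i => ((hτ _ ih.1).2 (i, n)).trans (ih.2 i)⟩
  have hit : ∀ n : ℕ, @Measurable _ _ t t T^[n] := fun n => @Measurable.iterate _ t _ hT.meas n
  have hfn : ∀ i n, Bd t fun ω => f i (T^[n] ω) := fun i n => (hf i).comp (hit n)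
  choose C hCb using fun i => (hf i).2
  obtain ⟨C₀, hC₀⟩ := (Set.finite_range C).bddAbove
  have hδ2 : 0 < ‖δ‖ / 2 := half_pos (norm_pos_iff.2 hδ)
  obtain ⟨O, hO, hrel⟩ := hC.exists_relation (V := V) (fun n a => (τ ^ n) a)
    (fun n => by
      have : (fun a => (τ ^ n) a) = τ^[n] := by ext a; rw [Module.End.pow_apply]
      rw [this]
      exact hinj.iterate n)
    (fun i n ω => f i (T^[n] ω)) C₀
    (fun i n => ((hfn i n).mono hT.le).1.aestronglyMeasurable)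
    (fun i n => Eventually.of_forall fun ω => (hCb i _).trans (hC₀ ⟨i, rfl⟩))
    (fun i a => a ∈ S' ∧ ip Q (f i) (cf (rep a)) ≠ 0) (fun i ε hε => by
      obtain ⟨O, hO1, hO2, hO3⟩ := exists_trunc X hXm hX ((hf i).mono hT.le).bdd (hspan i) hε
      have hex : ∀ χ : Ω → Circle, ∃ a : M, χ ∈ O → a ∈ S' ∧ rep a * χ⁻¹ ∈ constSub Q := by
        intro χ
        by_cases hχ : χ ∈ O
        · obtain ⟨a, ha, ha'⟩ := hS χ ⟨(hO1 χ hχ).1, (i, 0), (hO1 χ hχ).2⟩
          exact ⟨a, fun _ => ⟨ha, ha'⟩⟩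
        · exact ⟨0, fun h => absurd h hχ⟩
      choose g hg using hex
      refine ⟨O.image g, fun a ha => ?_, fun n => ?_⟩
      · obtain ⟨χ, hχ, rfl⟩ := Finset.mem_image.1 ha
        refine ⟨(hg χ hχ).1, ?_⟩
        rw [← norm_ne_zero_iff, norm_ip_congr_const (hg χ hχ).2, norm_ne_zero_iff]
        exact (hO1 χ hχ).2
      · rw [Finset.sum_image fun χ hχ χ' hχ' e => by
          by_contra hne
          refine hO2 χ hχ χ' hχ' hne ?_
          have h1 := (hg χ hχ).2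
          have h2 := (hg χ' hχ').2
          rw [← e] at h2
          have h3 := (constSub Q).mul_mem ((constSub Q).inv_mem h1) h2
          rwa [mul_inv_rev, inv_inv, mul_assoc, inv_mul_cancel_left] at h3]
        rw [Finset.sum_congr rfl fun χ hχ => by
          rw [(hlab n _ (hg χ hχ).1).2 i, norm_ip_congr_const (hg χ hχ).2]]
        have h1 := hT.inv_iterate n ((hf i).mul (hf i).conj)
        rw [integral_mul_conj_eq (μ := Q) fun ω => f i (T^[n] ω), integral_mul_conj_eq,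
          Complex.ofReal_inj] at h1
        rw [h1]
        exact hO3) hδ2
  have hev : ∀ᶠ n in (𝒰 : Filter κ), ∃ σ ∈ (Fintype.piFinset O : Set (V → M)),
      ∑ i, (τ ^ b n i) (σ i) = 0 := by
    filter_upwards [hlim.norm.eventually (lt_mem_nhds (half_lt_self (norm_pos_iff.2 hδ)))]
      with n hn
    obtain ⟨σ, hσ, hσ'⟩ := hrel (b n) hn.le
    exact ⟨σ, Finset.mem_coe.2 (Fintype.mem_piFinset.2 hσ), hσ'⟩
  obtain ⟨σ, hσ, hσ'⟩ := (Ultrafilter.eventually_exists_mem_iff (Finset.finite_toSet _)).1 hev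
  replace hσ := Fintype.mem_piFinset.1 (Finset.mem_coe.1 hσ)
  obtain ⟨a, K, m, hK, hq⟩ := quasi_unipotent_of_lacunary τ σ fun R => by
    have h1 : ∀ᶠ n in (𝒰 : Filter κ), ∀ i j, i ≠ j → (R : ℤ) ≤ |(b n i : ℤ) - b n j| := by
      refine eventually_all.2 fun i => eventually_all.2 fun j => ?_
      by_cases hij : i = j
      · exact Eventually.of_forall fun n h => absurd hij h
      · filter_upwards [(hdiv i j hij).eventually_ge_atTop R] with n hn _ using hn
    obtain ⟨n, hn, hn'⟩ := (h1.and hσ').exists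
    exact ⟨b n, hn, hn'⟩
  obtain ⟨h1, h2⟩ := hO v0 _ (hσ v0)
  refine hC.vdc (hT.iterate hK) (τ ^ K) m _ (hq v0) (hfn v0 a)
    ((hT.inv_iterate a (hf v0)).trans h0) (norm_pos_iff.2 h2) fun n => ?_
  rw [← (hlab (K * n + a) _ h1).2 v0, ← pow_mul, ← Module.End.mul_apply, ← pow_add,
    ← Function.iterate_mul]
  simp only [← Function.iterate_add_apply, add_comm a]
  exact le_rfl

end Crest.Agent.R069
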