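import Crest.Agent.R069.Cyl2

/-! Splitting an a.e. statement along two independent sets of coordinates
(no measurability of the relation is assumed). -/

set_option autoImplicit false
open MeasureTheory Filter Topology
open scoped ENNReal ComplexConjugate

namespace Crest.Agent.R069
set_option linter.unusedSectionVars false

/-- Let `mask E ω γ = if γ ∈ E then ω γ else a0`, `p = (mask E1, mask E2)`; then
`P.map p = (P.map (mask E1)).prod (P.map (mask E2))`.  Give `A` the discrete topology: `Γ → A` is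
compact metrizable and `p` is continuous.  By inner regularity the good set contains a σ-compact
conull set, whose image under `p` is σ-compact, hence measurable, and conull.  Fubini
(`Measure.ae_ae_of_ae_prod`), then `ae_of_ae_map`.  (Alternatively use `condDistrib`.) -/
theorem ae_ae_of_ind {Γ A : Type*} [Countable Γ] [MeasurableSpace A] [Fintype A] [Nonempty A]
    [DiscreteMeasurableSpace A] {P : Measure (Γ → A)} [IsProbabilityMeasure P] {E1 E2 : Set Γ}
    (hi : Ind P (cyl A E1) (cyl A E2)) (R : (Γ → A) → (Γ → A) → Prop)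
    (hR : ∀ ω1 ω1' ω2 ω2', (∀ γ ∈ E1, ω1 γ = ω1' γ) → (∀ γ ∈ E2, ω2 γ = ω2' γ) →
      R ω1 ω2 → R ω1' ω2')
    (h : ∀ᵐ ω ∂P, R ω ω) : ∀ᵐ ω2 ∂P, ∀ᵐ ω1 ∂P, R ω1 ω2 := by
  classical
  let _ : TopologicalSpace A := ⊥
  have : DiscreteTopology A := ⟨rfl⟩
  obtain ⟨a0⟩ := ‹Nonempty A›
  let mask : Set Γ → (Γ → A) → (Γ → A) := fun E ω γ => if γ ∈ E then ω γ else a0
  have hc : ∀ E, Continuous (mask E) := fun E => continuous_pi fun γ => by
    by_cases hγ : γ ∈ E
    · simpa only [mask, if_pos hγ] using continuous_apply γ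
    · simpa only [mask, if_neg hγ] using continuous_const
  have hm : ∀ E, Measurable[cyl A E] (mask E) := fun E => by
    refine @measurable_pi_lambda _ _ _ (cyl A E) _ _ fun γ => ?_
    by_cases hγ : γ ∈ E
    · simpa only [mask, if_pos hγ] using measurable_cylinderEvent_apply (X := fun _ : Γ => A) hγ
    · simpa only [mask, if_neg hγ] using measurable_const
  have hm' : ∀ E, Measurable (mask E) := fun E => (hc E).measurable
  have hind : ProbabilityTheory.IndepFun (mask E2) (mask E1) P :=
    ((ProbabilityTheory.IndepFun_iff_Indep _ _ P).2 (ProbabilityTheory.indep_of_indep_of_le_right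
      (ProbabilityTheory.indep_of_indep_of_le_left (ce3_indep (cyl_le _) (cyl_le _) hi)
        (hm E1).comap_le) (hm E2).comap_le)).symm
  have hmap := (ProbabilityTheory.indepFun_iff_map_prod_eq_prod_map_map (hm' E2).aemeasurable
    (hm' E1).aemeasurable).1 hind
  obtain ⟨N, hN, hNm, hN0⟩ := exists_measurable_superset_of_null (ae_iff.1 h)
  have hK : ∀ n : ℕ, ∃ K ⊆ Nᶜ, IsCompact K ∧ P (Nᶜ \ K) < (n : ℝ≥0∞)⁻¹ := fun n =>
    hNm.compl.exists_isCompact_sdiff_lt (measure_ne_top _ _) (by simp)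
  choose K hKN hKc hKP using hK
  let p : (Γ → A) → (Γ → A) × (Γ → A) := fun ω => (mask E2 ω, mask E1 ω)
  have hp : Continuous p := (hc E2).prodMk (hc E1)
  have hS : MeasurableSet (⋃ n, p '' K n) :=
    MeasurableSet.iUnion fun n => ((hKc n).image hp).isClosed.measurableSet
  have h1 : ∀ᵐ z ∂(P.map p), z ∈ ⋃ n, p '' K n := by
    refine (ae_map_iff (p := fun z => z ∈ ⋃ n, p '' K n) hp.measurable.aemeasurable hS).2 ?_
    rw [ae_iff]
    refine le_antisymm (ge_of_tendsto' ENNReal.tendsto_inv_nat_nhds_zero fun n => ?_) zero_le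
    calc P {ω | ¬ p ω ∈ ⋃ n, p '' K n} ≤ P (N ∪ (Nᶜ \ K n)) := by
          refine measure_mono fun ω hω => ?_
          by_cases h0 : ω ∈ N
          · exact Or.inl h0
          · exact Or.inr ⟨h0, fun h1 => hω (Set.mem_iUnion.2 ⟨n, ω, h1, rfl⟩)⟩
      _ ≤ P N + P (Nᶜ \ K n) := measure_union_le _ _
      _ ≤ _ := by rw [hN0, zero_add]; exact (hKP n).le
  rw [hmap] at h1
  have h2 := ae_of_ae_map (hm' E2).aemeasurable (Measure.ae_ae_of_ae_prod h1)
  filter_upwards [h2] with ω2 h3
  filter_upwards [ae_of_ae_map (hm' E1).aemeasurable h3] with ω1 h4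
  obtain ⟨n, ω, hω, e⟩ := Set.mem_iUnion.1 h4
  have hRω : R ω ω := by
    by_contra hc
    exact hKN n hω (hN hc)
  refine hR ω ω1 ω ω2 (fun γ hγ => ?_) (fun γ hγ => ?_) hRω
  · simpa only [p, mask, if_pos hγ] using congrFun (congrArg Prod.snd e) γ
  · simpa only [p, mask, if_pos hγ] using congrFun (congrArg Prod.fst e) γ

end Crest.Agent.R069
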