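import Crest.Agent.R069.GridFib
import Crest.Agent.R069.Box
import Crest.Agent.R069.Split
import Crest.Agent.R069.Colour
import Crest.Agent.R069.End
import Crest.Agent.R069.Char

/-! The main theorem on arrays. -/

set_option autoImplicit false
open MeasureTheory Filter Topology
open scoped ENNReal ComplexConjugate

namespace Crest.Agent.R069
set_option linter.unusedSectionVars false

variable {L V A κ : Type} [AddCommGroup L] [Countable L] [Fintype V] [DecidableEq V]
  [MeasurableSpace A] [Fintype A] [Nonempty A] [DiscreteMeasurableSpace A]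
  {v0 : V} {vec : V → L} {P : Measure (Gam L → A)} [IsProbabilityMeasure P]
  {𝒰 : Ultrafilter κ} {b : κ → V → ℕ}

lemma thinSys_of_agree (h : Arr v0 vec P 𝒰 b) {Q : Measure (Gam L → A)}
    (hQ : Agree (cyl A (GamOn L ∅)) Q P) : ThinSys Q (cyl A (GamOn L ∅)) (sh (tz L 1)) := by
  have hm : ∀ n : ℤ, @Measurable _ _ (cyl A (GamOn L ∅)) (cyl A (GamOn L ∅)) (sh (tz L n)) :=
    fun n => by
      have := measurable_sh_cyl (A := A) (tz L n) (GamOn L ∅)
      rwa [shS_GamOn (tz_mem_GamOn n)] at this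
  refine ⟨cyl_le _, hm 1, fun U hU => ?_, fun U U' hU hU' => ?_⟩
  · rw [hQ.integral_eq (cyl_le _) (hU.comp (hm 1)).1, hQ.integral_eq (cyl_le _) hU.1,
      integral_sh h.inv]
  · rw [hQ.integral_eq (cyl_le _) hU.1, hQ.integral_eq (cyl_le _) hU'.1]
    refine (h.mix U U' hU hU').congr fun n => ?_
    simp_rw [sh_tz_iterate]
    exact (hQ.integral_eq (cyl_le _) (hU.mul (hU'.comp (hm n))).1).symm

theorem Arr.core (h : Arr v0 vec P 𝒰 b) (t : ℚ) {g : V → (Gam L → A) → ℂ}
    (hg : ∀ l, Bd (cyl A (GamOn L ∅)) (g l)) {l : V} (hl : l ≠ v0) (h0 : ∫ ω, g l ω ∂P = 0) :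
    Lam P vec t g = 0 := by
  by_contra hne
  obtain ⟨f, hf, hfe, hf0, hfne⟩ := h.exists_exact t hg hl h0 hne
  have : Nonempty V := ⟨v0⟩
  obtain ⟨ty, I, I', s, s', hI, hI', hd, hs, hs', hss⟩ := exists_types V
  obtain ⟨k, hk⟩ := exists_fib P (Env vec ty (I ∪ I') {s, s'})
  obtain ⟨k1, hk1⟩ := exists_fib P (Env vec ty I {s})
  obtain ⟨k2, hk2⟩ := exists_fib P (Env vec ty I' {s'})
  have hm : ∀ n : ℤ, @Measurable _ _ (cyl A (GamOn L ∅)) (cyl A (GamOn L ∅)) (sh (tz L n)) :=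
    fun n => by
      have := measurable_sh_cyl (A := A) (tz L n) (GamOn L ∅)
      rwa [shS_GamOn (tz_mem_GamOn n)] at this
  set T : (Gam L → A) → (Gam L → A) := sh (tz L 1) with hT
  set F := orb T f with hF
  have hFeq : ∀ x, F x = fun ω => f x.1 (sh (tz L x.2) ω) := fun x => by
    funext ω; simp only [hF, orb, hT, sh_tz_iterate]
  have hFb : ∀ x, Bd (cyl A (GamOn L ∅)) (F x) := fun x => by
    rw [hFeq]; exact (hf _).comp (hm _)
  have hFe : ∀ x, Exact P v0 vec (F x) := fun x => by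
    rw [hFeq]; exact (hfe _).shift h _
  have hFm : ∀ (J : Set ℚ) x, Measurable[cyl A (GamOn L J)] (F x) := fun J x =>
    ((hFb x).mono (cyl_mono (GamOn_mono (Set.empty_subset _)))).1
  have hII : TDense ty (I ∪ I') := hI.mono Set.subset_union_left
  -- good fibres
  have g1 : ∀ᵐ ω ∂P, ∀ x, InSpan (k ω) ((charSub (k ω) (Line A vec I s') v0 : Set _) ∩
      charSub (k ω) (Line A vec I s) v0) (F x) := ae_all_iff.2 fun x =>
    h.inSpan_fib Set.subset_union_left hI hs hs' hss hk (hFb x) (hFe x)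
  have g2 : ∀ᵐ ω ∂P, ∀ x, InSpan (k ω) ((charSub (k ω) (Line A vec I' s') v0 : Set _) ∩
      charSub (k ω) (Line A vec I' s) v0) (F x) := ae_all_iff.2 fun x =>
    h.inSpan_fib Set.subset_union_right hI' hs hs' hss hk (hFb x) (hFe x)
  have g3 := h.free_fib subset_rfl hII hs hs' hss hk
  have g4 : ∀ᵐ ω ∂P, Agree (cyl A (GamOn L (I ∪ {s}))) (k ω) (k1 ω) :=
    hk1.agree hk (Env_mono Set.subset_union_left (by simp))
      (h.loc Set.subset_union_left (by simp) hI (Set.disjoint_singleton_right.2 hs))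
  have g5 : ∀ᵐ ω ∂P, Agree (cyl A (GamOn L (I' ∪ {s'}))) (k ω) (k2 ω) :=
    hk2.agree hk (Env_mono Set.subset_union_right (by simp))
      (h.loc Set.subset_union_right (by simp) hI' (Set.disjoint_singleton_right.2 hs'))
  have g6 : ∀ᵐ ω ∂P, Agree (cyl A (GamOn L ∅)) (k ω) P := hk.agree_of_ind (h.box _ _ _)
  have g7 : ∀ᵐ ω ∂P, k1 (T ω) = (k1 ω).map T := hk1.shift h.inv (shS_tz_Env 1)
  -- the relation
  let S1 : Measure (Gam L → A) → Set ((Gam L → A) → Circle) :=
    fun Q => Sig Q (charSub Q (Line A vec I s) v0) F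
  let S2 : Measure (Gam L → A) → Set ((Gam L → A) → Circle) :=
    fun Q => Sig Q (charSub Q (Line A vec I' s') v0) F
  let R : (Gam L → A) → (Gam L → A) → Prop := fun ω1 ω2 =>
    Emb (k1 ω1) (k2 ω2) (S1 (k1 ω1)) (S2 (k2 ω2)) F F ∧
      Emb (k2 ω2) (k1 ω1) (S2 (k2 ω2)) (S1 (k1 ω1)) F F
  have hR : ∀ᵐ ω ∂P, R ω ω := by
    filter_upwards [g1, g2, g3, g4, g5] with ω g1 g2 g3 g4 g5
    have := hk.prob ω
    have e12 : Emb (k ω) (k ω) (S1 (k ω)) (S2 (k ω)) F F :=
      emb_of_inSpan (X1' := charSub (k ω) (Line A vec I' s) v0)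
        (Y := charSub (k ω) (Line A vec (I ∪ I') s) v0) (fun χ hχ => g3.1.const_or_mean_zero hχ)
        (charSub_mono (Line_mono Set.subset_union_left s) v0)
        (charSub_mono (Line_mono Set.subset_union_right s) v0)
        (fun χ hχ => (measurable_of_mem_charSub hχ).mono (cyl_le _) le_rfl)
        (fun x => by rw [Set.inter_comm]; exact g2 x)
    have e21 : Emb (k ω) (k ω) (S2 (k ω)) (S1 (k ω)) F F :=
      emb_of_inSpan (X1' := charSub (k ω) (Line A vec I s') v0)
        (Y := charSub (k ω) (Line A vec (I ∪ I') s') v0) (fun χ hχ => g3.2.const_or_mean_zero hχ)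
        (charSub_mono (Line_mono Set.subset_union_right s') v0)
        (charSub_mono (Line_mono Set.subset_union_left s') v0)
        (fun χ hχ => (measurable_of_mem_charSub hχ).mono (cyl_le _) le_rfl) g1
    exact ⟨((emb_agree (cyl_le _) (Line_le I s) g4.symm v0 (hFm _) (hFm _)).trans e12).trans
        (emb_agree (cyl_le _) (Line_le I' s') g5 v0 (hFm _) (hFm _)),
      ((emb_agree (cyl_le _) (Line_le I' s') g5.symm v0 (hFm _) (hFm _)).trans e21).trans
        (emb_agree (cyl_le _) (Line_le I s) g4 v0 (hFm _) (hFm _))⟩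
  have hind : Ind P (cyl A (Env vec ty I {s})) (cyl A (Env vec ty I' {s'})) := by
    refine h.ind_env ty ?_
    simp only [Set.mem_union, not_or] at hs hs'
    rw [Set.disjoint_union_left, Set.disjoint_union_right, Set.disjoint_union_right]
    exact ⟨⟨hd, Set.disjoint_singleton_right.2 hs'.1⟩, Set.disjoint_singleton_left.2 hs.2,
      Set.disjoint_singleton.2 hss⟩
  have hRR := ae_ae_of_ind hind R (fun ω1 ω1' ω2 ω2' e1 e2 hr => by
    simp only [R] at hr ⊢
    rwa [← hk1.dep _ _ e1, ← hk2.dep _ _ e2]) hR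
  obtain ⟨ω2, hω2⟩ := hRR.exists
  have hω2' : ∀ᵐ ω ∂P, R (T ω) ω2 := (h.inv (tz L 1)).quasiMeasurePreserving.ae hω2
  obtain ⟨ω, g1, g3, g4, g6, g7, r1, r2⟩ :=
    (g1.and (g3.and (g4.and (g6.and (g7.and (hω2.and hω2')))))).exists
  have := hk.prob ω
  have hfree : Free (k ω) (Line A vec I s) := g3.1.mono (Line_mono Set.subset_union_left s)
  have hshift : Emb (k1 (T ω)) (k1 ω) (S1 (k1 (T ω))) (S1 (k1 ω)) F
      (fun x => F (x.1, x.2 + 1)) := by
    rw [g7]
    exact emb_shift (measurable_sh _) (fun _ => cyl_le _) (measurable_sh_tz_Line 1 I s) v0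
      (fun x => (hFm ∅ x).mono (cyl_le _) le_rfl) (fun x => (x.1, x.2 + 1)) (fun x ω => rfl)
  have hE : Emb (k ω) (k ω) (S1 (k ω)) (S1 (k ω)) F (fun x => F (x.1, x.2 + 1)) :=
    ((((emb_agree (cyl_le _) (Line_le I s) g4 v0 (hFm _) (hFm _)).trans r1.1).trans r2.2).trans
      hshift).trans (emb_agree (cyl_le _) (Line_le I s) g4.symm v0 (hFm _) fun x => hFm _ _)
  refine endgame (thinSys_of_agree h g6) f hf v0 ?_ 𝒰 b h.div hfne ?_
    (charSub (k ω) (Line A vec I s) v0)
    (fun χ hχ => (measurable_of_mem_charSub hχ).mono (cyl_le _) le_rfl)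
    (fun χ hχ => hfree.const_or_mean_zero hχ)
    (fun i => (g1 (i, 0)).mono Set.inter_subset_right) hE
  · rw [g6.integral_eq (cyl_le _) (hf v0).1, hf0]
  · refine (h.lim t f hf).congr fun n => ?_
    simp_rw [sh_tz_iterate]
    exact (g6.integral_eq (cyl_le _) (Bd.prod _ fun i _ => (hf i).comp (hm _)).1).symm

end Crest.Agent.R069
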