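import Crest.Agent.R069.Emb

/-! Toolkit for cylinder σ-algebras and shifts. -/

set_option autoImplicit false
open MeasureTheory Filter Topology
open scoped ENNReal ComplexConjugate

namespace Crest.Agent.R069
set_option linter.unusedSectionVars false

variable {Γ A : Type*} [MeasurableSpace A] {S S' : Set Γ} {U U' : (Γ → A) → ℂ}

lemma cyl_mono (h : S ⊆ S') : cyl A S ≤ cyl A S' := cylinderEvents_mono h

lemma cyl_le (S : Set Γ) : cyl A S ≤ (MeasurableSpace.pi : MeasurableSpace (Γ → A)) :=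
  cylinderEvents_le_pi

lemma cyl_union (S S' : Set Γ) : cyl A (S ∪ S') = cyl A S ⊔ cyl A S' := iSup_union

lemma cyl_empty : cyl A (∅ : Set Γ) = ⊥ := by simp [cylinderEvents]

lemma cyl_iUnion {ι : Sort*} (S : ι → Set Γ) : cyl A (⋃ i, S i) = ⨆ i, cyl A (S i) :=
  iSup_iUnion _ _

lemma lsig_cyl {ι : Type*} (S : ι → Set Γ) (J : Set ι) :
    lsig (fun i => cyl A (S i)) J = cyl A (⋃ i ∈ J, S i) := by
  simp only [cyl_iUnion]

lemma gsig_cyl {α β : Type*} (S : α → β → Set Γ) (J : Set (α × β)) :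
    gsig (fun i j => cyl A (S i j)) J = cyl A (⋃ p ∈ J, S p.1 p.2) := by
  simp only [cyl_iUnion]

/-- reindexing of coordinates is measurable between cylinder σ-algebras -/
lemma measurable_reindex {Γ' : Type*} {S' : Set Γ'} (g : Γ → Γ') (h : ∀ γ ∈ S, g γ ∈ S') :
    @Measurable _ _ (cyl A S') (cyl A S) (fun (ω : Γ' → A) (γ : Γ) => ω (g γ)) :=
  (@measurable_cylinderEvents_iff _ _ _ (cyl A S') _ _ _).2 fun γ hγ =>
    measurable_cylinderEvent_apply (X := fun _ : Γ' => A) (h γ hγ)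

lemma measurable_reindex_pi {Γ' : Type*} (g : Γ → Γ') :
    Measurable (fun (ω : Γ' → A) (γ : Γ) => ω (g γ)) :=
  measurable_pi_lambda _ fun _ => measurable_pi_apply _

lemma mem_iff_of_measurableSet_cyl {s : Set (Γ → A)} (hs : MeasurableSet[cyl A S] s)
    {ω ω' : Γ → A} (h : ∀ γ ∈ S, ω γ = ω' γ) : ω ∈ s ↔ ω' ∈ s := by
  classical
  let m : MeasurableSpace (Γ → A) :=
    { MeasurableSet' := fun s => ω ∈ s ↔ ω' ∈ s
      measurableSet_empty := by simp
      measurableSet_compl := fun s hs => by simpa using hs.not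
      measurableSet_iUnion := fun f hf => by simp [hf] }
  have : cyl A S ≤ m := iSup₂_le fun γ hγ => by
    rintro _ ⟨t, -, rfl⟩
    show ω γ ∈ t ↔ ω' γ ∈ t
    rw [h γ hγ]
  exact this s hs

/-- a `cyl S`-measurable function only depends on the coordinates in `S` -/
lemma eq_of_measurable_cyl {X : Type*} [MeasurableSpace X] [MeasurableSingletonClass X]
    {U : (Γ → A) → X} (hU : Measurable[cyl A S] U) {ω ω' : Γ → A} (h : ∀ γ ∈ S, ω γ = ω' γ) :
    U ω = U ω' :=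
  (mem_iff_of_measurableSet_cyl (hU (measurableSet_singleton (U ω'))) h).2 rfl

lemma Bd.eq_of_eqOn (hU : Bd (cyl A S) U) {ω ω' : Γ → A} (h : ∀ γ ∈ S, ω γ = ω' γ) :
    U ω = U ω' := eq_of_measurable_cyl hU.1 h

lemma Cyl.bd (h : Cyl S U) : Bd (cyl A S) U := by
  obtain ⟨S0, h1, h2⟩ := h
  exact h2.mono (cyl_mono h1)

lemma Cyl.mono (h : Cyl S U) (h' : S ⊆ S') : Cyl S' U := by
  obtain ⟨S0, h1, h2⟩ := h
  exact ⟨S0, h1.trans h', h2⟩

lemma Cyl.const (c : ℂ) : Cyl S (fun _ : Γ → A => c) := ⟨∅, by simp, Bd.const c⟩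

lemma Cyl.map₂ (h : Cyl S U) (h' : Cyl S U') :
    ∃ S0 : Finset Γ, (S0 : Set Γ) ⊆ S ∧ Bd (cyl A (S0 : Set Γ)) U ∧ Bd (cyl A (S0 : Set Γ)) U' := by
  classical
  obtain ⟨S0, h1, h2⟩ := h
  obtain ⟨S1, h3, h4⟩ := h'
  refine ⟨S0 ∪ S1, by simp [h1, h3], h2.mono (cyl_mono (by simp)), h4.mono (cyl_mono (by simp))⟩

lemma Cyl.mul (h : Cyl S U) (h' : Cyl S U') : Cyl S (fun ω => U ω * U' ω) := by
  obtain ⟨S0, h1, h2, h3⟩ := h.map₂ h'
  exact ⟨S0, h1, h2.mul h3⟩

lemma Cyl.add (h : Cyl S U) (h' : Cyl S U') : Cyl S (fun ω => U ω + U' ω) := by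
  obtain ⟨S0, h1, h2, h3⟩ := h.map₂ h'
  exact ⟨S0, h1, h2.add h3⟩

lemma Cyl.sub (h : Cyl S U) (h' : Cyl S U') : Cyl S (fun ω => U ω - U' ω) := by
  obtain ⟨S0, h1, h2, h3⟩ := h.map₂ h'
  exact ⟨S0, h1, h2.sub h3⟩

lemma Cyl.conj (h : Cyl S U) : Cyl S (fun ω => conj (U ω)) := by
  obtain ⟨S0, h1, h2⟩ := h
  exact ⟨S0, h1, h2.conj⟩

lemma Cyl.prod {ι : Type*} (s : Finset ι) {F : ι → (Γ → A) → ℂ} (h : ∀ i ∈ s, Cyl S (F i)) :
    Cyl S (fun ω => ∏ i ∈ s, F i ω) := by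
  classical
  induction s using Finset.induction_on with
  | empty => simpa using Cyl.const (S := S) (A := A) 1
  | insert i s hi ih =>
    simp_rw [Finset.prod_insert hi]
    exact (h i (Finset.mem_insert_self _ _)).mul
      (ih fun j hj => h j (Finset.mem_insert_of_mem hj))

lemma Cyl.reindex {Γ' : Type*} {S' : Set Γ'} (h : Cyl S U) (g : Γ → Γ') (hg : ∀ γ ∈ S, g γ ∈ S') :
    Cyl S' (fun ω : Γ' → A => U (fun γ => ω (g γ))) := by
  classical
  obtain ⟨S0, h1, h2⟩ := h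
  refine ⟨S0.image g, ?_, h2.comp (measurable_reindex g ?_)⟩
  · intro x hx
    obtain ⟨γ, hγ, rfl⟩ := Finset.mem_image.1 hx
    exact hg γ (h1 hγ)
  · intro γ hγ
    exact Finset.mem_image_of_mem g hγ

/-! ### shifts -/

section Shift
variable [AddCommGroup Γ]

@[simp] lemma sh_zero (ω : Γ → A) : sh (0 : Γ) ω = ω := by ext γ; simp [sh]

lemma sh_sh (β β' : Γ) (ω : Γ → A) : sh β (sh β' ω) = sh (β + β') ω := by
  ext γ; simp [sh, add_assoc]

@[simp] lemma mem_shS {β γ : Γ} : γ ∈ shS β S ↔ γ - β ∈ S := Iff.rfl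

@[simp] lemma shS_zero (S : Set Γ) : shS 0 S = S := by ext; simp

lemma shS_shS (β β' : Γ) (S : Set Γ) : shS β (shS β' S) = shS (β + β') S := by
  ext; simp [sub_sub]

lemma shS_mono (β : Γ) (h : S ⊆ S') : shS β S ⊆ shS β S' := fun _ hγ => h hγ

lemma shS_union (β : Γ) (S S' : Set Γ) : shS β (S ∪ S') = shS β S ∪ shS β S' := rfl

lemma measurable_sh (β : Γ) : Measurable (sh β : (Γ → A) → (Γ → A)) := measurable_reindex_pi _

lemma measurable_sh_cyl (β : Γ) (S : Set Γ) :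
    @Measurable _ _ (cyl A (shS β S)) (cyl A S) (sh β) :=
  measurable_reindex (fun γ => γ + β) fun γ hγ => by simpa using hγ

lemma Bd.shift (h : Bd (cyl A S) U) (β : Γ) : Bd (cyl A (shS β S)) (fun ω => U (sh β ω)) :=
  h.comp (measurable_sh_cyl β S)

lemma Cyl.shift (h : Cyl S U) (β : Γ) : Cyl (shS β S) (fun ω => U (sh β ω)) :=
  h.reindex (fun γ => γ + β) fun γ hγ => by simpa using hγ

variable {P : Measure (Γ → A)}

lemma Bdd.shift (hP : ∀ β : Γ, MeasurePreserving (sh β) P P) (h : Bdd P (cyl A S) U) (β : Γ) :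
    Bdd P (cyl A (shS β S)) (fun ω => U (sh β ω)) :=
  h.comp (measurable_sh_cyl β S) (hP β)

lemma Bdd.unshift (hP : ∀ β : Γ, MeasurePreserving (sh β) P P) {β : Γ}
    (h : Bdd P (cyl A (shS β S)) (fun ω => U (sh β ω))) : Bdd P (cyl A S) U := by
  simpa [shS_shS, sh_sh] using h.shift hP (-β)

lemma integral_sh (hP : ∀ β : Γ, MeasurePreserving (sh β) P P) (β : Γ) (U : (Γ → A) → ℂ) :
    ∫ ω, U (sh β ω) ∂P = ∫ ω, U ω ∂P := by
  let e : (Γ → A) ≃ᵐ (Γ → A) :=
    { toFun := sh β, invFun := sh (-β), left_inv := fun ω => by simp [sh_sh],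
      right_inv := fun ω => by simp [sh_sh], measurable_toFun := measurable_sh β,
      measurable_invFun := measurable_sh (-β) }
  exact MeasurePreserving.integral_comp' (f := e) (hP β) U

lemma condExp_sh [IsProbabilityMeasure P] (hP : ∀ β : Γ, MeasurePreserving (sh β) P P) (β : Γ)
    (hU : Bdd P MeasurableSpace.pi U) :
    P[fun ω => U (sh β ω)|cyl A (shS β S)] =ᵐ[P] fun ω => (P[U|cyl A S]) (sh β ω) := by
  refine (ae_eq_condExp_of_forall (cyl_le _) (hU.comp (measurable_sh β) (hP β))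
    ((hU.condExp (m := cyl A S)).shift hP β) fun H hH => ?_).symm
  have hH' : Bdd P (cyl A S) (fun ω => H (sh (-β) ω)) := by
    simpa [shS_shS] using hH.shift hP (-β)
  have := integral_condExp_mul (cyl_le S) (hU.integrable le_rfl) hH'
  rw [← integral_sh hP β, ← integral_sh hP β (fun ω => U ω * _)] at this
  simpa [sh_sh] using this

lemma CI.shift [IsProbabilityMeasure P] (hP : ∀ β : Γ, MeasurePreserving (sh β) P P)
    {Sa Sm Sb : Set Γ} (h : CI P (cyl A Sa) (cyl A Sm) (cyl A Sb)) (β : Γ) :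
    CI P (cyl A (shS β Sa)) (cyl A (shS β Sm)) (cyl A (shS β Sb)) := by
  intro U H hU hH
  have hU' : Bdd P (cyl A Sa) (fun ω => U (sh (-β) ω)) := by
    simpa [shS_shS] using hU.shift hP (-β)
  have hH' : Bdd P (cyl A Sb) (fun ω => H (sh (-β) ω)) := by
    simpa [shS_shS] using hH.shift hP (-β)
  have h1 := h _ _ hU' hH'
  rw [← integral_sh hP β, ← integral_sh hP β (fun ω => (P[_|_]) ω * _)] at h1
  have h2 := condExp_sh (S := Sm) hP β (hU'.mono (cyl_le _))
  simp only [sh_sh, neg_add_cancel, sh_zero] at h1 h2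
  rw [h1]
  exact integral_congr_ae (by filter_upwards [h2] with ω hω using by rw [hω])

end Shift

end Crest.Agent.R069
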