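import Crest.Agent.R069.Cyl

/-! Approximation by cylinder functions; countable generating π-systems. -/

set_option autoImplicit false
open MeasureTheory Filter Topology
open scoped ENNReal ComplexConjugate

namespace Crest.Agent.R069
set_option linter.unusedSectionVars false

variable {Γ A : Type*} [MeasurableSpace A] {S S' : Set Γ} {P Q Q' : Measure (Γ → A)}

/-- sets measurable with respect to finitely many coordinates in `S` -/
def cyl2Sets (A : Type*) [MeasurableSpace A] (S : Set Γ) : Set (Set (Γ → A)) :=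
  {s | ∃ S0 : Finset Γ, (S0 : Set Γ) ⊆ S ∧ MeasurableSet[cyl A (S0 : Set Γ)] s}

lemma cyl2_isPiSystem (S : Set Γ) : IsPiSystem (cyl2Sets A S) := by
  classical
  rintro s ⟨S0, h0, hs⟩ t ⟨S1, h1, ht⟩ -
  refine ⟨S0 ∪ S1, by simp [h0, h1], ?_⟩
  exact MeasurableSet.inter (cyl_mono (A := A) (S := (S0 : Set Γ)) (by simp) s hs)
    (cyl_mono (A := A) (S := (S1 : Set Γ)) (by simp) t ht)

lemma cyl2_generateFrom (S : Set Γ) :
    cyl A S = MeasurableSpace.generateFrom (cyl2Sets A S) := by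
  refine le_antisymm (iSup₂_le fun γ hγ s hs => ?_) (MeasurableSpace.generateFrom_le ?_)
  · refine MeasurableSpace.measurableSet_generateFrom ⟨{γ}, by simpa using hγ, ?_⟩
    obtain ⟨t, ht, rfl⟩ := hs
    exact measurable_cylinderEvent_apply (X := fun _ : Γ => A) (by simp) ht
  · rintro s ⟨S0, h0, hs⟩
    exact cyl_mono h0 s hs

lemma cyl2_setIntegral {s : Set (Γ → A)} (hs : MeasurableSet s) (H : (Γ → A) → ℂ) :
    ∫ ω in s, H ω ∂P = ∫ ω, s.indicator (1 : (Γ → A) → ℂ) ω * H ω ∂P := by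
  rw [← integral_indicator hs]
  refine integral_congr_ae (Eventually.of_forall fun ω => ?_)
  by_cases h1 : ω ∈ s <;> simp [Set.indicator, h1]

lemma ext_cyl [IsFiniteMeasure P] {H : (Γ → A) → ℂ} (hH : Integrable H P)
    (h : ∀ W, Cyl S W → ∫ ω, W ω * H ω ∂P = 0) :
    ∀ W, Bdd P (cyl A S) W → ∫ ω, W ω * H ω ∂P = 0 := by
  refine ext_pi (cyl2_isPiSystem S) (cyl2_generateFrom S) (cyl_le S) hH ?_ ?_
  · simpa using h (fun _ => 1) (Cyl.const 1)
  · rintro s ⟨S0, h0, hs⟩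
    rw [cyl2_setIntegral (cyl_le _ s hs)]
    exact h _ ⟨S0, h0, Bd.indicator hs⟩

lemma cyl2_approx_aux [IsProbabilityMeasure P] {W : (Γ → A) → ℂ} (hW : Bdd P (cyl A S) W)
    {ε : ℝ} (hε : 0 < ε) : ∃ W', Cyl S W' ∧ ∫ ω, ‖W ω - W' ω‖ ∂P < ε := by
  let K : Submodule ℂ (Lp ℂ 2 P) :=
    { carrier := {f | ∃ W', Cyl S W' ∧ (f : (Γ → A) → ℂ) =ᵐ[P] W'}
      zero_mem' := ⟨fun _ => 0, Cyl.const 0, Lp.coeFn_zero _ _ _⟩
      add_mem' := by
        rintro f g ⟨U, hU, e⟩ ⟨V, hV, e'⟩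
        refine ⟨fun ω => U ω + V ω, hU.add hV, ?_⟩
        filter_upwards [Lp.coeFn_add f g, e, e'] with ω h1 h2 h3
        rw [h1, Pi.add_apply, h2, h3]
      smul_mem' := by
        rintro c f ⟨U, hU, e⟩
        refine ⟨fun ω => c * U ω, (Cyl.const c).mul hU, ?_⟩
        filter_upwards [Lp.coeFn_smul c f, e] with ω h1 h2
        rw [h1, Pi.smul_apply, h2, smul_eq_mul] }
  have hW2 : MemLp W 2 P := hW.memLp (cyl_le S) 2
  have hin : ∀ (g : Lp ℂ 2 P) (U : (Γ → A) → ℂ) (hU : MemLp U 2 P),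
      inner ℂ g (hU.toLp U) = ∫ ω, U ω * conj (g ω) ∂P := by
    intro g U hU
    rw [L2.inner_def]
    refine integral_congr_ae ?_
    filter_upwards [hU.coeFn_toLp] with ω h1
    rw [h1, RCLike.inner_apply]
  have hmem : hW2.toLp W ∈ K.topologicalClosure := by
    rw [← Submodule.orthogonal_orthogonal_eq_closure, Submodule.mem_orthogonal]
    intro g hg
    rw [hin]
    have hg1 : Integrable (fun ω => conj (g ω)) P :=
      (Complex.conjCLE.toContinuousLinearMap).integrable_comp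
        ((Lp.memLp g).integrable one_le_two)
    refine ext_cyl (S := S) hg1 (fun U hU => ?_) W hW
    have hU2 : MemLp U 2 P := hU.bd.bdd.memLp (cyl_le S) 2
    rw [← hin g U hU2]
    exact (Submodule.mem_orthogonal' K g).1 hg _ ⟨U, hU, hU2.coeFn_toLp⟩
  obtain ⟨f, ⟨W', hW', e⟩, hd⟩ := Metric.mem_closure_iff.1 hmem ε hε
  refine ⟨W', hW', lt_of_le_of_lt ?_ hd⟩
  have hD : Bdd P (cyl A S) (fun ω => W ω - W' ω) := hW.sub hW'.bd.bdd
  have hD2 : MemLp (fun ω => W ω - W' ω) 2 P := hD.memLp (cyl_le S) 2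
  have e2 : (⇑(hW2.toLp W) - ⇑f) =ᵐ[P] fun ω => W ω - W' ω := by
    filter_upwards [hW2.coeFn_toLp, e] with ω h1 h2
    rw [Pi.sub_apply, h1, h2]
  rw [Lp.dist_def, eLpNorm_congr_ae e2, integral_norm_eq_lintegral_enorm hD2.1,
    ← eLpNorm_one_eq_lintegral_enorm]
  exact ENNReal.toReal_mono hD2.2.ne (eLpNorm_le_eLpNorm_of_exponent_le one_le_two hD2.1)

/-- `L¹` approximation with the same sup bound (e.g. `L²`-density from `ext_cyl`, then replace
the approximant by an honest version of `E[W | cyl S0]`; or martingale convergence). -/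
lemma approx_cyl [IsProbabilityMeasure P] {W : (Γ → A) → ℂ} {C : ℝ}
    (hW : AEStronglyMeasurable[cyl A S] W P) (hC0 : 0 ≤ C) (hC : ∀ᵐ ω ∂P, ‖W ω‖ ≤ C) {ε : ℝ}
    (hε : 0 < ε) : ∃ W', Cyl S W' ∧ (∀ ω, ‖W' ω‖ ≤ C) ∧ ∫ ω, ‖W ω - W' ω‖ ∂P < ε := by
  have hB : Bdd P (cyl A S) W := ⟨hW, C, hC⟩
  obtain ⟨V, ⟨S0, h0, hV⟩, hd⟩ := cyl2_approx_aux hB (half_pos hε)
  have hE : AEStronglyMeasurable[cyl A (S0 : Set Γ)] (P[W|cyl A (S0 : Set Γ)]) P :=
    stronglyMeasurable_condExp.aestronglyMeasurable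
  obtain ⟨W', h1, h2, h3⟩ := Bdd.exists_bd' hE hC0 (ae_bdd_norm_condExp_of_ae_bdd_norm hC)
  refine ⟨W', ⟨S0, h0, h1, C, h2⟩, h2, ?_⟩
  have iW : Integrable W P := hB.integrable (cyl_le S)
  have iV : Integrable V P := hV.bdd.integrable (cyl_le _)
  have h4 : P[V - W|cyl A (S0 : Set Γ)] =ᵐ[P] fun ω => V ω - W' ω := by
    filter_upwards [condExp_sub iV iW (cyl A (S0 : Set Γ)),
      condExp_of_bdd (cyl_le (S0 : Set Γ)) (hV.bdd (μ := P)), h3] with ω e1 e2 e3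
    rw [e1, Pi.sub_apply, e2, e3]
  have h5 : ∫ ω, ‖V ω - W' ω‖ ∂P ≤ ∫ ω, ‖W ω - V ω‖ ∂P := by
    calc ∫ ω, ‖V ω - W' ω‖ ∂P = ∫ ω, ‖(P[V - W|cyl A (S0 : Set Γ)]) ω‖ ∂P :=
          integral_congr_ae (by filter_upwards [h4] with ω e using by rw [e])
      _ ≤ ∫ ω, ‖(V - W) ω‖ ∂P := integral_norm_condExp_le _
      _ = _ := by simp_rw [Pi.sub_apply, norm_sub_rev]
  have iW' : Integrable W' P := (Bd.bdd ⟨h1, C, h2⟩).integrable (cyl_le _)
  calc ∫ ω, ‖W ω - W' ω‖ ∂P ≤ ∫ ω, (‖W ω - V ω‖ + ‖V ω - W' ω‖) ∂P :=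
        integral_mono (iW.sub iW').norm ((iW.sub iV).norm.add (iV.sub iW').norm)
          fun ω => norm_sub_le_norm_sub_add_norm_sub _ _ _
    _ = ∫ ω, ‖W ω - V ω‖ ∂P + ∫ ω, ‖V ω - W' ω‖ ∂P :=
        integral_add (iW.sub iV).norm (iV.sub iW').norm
    _ < ε := by linarith

lemma approx_cyl_sq [IsProbabilityMeasure P] {W : (Γ → A) → ℂ} {C : ℝ}
    (hW : AEStronglyMeasurable[cyl A S] W P) (hC0 : 0 ≤ C) (hC : ∀ᵐ ω ∂P, ‖W ω‖ ≤ C) {ε : ℝ}
    (hε : 0 < ε) : ∃ W', Cyl S W' ∧ (∀ ω, ‖W' ω‖ ≤ C) ∧ ∫ ω, ‖W ω - W' ω‖ ^ 2 ∂P < ε := by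
  have hB : Bdd P (cyl A S) W := ⟨hW, C, hC⟩
  have hpos : 0 < 2 * C + 1 := by positivity
  obtain ⟨W', h1, h2, h3⟩ := approx_cyl hW hC0 hC (div_pos hε hpos)
  refine ⟨W', h1, h2, ?_⟩
  have hD : Bdd P (cyl A S) (fun ω => W ω - W' ω) := hB.sub h1.bd.bdd
  have i1 : Integrable (fun ω => ‖W ω - W' ω‖) P := (hD.integrable (cyl_le S)).norm
  have i2 : Integrable (fun ω => ‖W ω - W' ω‖ ^ 2) P :=
    (hD.memLp (cyl_le S) 2).integrable_norm_pow (by norm_num)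
  calc ∫ ω, ‖W ω - W' ω‖ ^ 2 ∂P ≤ ∫ ω, (2 * C + 1) * ‖W ω - W' ω‖ ∂P := by
        refine integral_mono_ae i2 (i1.const_mul _) ?_
        filter_upwards [hC] with ω h4
        have h5 : ‖W ω - W' ω‖ ≤ 2 * C + 1 := by
          linarith [norm_sub_le (W ω) (W' ω), h2 ω]
        rw [sq]
        exact mul_le_mul_of_nonneg_right h5 (norm_nonneg _)
    _ = (2 * C + 1) * ∫ ω, ‖W ω - W' ω‖ ∂P := integral_const_mul _ _
    _ < ε := by rwa [lt_div_iff₀' hpos] at h3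

lemma cyl2_sub_eq [IsProbabilityMeasure P] {m : MeasurableSpace (Γ → A)}
    (hm : m ≤ MeasurableSpace.pi) {U H : (Γ → A) → ℂ} (hU : Bdd P MeasurableSpace.pi U)
    (hH : Bdd P MeasurableSpace.pi H) :
    ∫ ω, U ω * (H ω - (P[H|m]) ω) ∂P = ∫ ω, U ω * H ω ∂P - ∫ ω, (P[U|m]) ω * H ω ∂P := by
  rw [integral_condExp_mul_comm hm hU hH, ← integral_sub ((hU.mul hH).integrable le_rfl)
    ((hU.mul ((hH.condExp (m := m)).mono hm)).integrable le_rfl)]
  simp_rw [mul_sub]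

lemma CI.of_cyl_left [IsProbabilityMeasure P] {m b : MeasurableSpace (Γ → A)}
    (hm : m ≤ MeasurableSpace.pi) (hb : b ≤ MeasurableSpace.pi)
    (h : ∀ U H, Cyl S U → Bdd P b H → ∫ ω, U ω * H ω ∂P = ∫ ω, (P[U|m]) ω * H ω ∂P) :
    CI P (cyl A S) m b := by
  intro U H hU hH
  have hH0 := hH.mono hb
  rw [← sub_eq_zero, ← cyl2_sub_eq hm (hU.mono (cyl_le S)) hH0]
  refine ext_cyl ((hH0.sub ((hH0.condExp (m := m)).mono hm)).integrable le_rfl)
    (fun W hW => ?_) U hU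
  rw [cyl2_sub_eq hm (hW.bd.bdd.mono (cyl_le S)) hH0, h W H hW hH, sub_self]

lemma CI.of_cyl [IsProbabilityMeasure P] {m : MeasurableSpace (Γ → A)}
    (hm : m ≤ MeasurableSpace.pi)
    (h : ∀ U H, Cyl S U → Cyl S' H → ∫ ω, U ω * H ω ∂P = ∫ ω, (P[U|m]) ω * H ω ∂P) :
    CI P (cyl A S) m (cyl A S') := by
  refine CI.of_cyl_left hm (cyl_le S') fun U H hU hH => ?_
  have hU0 : Bdd P MeasurableSpace.pi U := hU.bd.bdd.mono (cyl_le S)
  have hE : Bdd P MeasurableSpace.pi (P[U|m]) := (hU0.condExp (m := m)).mono hm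
  have key : ∀ W, Bdd P MeasurableSpace.pi W → ∫ ω, W ω * (U ω - (P[U|m]) ω) ∂P =
      ∫ ω, U ω * W ω ∂P - ∫ ω, (P[U|m]) ω * W ω ∂P := by
    intro W hW
    rw [← integral_sub ((hU0.mul hW).integrable le_rfl) ((hE.mul hW).integrable le_rfl)]
    exact integral_congr_ae (Eventually.of_forall fun ω => by ring)
  rw [← sub_eq_zero, ← key H (hH.mono (cyl_le S'))]
  refine ext_cyl ((hU0.sub hE).integrable le_rfl) (fun W hW => ?_) H hH
  rw [key W (hW.bd.bdd.mono (cyl_le S')), h U W hU hW, sub_self]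

lemma Ind.of_cyl [IsProbabilityMeasure P]
    (h : ∀ U H, Cyl S U → Cyl S' H → ∫ ω, U ω * H ω ∂P = (∫ ω, U ω ∂P) * ∫ ω, H ω ∂P) :
    Ind P (cyl A S) (cyl A S') := by
  refine ind_iff_ci.2 (CI.of_cyl bot_le fun U H hU hH => ?_)
  rw [h U H hU hH, condExp_bot, integral_const_mul]

lemma agree_of_cyl [IsProbabilityMeasure Q] [IsProbabilityMeasure Q']
    (h : ∀ U, Cyl S U → ∫ ω, U ω ∂Q = ∫ ω, U ω ∂Q') : Agree (cyl A S) Q Q' := by
  intro s hs
  refine ext_on_measurableSpace_of_generate_finite MeasurableSpace.pi (cyl2Sets A S) ?_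
    (cyl_le S) (cyl2_generateFrom S) (cyl2_isPiSystem S) (by simp) hs
  rintro t ⟨S0, h0, ht⟩
  have h1 := h _ ⟨S0, h0, Bd.indicator ht⟩
  have ht' : MeasurableSet t := cyl_le _ t ht
  have h5 : ∀ ν : Measure (Γ → A),
      ∫ ω, t.indicator (1 : (Γ → A) → ℂ) ω ∂ν = (ν.real t : ℂ) := by
    intro ν
    have := integral_indicator_const (μ := ν) (1 : ℂ) ht'
    rw [Complex.real_smul, mul_one] at this
    exact this
  rw [h5, h5] at h1
  have h6 : Q.real t = Q'.real t := by exact_mod_cast h1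
  exact (ENNReal.toReal_eq_toReal_iff' (measure_ne_top _ _) (measure_ne_top _ _)).1 h6

/-- basic cylinder sets over `S` -/
def atoms (A : Type*) (S : Set Γ) : Set (Set (Γ → A)) :=
  {s | ∃ (S0 : Finset Γ) (a : Γ → A), (S0 : Set Γ) ⊆ S ∧ s = {ω | ∀ γ ∈ S0, ω γ = a γ}}

lemma atoms_countable [Countable Γ] [Countable A] (S : Set Γ) : (atoms A S).Countable := by
  refine (Set.countable_range
    (fun p : Σ S0 : Finset Γ, (S0 → A) => {ω : Γ → A | ∀ γ : p.1, ω γ = p.2 γ})).mono ?_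
  rintro _ ⟨S0, a, -, rfl⟩
  refine ⟨⟨S0, fun γ => a γ⟩, ?_⟩
  ext ω
  simp

lemma isPiSystem_atoms (S : Set Γ) : IsPiSystem (atoms A S) := by
  classical
  rintro _ ⟨S0, a, h0, rfl⟩ _ ⟨S1, b, h1, rfl⟩ ⟨ω0, ha, hb⟩
  refine ⟨S0 ∪ S1, ω0, by simp [h0, h1], ?_⟩
  ext ω
  simp only [Set.mem_inter_iff, Set.mem_ofPred_eq, Finset.mem_union] at ha hb ⊢
  constructor
  · rintro ⟨h2, h3⟩ γ (hγ | hγ)
    · rw [h2 γ hγ, ha γ hγ]
    · rw [h3 γ hγ, hb γ hγ]
  · intro h2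
    exact ⟨fun γ hγ => by rw [h2 γ (Or.inl hγ), ha γ hγ],
      fun γ hγ => by rw [h2 γ (Or.inr hγ), hb γ hγ]⟩

lemma univ_mem_atoms [Nonempty A] (S : Set Γ) : Set.univ ∈ atoms A S :=
  ⟨∅, fun _ => Classical.arbitrary A, by simp, by simp⟩

lemma cyl2_measurableSet_atoms [DiscreteMeasurableSpace A] {s : Set (Γ → A)}
    (hs : s ∈ atoms A S) : MeasurableSet[cyl A S] s := by
  obtain ⟨S0, a, h0, rfl⟩ := hs
  have : {ω : Γ → A | ∀ γ ∈ S0, ω γ = a γ} = ⋂ γ ∈ S0, (fun ω : Γ → A => ω γ) ⁻¹' {a γ} := by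
    ext ω; simp
  rw [this]
  exact @Finset.measurableSet_biInter _ _ (cyl A S) _ _ fun γ hγ =>
    measurable_cylinderEvent_apply (X := fun _ : Γ => A) (h0 hγ) (measurableSet_singleton _)

lemma generateFrom_atoms [Countable A] [DiscreteMeasurableSpace A] (S : Set Γ) :
    cyl A S = MeasurableSpace.generateFrom (atoms A S) := by
  refine le_antisymm (iSup₂_le fun γ hγ s hs => ?_)
    (MeasurableSpace.generateFrom_le fun s hs => cyl2_measurableSet_atoms hs)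
  obtain ⟨t, -, rfl⟩ := hs
  have : (fun σ : Γ → A => σ γ) ⁻¹' t =
      ⋃ a ∈ t, {ω : Γ → A | ∀ γ' ∈ ({γ} : Finset Γ), ω γ' = a} := by
    ext ω; simp
  rw [this]
  exact MeasurableSet.biUnion (Set.to_countable t) fun a _ =>
    MeasurableSpace.measurableSet_generateFrom ⟨{γ}, fun _ => a, by simpa using hγ, rfl⟩

lemma measurableSet_of_mem_atoms [DiscreteMeasurableSpace A] {s : Set (Γ → A)}
    (hs : s ∈ atoms A S) : MeasurableSet[cyl A S] s :=
  cyl2_measurableSet_atoms hs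

lemma agree_of_atoms [Countable A] [DiscreteMeasurableSpace A] [IsProbabilityMeasure Q]
    [IsProbabilityMeasure Q'] (h : ∀ s ∈ atoms A S, Q s = Q' s) : Agree (cyl A S) Q Q' := by
  intro s hs
  exact ext_on_measurableSpace_of_generate_finite MeasurableSpace.pi (atoms A S) h
    (cyl_le S) (generateFrom_atoms S) (isPiSystem_atoms S) (by simp) hs

/-- `CI` can be tested on atoms in the left slot -/
lemma CI.of_atoms_left [Countable A] [Nonempty A] [DiscreteMeasurableSpace A]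
    [IsProbabilityMeasure P] {m b : MeasurableSpace (Γ → A)} (hm : m ≤ MeasurableSpace.pi)
    (hb : b ≤ MeasurableSpace.pi)
    (h : ∀ s ∈ atoms A S, ∀ H, Bdd P b H → ∫ ω, s.indicator (1 : (Γ → A) → ℂ) ω * H ω ∂P =
      ∫ ω, (P[s.indicator (1 : (Γ → A) → ℂ)|m]) ω * H ω ∂P) :
    CI P (cyl A S) m b := by
  intro U H hU hH
  have hH0 := hH.mono hb
  rw [← sub_eq_zero, ← cyl2_sub_eq hm (hU.mono (cyl_le S)) hH0]
  have key : ∀ s ∈ atoms A S, ∫ ω in s, (H ω - (P[H|m]) ω) ∂P = 0 := by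
    intro s hs
    have hs' : MeasurableSet[MeasurableSpace.pi] s :=
      cyl_le S s (measurableSet_of_mem_atoms hs)
    rw [cyl2_setIntegral hs', cyl2_sub_eq hm (Bd.indicator hs').bdd hH0, h s hs H hH, sub_self]
  refine ext_pi (isPiSystem_atoms S) (generateFrom_atoms S) (cyl_le S)
    ((hH0.sub ((hH0.condExp (m := m)).mono hm)).integrable le_rfl) ?_ key U hU
  simpa using key _ (univ_mem_atoms S)

end Crest.Agent.R069
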