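import Mathlib

/-!
# Row 69 (Rokhlin multiple mixing): definitions

Overview of the proof is in the team notes (row 69).  All functions are `ℂ`-valued.
CONVENTION: when several `MeasurableSpace Ω` variables are in scope the ambient one `m0`
is declared LAST (so instance resolution picks it).
-/

set_option autoImplicit false
open MeasureTheory Filter Topology
open scoped ENNReal ComplexConjugate

namespace Crest.Agent.R069

section Prob
variable {Ω : Type*}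

/-- honestly `m`-measurable and everywhere bounded -/
def Bd (m : MeasurableSpace Ω) (U : Ω → ℂ) : Prop :=
  Measurable[m] U ∧ ∃ C : ℝ, ∀ ω, ‖U ω‖ ≤ C

/-- a.e. equal to an `m`-measurable function, and a.e. bounded -/
def Bdd {m0 : MeasurableSpace Ω} (μ : Measure[m0] Ω) (m : MeasurableSpace Ω) (U : Ω → ℂ) : Prop :=
  AEStronglyMeasurable[m] U μ ∧ ∃ C : ℝ, ∀ᵐ ω ∂μ, ‖U ω‖ ≤ C

/-- "correlations between `a` and `b` factor through `m`".  If `m ≤ b` this is conditional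
independence of `a` and `b` given `m`.  Symmetric in `a`, `b` and monotone in both. -/
def CI {m0 : MeasurableSpace Ω} (μ : Measure[m0] Ω) (a m b : MeasurableSpace Ω) : Prop :=
  ∀ U H : Ω → ℂ, Bdd μ a U → Bdd μ b H →
    ∫ ω, U ω * H ω ∂μ = ∫ ω, (μ[U|m]) ω * H ω ∂μ

/-- independence, in test-function form -/
def Ind {m0 : MeasurableSpace Ω} (μ : Measure[m0] Ω) (a b : MeasurableSpace Ω) : Prop :=
  ∀ U H : Ω → ℂ, Bdd μ a U → Bdd μ b H →
    ∫ ω, U ω * H ω ∂μ = (∫ ω, U ω ∂μ) * ∫ ω, H ω ∂μ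

/-- the σ-algebra of sets a.e. equal to a `b`-measurable set -/
abbrev compl0 {m0 : MeasurableSpace Ω} (μ : Measure[m0] Ω) (b : MeasurableSpace Ω) :
    MeasurableSpace Ω :=
  eventuallyMeasurableSpace b (ae μ)

/-- `a ≤ b` modulo null sets -/
def Sle {m0 : MeasurableSpace Ω} (μ : Measure[m0] Ω) (a b : MeasurableSpace Ω) : Prop :=
  a ≤ compl0 μ b

/-- two measures agree on the σ-algebra `m` -/
def Agree {m0 : MeasurableSpace Ω} (m : MeasurableSpace Ω) (Q Q' : Measure[m0] Ω) : Prop :=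
  ∀ s : Set Ω, MeasurableSet[m] s → Q s = Q' s

/-- An "operator" on bounded functions which has a transpose. -/
def IsOp {m0 : MeasurableSpace Ω} (μ : Measure[m0] Ω) (Φ : (Ω → ℂ) → (Ω → ℂ)) : Prop :=
  (∀ G, Bdd μ m0 G → Bdd μ m0 (Φ G)) ∧
  ∃ Φ' : (Ω → ℂ) → (Ω → ℂ), (∀ ψ, Bdd μ m0 ψ → Bdd μ m0 (Φ' ψ)) ∧
    ∀ G ψ, Bdd μ m0 G → Bdd μ m0 ψ → ∫ ω, Φ G ω * ψ ω ∂μ = ∫ ω, G ω * Φ' ψ ω ∂μ

/-- inner product `∫ f * conj g` -/
noncomputable def ip {m0 : MeasurableSpace Ω} (μ : Measure[m0] Ω) (f g : Ω → ℂ) : ℂ :=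
  ∫ ω, f ω * conj (g ω) ∂μ

/-- a circle valued function as a complex valued function -/
def cf (χ : Ω → Circle) : Ω → ℂ := fun ω => (χ ω : ℂ)

/-- a.e. constant circle valued functions -/
def constSub {m0 : MeasurableSpace Ω} (μ : Measure[m0] Ω) : Subgroup (Ω → Circle) where
  carrier := {χ | ∃ c : Circle, ∀ᵐ ω ∂μ, χ ω = c}
  one_mem' := ⟨1, Eventually.of_forall fun _ => rfl⟩
  mul_mem' := by
    rintro a b ⟨c, hc⟩ ⟨d, hd⟩
    exact ⟨c * d, by filter_upwards [hc, hd] with ω h1 h2 using by simp [h1, h2]⟩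
  inv_mem' := by
    rintro a ⟨c, hc⟩
    exact ⟨c⁻¹, by filter_upwards [hc] with ω h1 using by simp [h1]⟩

lemma measurable_cf_mul {m : MeasurableSpace Ω} {a b : Ω → Circle} (ha : Measurable[m] (cf a))
    (hb : Measurable[m] (cf b)) : Measurable[m] (cf (a * b)) := by
  have : cf (a * b) = fun ω => cf a ω * cf b ω := by ext ω; simp [cf]
  rw [this]; exact ha.mul hb

lemma measurable_cf_inv {m : MeasurableSpace Ω} {a : Ω → Circle} (ha : Measurable[m] (cf a)) :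
    Measurable[m] (cf a⁻¹) := by
  have : cf a⁻¹ = fun ω => (cf a ω)⁻¹ := by ext ω; simp [cf]
  rw [this]; exact ha.inv

lemma measurable_cf_one {m : MeasurableSpace Ω} : Measurable[m] (cf (1 : Ω → Circle)) := by
  have : cf (1 : Ω → Circle) = fun _ => 1 := by ext ω; simp [cf]
  rw [this]; exact measurable_const

/-- characters of the line `𝓑` at the vertex `i0`: unimodular `𝓑 i0`-measurable functions
which a.e. factor as a product of unimodular functions of the other vertices. -/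
def charSub {ι : Type*} [Fintype ι] {m0 : MeasurableSpace Ω} (μ : Measure[m0] Ω)
    (𝓑 : ι → MeasurableSpace Ω) (i0 : ι) : Subgroup (Ω → Circle) where
  carrier := {χ | ∃ c : ι → Ω → Circle, (∀ i, Measurable[𝓑 i] (cf (c i))) ∧ c i0 = χ ∧
    ∀ᵐ ω ∂μ, ∏ i, c i ω = 1}
  one_mem' := ⟨fun _ => 1, fun _ => measurable_cf_one, rfl, Eventually.of_forall fun _ => by simp⟩
  mul_mem' := by
    rintro a b ⟨c, hc, rfl, hc'⟩ ⟨d, hd, rfl, hd'⟩
    refine ⟨fun i => c i * d i, fun i => measurable_cf_mul (hc i) (hd i), rfl, ?_⟩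
    filter_upwards [hc', hd'] with ω h1 h2
    simp [Finset.prod_mul_distrib, h1, h2]
  inv_mem' := by
    rintro a ⟨c, hc, rfl, hc'⟩
    refine ⟨fun i => (c i)⁻¹, fun i => measurable_cf_inv (hc i), rfl, ?_⟩
    filter_upwards [hc'] with ω h1
    simp [Finset.prod_inv_distrib, h1]

/-- `F` lies in the closed `L²`-span of `X` (double orthogonal form) -/
def InSpan {m0 : MeasurableSpace Ω} (μ : Measure[m0] Ω) (X : Set (Ω → Circle)) (F : Ω → ℂ) : Prop :=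
  ∀ ψ : Ω → ℂ, MemLp ψ 2 μ → (∀ χ ∈ X, ip μ (cf χ) ψ = 0) → ip μ F ψ = 0

/-- join of the vertices of a line indexed by `S` -/
abbrev lsig {ι : Type*} (𝓑 : ι → MeasurableSpace Ω) (S : Set ι) : MeasurableSpace Ω :=
  ⨆ i ∈ S, 𝓑 i

/-- join of the vertices of a grid indexed by `S` -/
abbrev gsig {α β : Type*} (𝓐 : α → β → MeasurableSpace Ω) (S : Set (α × β)) :
    MeasurableSpace Ω :=
  ⨆ p ∈ S, 𝓐 p.1 p.2

/-- A line with at least 3 vertices, any all-but-one of which are independent. -/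
structure Free {ι : Type*} [Fintype ι] {m0 : MeasurableSpace Ω} (μ : Measure[m0] Ω)
    (𝓑 : ι → MeasurableSpace Ω) : Prop where
  le : ∀ i, 𝓑 i ≤ m0
  card : 3 ≤ Fintype.card ι
  ind : ∀ j j0, j ≠ j0 → Ind μ (𝓑 j) (lsig 𝓑 {l | l ≠ j ∧ l ≠ j0})

/-- An exact line: moreover every vertex is determined by the others. -/
structure XLine {ι : Type*} [Fintype ι] {m0 : MeasurableSpace Ω} (μ : Measure[m0] Ω)
    (𝓑 : ι → MeasurableSpace Ω) : Prop extends Free μ 𝓑 where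
  ex : ∀ j, Sle μ (𝓑 j) (lsig 𝓑 {l | l ≠ j})

/-- Row `j` (all `(i, j)`) is conditionally independent, given its entries in the columns `J`,
of the columns `J` together with all rows other than `j`, `j0`. -/
def NRow {α β : Type*} {m0 : MeasurableSpace Ω} (μ : Measure[m0] Ω)
    (𝓐 : α → β → MeasurableSpace Ω) : Prop :=
  ∀ j j0 : β, j ≠ j0 → ∀ J : Set α,
    CI μ (gsig 𝓐 {p | p.2 = j}) (gsig 𝓐 {p | p.1 ∈ J ∧ p.2 = j})
      (gsig 𝓐 {p | p.1 ∈ J ∨ (p.2 ≠ j ∧ p.2 ≠ j0)})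

structure Grid {α β : Type*} [Fintype α] [Fintype β] {m0 : MeasurableSpace Ω}
    (μ : Measure[m0] Ω) (𝓐 : α → β → MeasurableSpace Ω) : Prop where
  le : ∀ i j, 𝓐 i j ≤ m0
  cardα : 3 ≤ Fintype.card α
  cardβ : 3 ≤ Fintype.card β
  nr : NRow μ 𝓐
  nc : NRow μ (flip 𝓐)

/-- exact grid. `𝓐 i` is the column line `i`, `flip 𝓐 j` is the row line `j`. -/
structure XGrid {α β : Type*} [Fintype α] [Fintype β] {m0 : MeasurableSpace Ω}
    (μ : Measure[m0] Ω) (𝓐 : α → β → MeasurableSpace Ω) : Prop extends Grid μ 𝓐 where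
  exc : ∀ i j, Sle μ (𝓐 i j) (lsig (𝓐 i) {l | l ≠ j})
  exr : ∀ i j, Sle μ (𝓐 i j) (lsig (flip 𝓐 j) {l | l ≠ i})

/-- the doubly exact part of the vertex `(i, j)` -/
abbrev Dsig {α β : Type*} {m0 : MeasurableSpace Ω} (μ : Measure[m0] Ω)
    (𝓐 : α → β → MeasurableSpace Ω) (i : α) (j : β) : MeasurableSpace Ω :=
  𝓐 i j ⊓ (compl0 μ (lsig (𝓐 i) {l | l ≠ j}) ⊓ compl0 μ (lsig (flip 𝓐 j) {l | l ≠ i}))

/-- hypotheses of the slot moving argument -/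
structure Slot {m0 : MeasurableSpace Ω} (μ : Measure[m0] Ω)
    (B0 B1 P0 P1 O : MeasurableSpace Ω) : Prop where
  leB0 : B0 ≤ m0
  leB1 : B1 ≤ m0
  leP0 : P0 ≤ m0
  leP1 : P1 ≤ m0
  leO : O ≤ m0
  h1 : CI μ B1 P1 (P0 ⊔ O)
  h1' : CI μ B0 P0 (P1 ⊔ O)
  h2 : CI μ P0 B0 (B1 ⊔ O)
  h2' : CI μ P1 B1 (B0 ⊔ O)
  h3 : CI μ P0 B0 (P1 ⊔ O)

/-- the operators `G ↦ E[a E[a' G | Z] | 𝓑 j1]`, `Z` = all vertices except `j1`, `jx` -/
noncomputable def Nop {ι : Type*} {m0 : MeasurableSpace Ω} (μ : Measure[m0] Ω)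
    (𝓑 : ι → MeasurableSpace Ω) (j1 jx : ι) (a a' G : Ω → ℂ) : Ω → ℂ :=
  μ[a * μ[a' * G | lsig 𝓑 {l | l ≠ j1 ∧ l ≠ jx}] | 𝓑 j1]

/-- admissible data for `Nop` -/
structure Adm {ι : Type*} {m0 : MeasurableSpace Ω} (μ : Measure[m0] Ω)
    (𝓑 : ι → MeasurableSpace Ω) (j1 jx : ι) (a a' : Ω → ℂ) : Prop where
  ne : jx ≠ j1
  ha' : Bdd μ (𝓑 jx) a'
  ha : ∃ j', j' ≠ j1 ∧ j' ≠ jx ∧ Bdd μ (lsig 𝓑 {l | l ≠ j1 ∧ l ≠ j'}) a

/-- all admissible `Nop` commute -/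
def Comm {ι : Type*} {m0 : MeasurableSpace Ω} (μ : Measure[m0] Ω)
    (𝓑 : ι → MeasurableSpace Ω) (j1 : ι) : Prop :=
  ∀ jx a a' jy b b', Adm μ 𝓑 j1 jx a a' → Adm μ 𝓑 j1 jy b b' → ∀ G, Bdd μ (𝓑 j1) G →
    Nop μ 𝓑 j1 jx a a' (Nop μ 𝓑 j1 jy b b' G) =ᵐ[μ] Nop μ 𝓑 j1 jy b b' (Nop μ 𝓑 j1 jx a a' G)

/-- extension of the column operator `Nop μ (𝓐 i0) j1 jx a a'` to the whole row `j1`, acting
"only on the vertex `(i1, j1)`". -/
noncomputable def Next {α β : Type*} {m0 : MeasurableSpace Ω} (μ : Measure[m0] Ω)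
    (𝓐 : α → β → MeasurableSpace Ω) (i0 i1 : α) (j1 jx : β) (a a' G : Ω → ℂ) : Ω → ℂ :=
  μ[a * μ[a' * G | gsig 𝓐 {p | (p.2 = j1 ∧ p.1 ≠ i0 ∧ p.1 ≠ i1) ∨ (p.2 ≠ j1 ∧ p.2 ≠ jx)}] |
    gsig 𝓐 {p | p.2 = j1}]

/-- characters correlating with some member of the family `F` -/
def Sig {ι : Type*} {m0 : MeasurableSpace Ω} (Q : Measure[m0] Ω)
    (X : Subgroup (Ω → Circle)) (F : ι → Ω → ℂ) : Set (Ω → Circle) :=
  {χ | χ ∈ X ∧ ∃ x, ip Q (F x) (cf χ) ≠ 0}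

/-- relation- and label-preserving correspondence from `X1` to `X2` -/
def Emb {ι : Type*} {m0 : MeasurableSpace Ω} (Q1 Q2 : Measure[m0] Ω)
    (X1 X2 : Set (Ω → Circle)) (F1 F2 : ι → Ω → ℂ) : Prop :=
  ∃ H : Subgroup ((Ω → Circle) × (Ω → Circle)),
    (∀ p ∈ H, p.1 ∈ constSub Q1 ↔ p.2 ∈ constSub Q2) ∧
    ∀ σ ∈ X1, ∃ σ' ∈ X2, (σ, σ') ∈ H ∧
      ∀ x, ‖ip Q1 (F1 x) (cf σ)‖ = ‖ip Q2 (F2 x) (cf σ')‖

/-- an abelian group projectively and faithfully represented by orthonormal unimodular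
functions -/
structure CharMod {m0 : MeasurableSpace Ω} (Q : Measure[m0] Ω) {M : Type*} [AddCommGroup M]
    (rep : M → Ω → Circle) : Prop where
  meas : ∀ a, Measurable[m0] (cf (rep a))
  add : ∀ a b, rep (a + b) * (rep a * rep b)⁻¹ ∈ constSub Q
  mean0 : ∀ a, a ≠ 0 → ∫ ω, cf (rep a) ω ∂Q = 0

/-- `T` acts on the σ-algebra `t` as a measure preserving mixing transformation -/
structure ThinSys {m0 : MeasurableSpace Ω} (Q : Measure[m0] Ω) (t : MeasurableSpace Ω)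
    (T : Ω → Ω) : Prop where
  le : t ≤ m0
  meas : @Measurable _ _ t t T
  inv : ∀ U, Bd t U → ∫ ω, U (T ω) ∂Q = ∫ ω, U ω ∂Q
  mix : ∀ U U', Bd t U → Bd t U' →
    Tendsto (fun n : ℕ => ∫ ω, U ω * U' (T^[n] ω) ∂Q) atTop (𝓝 ((∫ ω, U ω ∂Q) * ∫ ω, U' ω ∂Q))

/-- integer powers of `T` -/
def zp [MeasurableSpace Ω] (T : Ω ≃ᵐ Ω) (n : ℤ) : Ω → Ω :=
  ⇑((T.toEquiv : Equiv.Perm Ω) ^ n)

/-- mixing for at most `p` points, test functions in the class `𝒞` -/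
def MixFor [MeasurableSpace Ω] (μ : Measure Ω) (T : Ω ≃ᵐ Ω) (p : ℕ)
    (𝒞 : (Ω → ℂ) → Prop) : Prop :=
  ∀ (ι : Type) [Fintype ι], Fintype.card ι ≤ p → ∀ f : ι → Ω → ℂ, (∀ i, 𝒞 (f i)) →
    ∀ (κ : Type) (𝓕 : Filter κ) (c : κ → ι → ℤ),
      (∀ i j, i ≠ j → Tendsto (fun n => |c n i - c n j|) 𝓕 atTop) →
      Tendsto (fun n => ∫ x, ∏ i, f i (zp T (c n i) x) ∂μ) 𝓕 (𝓝 (∏ i, ∫ x, f i x ∂μ))

def MixLe [m0 : MeasurableSpace Ω] (μ : Measure Ω) (T : Ω ≃ᵐ Ω) (p : ℕ) : Prop :=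
  MixFor μ T p (Bd m0)

def MixSet [MeasurableSpace Ω] (μ : Measure Ω) (T : Ω ≃ᵐ Ω) (p : ℕ) : Prop :=
  MixFor μ T p (fun f => ∃ s, MeasurableSet s ∧ f = s.indicator 1)

end Prob

section Cyl
variable {Γ : Type*}

/-- σ-algebra generated by the coordinates in `S` -/
abbrev cyl (A : Type*) [MeasurableSpace A] (S : Set Γ) : MeasurableSpace (Γ → A) :=
  cylinderEvents (X := fun _ : Γ => A) S

/-- bounded function of finitely many coordinates in `S` -/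
def Cyl {A : Type*} [MeasurableSpace A] (S : Set Γ) (U : (Γ → A) → ℂ) : Prop :=
  ∃ S0 : Finset Γ, (S0 : Set Γ) ⊆ S ∧ Bd (cyl A (S0 : Set Γ)) U

/-- shift of configurations -/
def sh {A : Type*} [Add Γ] (β : Γ) (ω : Γ → A) : Γ → A := fun γ => ω (γ + β)

/-- shift of sets of positions: `S + β` -/
def shS [Sub Γ] (β : Γ) (S : Set Γ) : Set Γ := {γ | γ - β ∈ S}

/-- regular conditional probabilities given the coordinates in `E` -/
structure Fib {A : Type*} [MeasurableSpace A] (P : Measure (Γ → A)) (E : Set Γ)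
    (κ : (Γ → A) → Measure (Γ → A)) : Prop where
  prob : ∀ ω, IsProbabilityMeasure (κ ω)
  dep : ∀ ω ω', (∀ γ ∈ E, ω γ = ω' γ) → κ ω = κ ω'
  ce : ∀ U, Bd MeasurableSpace.pi U → (fun ω => ∫ x, U x ∂(κ ω)) =ᵐ[P] P[U | cyl A E]

end Cyl

section Array

/-- positions: a time and a finitely supported family of offsets, one for each scale -/
abbrev Gam (L : Type) [AddCommGroup L] := ℤ × (ℚ →₀ L)

variable {L : Type} [AddCommGroup L] {V : Type}

/-- offset `x` at scale `q` -/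
noncomputable def atq (q : ℚ) (x : L) : Gam L := (0, Finsupp.single q x)

/-- pure time shift -/
def tz (L : Type) [AddCommGroup L] (n : ℤ) : Gam L := (n, 0)

/-- positions using only scales in `J`.  `GamOn L ∅` is the set of "thin" positions. -/
def GamOn (L : Type) [AddCommGroup L] (J : Set ℚ) : Set (Gam L) :=
  {γ | ∀ q, γ.2 q ≠ 0 → q ∈ J}

/-- relabelling of scales on positions -/
noncomputable def push (φ : ℚ → ℚ) (γ : Gam L) : Gam L := (γ.1, γ.2.mapDomain φ)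

/-- relabelling of scales on configurations -/
noncomputable def Rm {A : Type} (φ : ℚ → ℚ) (ω : Gam L → A) : Gam L → A := fun γ => ω (push φ γ)

/-- the environment -/
def Env (vec : V → L) (ty : ℚ → V × V) (J S : Set ℚ) : Set (Gam L) :=
  {γ | γ ∈ GamOn L (J ∪ S) ∧ ∃ r ∈ J, ∃ l, (ty r).1 ≠ (ty r).2 ∧ l ≠ (ty r).1 ∧ l ≠ (ty r).2 ∧
    γ.2 r = vec l - vec (ty r).1}

/-- `⋃ b ∈ B, (Γ_J + b)` -/
def Vert (J : Set ℚ) (B : Set (Gam L)) : Set (Gam L) := {γ | ∃ b ∈ B, γ - b ∈ GamOn L J}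

/-- every type occurs in `J` immediately below `t` -/
def DenseBelow (ty : ℚ → V × V) (J : Set ℚ) (t : ℚ) : Prop :=
  ∀ c : V × V, ∀ a < t, ∃ r ∈ J, a < r ∧ r < t ∧ ty r = c

def TDense (ty : ℚ → V × V) (J : Set ℚ) : Prop := ∀ t, DenseBelow ty J t

/-- environment together with the vertices `≠ v0` of the line at scale `m` over `I` -/
def Oth (v0 : V) (vec : V → L) (ty : ℚ → V × V) (I : Set ℚ) (m : ℚ) : Set (Gam L) :=
  Vert I {b | ∃ v, v ≠ v0 ∧ b = atq m (vec v)} ∪ Env vec ty I {m}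

/-- line at scale `s` over `I` -/
noncomputable abbrev Line (A : Type) [MeasurableSpace A] (vec : V → L) (I : Set ℚ) (s : ℚ)
    (v : V) : MeasurableSpace (Gam L → A) :=
  cyl A (shS (atq s (vec v)) (GamOn L I))

/-- grid at scales `s`, `s'` over `I` -/
noncomputable abbrev GA (A : Type) [MeasurableSpace A] (vec : V → L) (I : Set ℚ) (s s' : ℚ)
    (i j : V) : MeasurableSpace (Gam L → A) :=
  cyl A (shS (atq s (vec i) + atq s' (vec j)) (GamOn L I))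

variable {A : Type} [MeasurableSpace A] [Fintype V] [DecidableEq V]

/-- the multilinear form at scale `t` -/
noncomputable def Lam (P : Measure (Gam L → A)) (vec : V → L) (t : ℚ)
    (F : V → (Gam L → A) → ℂ) : ℂ :=
  ∫ ω, ∏ i, F i (sh (atq t (vec i)) ω) ∂P

/-- the dual function of slot `i` -/
noncomputable def Jop (P : Measure (Gam L → A)) (vec : V → L) (t : ℚ) (i : V)
    (F : V → (Gam L → A) → ℂ) : (Gam L → A) → ℂ :=
  P[fun ω => ∏ l ∈ Finset.univ.erase i, F l (sh (atq t (vec l - vec i)) ω) | cyl A (GamOn L ∅)]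

/-- `f` is determined by the environment and the other vertices, for every line -/
def Exact (P : Measure (Gam L → A)) (v0 : V) (vec : V → L) (f : (Gam L → A) → ℂ) : Prop :=
  ∀ (ty : ℚ → V × V) (I : Set ℚ) (m t : ℚ), m < t → m ∉ I → DenseBelow ty I m →
    DenseBelow ty I t → Bdd P (cyl A (Oth v0 vec ty I m)) f

/-- axioms of the multi-scale array -/
structure Arr {κ : Type} (v0 : V) (vec : V → L) (P : Measure (Gam L → A)) (𝒰 : Ultrafilter κ)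
    (b : κ → V → ℕ) : Prop where
  card : 3 ≤ Fintype.card V
  vec0 : vec v0 = 0
  inj : Function.Injective vec
  inv : ∀ β, MeasurePreserving (sh β) P P
  spr : ∀ (K : Set ℚ) (φ : ℚ → ℚ), StrictMonoOn φ K → ∀ U, Bd (cyl A (GamOn L K)) U →
    ∫ ω, U (Rm φ ω) ∂P = ∫ ω, U ω ∂P
  top : ∀ (t : ℚ) (j0 : V) (x : L) (U : V → (Gam L → A) → ℂ),
    (∀ l, l ≠ j0 → Bdd P (cyl A (shS (atq t (vec l + x)) (GamOn L (Set.Iio t)))) (U l)) →
    ∫ ω, ∏ l ∈ Finset.univ.erase j0, U l ω ∂P = ∏ l ∈ Finset.univ.erase j0, ∫ ω, U l ω ∂P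
  disj : ∀ J J' : Set ℚ, Disjoint J J' →
    CI P (cyl A (GamOn L J)) (cyl A (GamOn L ∅)) (cyl A (GamOn L J'))
  mix : ∀ U U', Bd (cyl A (GamOn L ∅)) U → Bd (cyl A (GamOn L ∅)) U' →
    Tendsto (fun n : ℕ => ∫ ω, U ω * U' (sh (tz L n) ω) ∂P) atTop
      (𝓝 ((∫ ω, U ω ∂P) * ∫ ω, U' ω ∂P))
  lim : ∀ (t : ℚ) (f : V → (Gam L → A) → ℂ), (∀ i, Bd (cyl A (GamOn L ∅)) (f i)) →
    Tendsto (fun n => ∫ ω, ∏ i, f i (sh (tz L (b n i)) ω) ∂P) 𝒰 (𝓝 (Lam P vec t f))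
  div : ∀ i j, i ≠ j → Tendsto (fun n => |(b n i : ℤ) - b n j|) 𝒰 atTop

/-- `𝒲` is the iterated `𝒰`-limit over the scales, lowest scale outermost -/
def IsW {κ : Type} (𝒰 : Ultrafilter κ) (𝒲 : Ultrafilter (ℚ → κ)) : Prop :=
  ∀ (K : Finset ℚ) (q : ℚ), (∀ r ∈ K, q < r) → ∀ F : (ℚ → κ) → Prop,
    DependsOn F (insert q (K : Set ℚ)) →
    ((∀ᶠ n in (𝒲 : Filter (ℚ → κ)), F n) ↔
      ∀ᶠ m in (𝒰 : Filter κ), ∀ᶠ n in (𝒲 : Filter (ℚ → κ)), F (Function.update n q m))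

/-- the time at which position `γ` is evaluated for the parameter `n` -/
noncomputable def evG {κ : Type} (ev : κ → L →+ ℤ) (n : ℚ → κ) (γ : Gam L) : ℤ :=
  γ.1 + γ.2.sum fun q x => ev (n q) x

/-- read a configuration off its thin coordinates -/
noncomputable def rho {κ : Type} (ev : κ → L →+ ℤ) (n : ℚ → κ) (ω : Gam L → A) : Gam L → A :=
  fun γ => ω (tz L (evG ev n γ))

/-- raw output of the limit construction -/
structure PreArr {κ : Type} (v0 : V) (vec : V → L) (P : Measure (Gam L → A))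
    (𝒰 : Ultrafilter κ) (b : κ → V → ℕ) (𝒲 : Ultrafilter (ℚ → κ)) (ev : κ → L →+ ℤ) : Prop where
  card : 3 ≤ Fintype.card V
  vec0 : vec v0 = 0
  inj : Function.Injective vec
  isW : IsW 𝒰 𝒲
  pl : ∀ U, Cyl Set.univ U →
    Tendsto (fun n => ∫ ω, U (rho ev n ω) ∂P) 𝒲 (𝓝 (∫ ω, U ω ∂P))
  tinv : ∀ (z : ℤ) U, Bd (cyl A (GamOn L ∅)) U → ∫ ω, U (sh (tz L z) ω) ∂P = ∫ ω, U ω ∂P
  tmix : ∀ (ι : Type) [Fintype ι], Fintype.card ι < Fintype.card V →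
    ∀ f : ι → (Gam L → A) → ℂ, (∀ i, Bd (cyl A (GamOn L ∅)) (f i)) →
    ∀ (κ' : Type) (𝓕 : Filter κ') (c : κ' → ι → ℤ),
      (∀ i j, i ≠ j → Tendsto (fun n => |c n i - c n j|) 𝓕 atTop) →
      Tendsto (fun n => ∫ ω, ∏ i, f i (sh (tz L (c n i)) ω) ∂P) 𝓕 (𝓝 (∏ i, ∫ ω, f i ω ∂P))
  div : ∀ i j, i ≠ j → Tendsto (fun n => |(b n i : ℤ) - b n j|) 𝒰 atTop
  hb : ∀ n i j, (b n i : ℤ) - b n j = ev n (vec i) - ev n (vec j)

end Array

end Crest.Agent.R069
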