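import Crest.Agent.R069.Char

/-! Common eigenvectors of the operators `Nop` are characters, and conversely. -/

set_option autoImplicit false
open MeasureTheory Filter Topology
open scoped ENNReal ComplexConjugate

namespace Crest.Agent.R069
set_option linter.unusedSectionVars false

variable {Ω ι : Type*} [Fintype ι] {𝓑 : ι → MeasurableSpace Ω}
  {m0 : MeasurableSpace Ω} {μ : Measure Ω} [IsProbabilityMeasure μ]

lemma XLine.sle_all (h : XLine μ 𝓑) (j : ι) (S : Set ι) :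
    Sle μ (lsig 𝓑 S) (lsig 𝓑 {l | l ≠ j}) :=
  Sle.lsig fun i _ => by
    by_cases hi : i = j
    · subst hi; exact h.ex i
    · exact Sle.of_le (le_lsig 𝓑 hi)

/-- `{l ≠ j} = {i} ∪ {l ≠ j, i}` -/
lemma lsig_ne_eq (𝓑 : ι → MeasurableSpace Ω) {i j : ι} (hij : i ≠ j) :
    lsig 𝓑 {l | l ≠ j} = 𝓑 i ⊔ lsig 𝓑 {l | l ≠ j ∧ l ≠ i} := by
  rw [← lsig_insert]
  congr 1
  ext l
  by_cases hl : l = i <;> simp [hl, hij]

lemma isOp_Nop (h : Free μ 𝓑) {j1 jx : ι} {a a' : Ω → ℂ} (ha : Bdd μ m0 a) (ha' : Bdd μ m0 a') :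
    IsOp μ (Nop μ 𝓑 j1 jx a a') :=
  (IsOp.condExp (h.le j1)).comp ((IsOp.mul ha).comp
    ((IsOp.condExp (h.lsig_le _)).comp (IsOp.mul ha')))

/-- a nonzero integrable function of the vertex `j1` has a nonzero contraction -/
lemma XLine.exists_contraction (h : XLine μ 𝓑) {j1 jx : ι} (hj : jx ≠ j1) {G : Ω → ℂ}
    (hG : AEStronglyMeasurable[𝓑 j1] G μ) (hG' : Integrable G μ) (h0 : ¬ G =ᵐ[μ] 0) :
    ∃ a', Bdd μ (𝓑 jx) a' ∧ ¬ μ[a' * G | lsig 𝓑 {l | l ≠ j1 ∧ l ≠ jx}] =ᵐ[μ] 0 := by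
  by_contra hc
  push Not at hc
  refine h0 (ae_eq_zero_of_forall_integral_mul (h.lsig_le {l | l ≠ j1}) hG'
    ((h.ex j1).aestronglyMeasurable hG) ?_)
  rw [lsig_ne_eq 𝓑 hj]
  refine ext_sup (h.le jx) (h.lsig_le _) hG' fun u v hu hv => ?_
  have h1 := integral_condExp_mul (h.lsig_le {l | l ≠ j1 ∧ l ≠ jx}) (U := u * G)
    (hu.mul_integrable (h.le jx) hG') hv
  have h2 : ∫ ω, (μ[u * G | lsig 𝓑 {l | l ≠ j1 ∧ l ≠ jx}]) ω * v ω ∂μ = 0 := by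
    rw [integral_congr_ae (g := fun _ => 0)
      (by filter_upwards [hc u hu] with ω hω using by simp [hω])]
    simp
  rw [← h2, h1]
  exact integral_congr_ae (Eventually.of_forall fun ω => by simp only [Pi.mul_apply]; ring)

/-- The transpose of `Nop` maps the conjugate of a character to a multiple of itself, so the
orthogonal complement of the characters is invariant.  (Write `conj χ = c_jx · g` with `g`
measurable for `Z = {l ≠ j1, jx}`; `E[a c_jx | Z]` is measurable for `{l ≠ j1, jx, j'}` by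
`Free.ci_lsig`; finally use independence of `𝓑 j1` and `{l ≠ j1, j'}`.) -/
lemma Free.transpose_char (h : Free μ 𝓑) {j1 jx : ι} {a a' : Ω → ℂ} (hA : Adm μ 𝓑 j1 jx a a')
    {χ : Ω → Circle} (hχ : χ ∈ charSub μ 𝓑 j1) :
    ∃ κ : ℂ, μ[a' * μ[fun ω => a ω * conj (cf χ ω) | lsig 𝓑 {l | l ≠ j1 ∧ l ≠ jx}] | 𝓑 j1]
      =ᵐ[μ] fun ω => κ * conj (cf χ ω) := by
  classical
  obtain ⟨hne, ha', j', hj1, hjx, ha⟩ := hA
  have hχm := measurable_of_mem_charSub hχ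
  obtain ⟨c, hc, hcχ, hprod⟩ := hχ
  have hZ := h.lsig_le {l | l ≠ j1 ∧ l ≠ jx}
  have hZ' := h.lsig_le {l | l ≠ j1 ∧ l ≠ j'}
  have hx : 𝓑 jx ≤ lsig 𝓑 {l | l ≠ j1 ∧ l ≠ j'} := le_lsig 𝓑 ⟨hne, hjx.symm⟩
  let g : Ω → ℂ := fun ω => ∏ i ∈ (Finset.univ.erase j1).erase jx, cf (c i) ω
  have hg : Bdd μ (lsig 𝓑 {l | l ≠ j1 ∧ l ≠ jx}) g := Bdd.prod _ fun i hi => by
    rw [Finset.mem_erase, Finset.mem_erase] at hi
    exact (Bd.cf (hc i)).bdd.mono (le_lsig 𝓑 ⟨hi.2.1, hi.1⟩)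
  have hcx : Bdd μ (𝓑 jx) (cf (c jx)) := (Bd.cf (hc jx)).bdd
  have hχb : Bdd μ (𝓑 j1) (fun ω => conj (cf χ ω)) := (Bd.cf hχm).bdd.conj
  have e1 : ∀ᵐ ω ∂μ, conj (cf χ ω) = cf (c jx) ω * g ω := by
    filter_upwards [hprod] with ω hω
    rw [← Finset.mul_prod_erase _ _ (Finset.mem_univ j1),
      ← Finset.mul_prod_erase _ _ (Finset.mem_erase.2 ⟨hne, Finset.mem_univ jx⟩), hcχ,
      mul_eq_one_iff_inv_eq] at hω
    have := congrArg Circle.coeHom hω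
    rw [map_mul, map_prod] at this
    rw [cf, ← Circle.coe_inv_eq_conj]
    exact this
  have hac : Bdd μ (lsig 𝓑 {l | l ≠ j1 ∧ l ≠ j'}) (fun ω => a ω * cf (c jx) ω) :=
    ha.mul (hcx.mono hx)
  have hci := (h.ci_lsig (S := {l | l ≠ j1 ∧ l ≠ j'}) (S' := {l | l ≠ j1 ∧ l ≠ jx}) (j0 := j1)
    (by simp) (by simp)).condExp_eq hZ' hZ (lsig_mono 𝓑 Set.inter_subset_right) hac
  set e := μ[fun ω => a ω * cf (c jx) ω |
    lsig 𝓑 ({l | l ≠ j1 ∧ l ≠ j'} ∩ {l | l ≠ j1 ∧ l ≠ jx})] with he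
  have heb : Bdd μ (lsig 𝓑 {l | l ≠ j1 ∧ l ≠ j'}) e :=
    hac.condExp.mono (lsig_mono 𝓑 Set.inter_subset_left)
  have e2 : μ[fun ω => a ω * conj (cf χ ω) | lsig 𝓑 {l | l ≠ j1 ∧ l ≠ jx}] =ᵐ[μ]
      fun ω => g ω * e ω := by
    refine (condExp_congr_ae (g := fun ω => g ω * (a ω * cf (c jx) ω)) ?_).trans
      ((condExp_mul_left hZ hg (hac.integrable hZ')).trans ?_)
    · filter_upwards [e1] with ω hω
      rw [hω]; ring
    · filter_upwards [hci] with ω hω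
      rw [hω]
  have hW : Bdd μ (lsig 𝓑 {l | l ≠ j1 ∧ l ≠ j'}) (fun ω => a' ω * conj (cf (c jx) ω) * e ω) :=
    ((ha'.mul hcx.conj).mono hx).mul heb
  refine ⟨∫ ω, a' ω * conj (cf (c jx) ω) * e ω ∂μ, ?_⟩
  refine (condExp_congr_ae
    (g := fun ω => conj (cf χ ω) * (a' ω * conj (cf (c jx) ω) * e ω)) ?_).trans
    ((condExp_mul_left (h.le j1) hχb (hW.integrable hZ')).trans ?_)
  · filter_upwards [e1, e2] with ω h1 h2
    have h3 : cf (c jx) ω * conj (cf (c jx) ω) = 1 := by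
      simp [cf, Complex.mul_conj]
    rw [Pi.mul_apply, h2, h1]
    linear_combination (-(a' ω * g ω * e ω)) * h3
  · filter_upwards [(h.ind j1 j' hj1.symm).symm.condExp_eq hZ' (h.le j1) hW] with ω hω
    rw [hω, mul_comm]

lemma XLine.eig_factor (h : XLine μ 𝓑) {j1 : ι} {G : Ω → ℂ} (hG : Bdd μ (𝓑 j1) G)
    (h0 : ¬ G =ᵐ[μ] 0)
    (heig : ∀ jx a a', Adm μ 𝓑 j1 jx a a' →
      ∃ ν : ℂ, Nop μ 𝓑 j1 jx a a' G =ᵐ[μ] fun ω => ν * G ω) {jx : ι} (hj : jx ≠ j1) :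
    ∃ g : Ω → ℂ, Bdd μ (lsig 𝓑 {l | l ≠ j1 ∧ l ≠ jx}) g ∧ ¬ g =ᵐ[μ] 0 ∧
      ∀ j', j' ≠ j1 → j' ≠ jx → ∃ β : Ω → ℂ, Bdd μ (lsig 𝓑 {l | l ≠ j1 ∧ l ≠ j'}) β ∧
        g =ᵐ[μ] fun ω => G ω * β ω := by
  have h1 := h.le j1
  have hG0 := hG.mono h1
  obtain ⟨a', ha', hg0⟩ := h.exists_contraction hj hG.1 (hG.integrable h1) h0
  set g := μ[a' * G | lsig 𝓑 {l | l ≠ j1 ∧ l ≠ jx}] with hgdef
  have hg : Bdd μ (lsig 𝓑 {l | l ≠ j1 ∧ l ≠ jx}) g := ((ha'.mono (h.le jx)).mul' hG0).condExp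
  have hg' := hg.mono (h.lsig_le _)
  refine ⟨g, hg, hg0, fun j' hj1 hj2 => ?_⟩
  have hZ := h.lsig_le {l | l ≠ j1 ∧ l ≠ j'}
  set N := ∫ ω, G ω * conj (G ω) ∂μ with hN
  have hN0 : N ≠ 0 := fun h' => h0 (ae_eq_zero_of_integral_mul_conj hG0 h')
  have hgG := hg'.mul hG0.conj
  set e := μ[fun ω => g ω * conj (G ω) | lsig 𝓑 {l | l ≠ j1 ∧ l ≠ j'}] with he
  have heb : Bdd μ (lsig 𝓑 {l | l ≠ j1 ∧ l ≠ j'}) e := hgG.condExp
  have hβ : Bdd μ (lsig 𝓑 {l | l ≠ j1 ∧ l ≠ j'}) fun ω => N⁻¹ * e ω := (Bdd.const _).mul heb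
  refine ⟨_, hβ, ?_⟩
  have hsup : lsig 𝓑 {l | l ≠ j'} = 𝓑 j1 ⊔ lsig 𝓑 {l | l ≠ j1 ∧ l ≠ j'} := by
    rw [lsig_ne_eq 𝓑 hj1.symm]
    simp only [and_comm]
  have hD : Bdd μ (lsig 𝓑 {l | l ≠ j'}) fun ω => g ω - G ω * (N⁻¹ * e ω) :=
    ((h.sle_all j' _).bdd hg).sub (by
      rw [hsup]
      exact (hG.mono le_sup_left).mul (hβ.mono le_sup_right))
  have hD' := hD.integrable (h.lsig_le _)
  have key : (fun ω => g ω - G ω * (N⁻¹ * e ω)) =ᵐ[μ] 0 := by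
    refine ae_eq_zero_of_forall_integral_mul (h.lsig_le {l | l ≠ j'}) hD' hD.1 ?_
    rw [hsup]
    refine ext_sup h1 hZ hD' fun b a hb ha => ?_
    obtain ⟨ν, hν⟩ := heig jx a a' ⟨hj, ha', j', hj1, hj2, ha⟩
    have hag : Integrable (a * g) μ := ((ha.mono hZ).mul' hg').integrable le_rfl
    have t : ∀ b : Ω → ℂ, Bdd μ (𝓑 j1) b → ∫ ω, a ω * g ω * b ω ∂μ = ν * ∫ ω, G ω * b ω ∂μ := by
      intro b hb
      have := integral_condExp_mul h1 hag hb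
      simp only [Pi.mul_apply] at this
      rw [← this, ← integral_const_mul]
      refine integral_congr_ae ?_
      filter_upwards [hν] with ω hω
      rw [← mul_assoc, ← hω]
      rfl
    have t1 : ∫ ω, e ω * a ω ∂μ = ν * N := by
      rw [he, integral_condExp_mul hZ (hgG.integrable le_rfl) ha, ← t _ hG.conj]
      exact integral_congr_ae (Eventually.of_forall fun ω => by simp only; ring)
    have t2 := h.ind j1 j' hj1.symm _ _ (hG.mul hb) (heb.mul ha)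
    have i1 : Integrable (fun ω => a ω * g ω * b ω) μ :=
      (((ha.mono hZ).mul hg').mul (hb.mono h1)).integrable le_rfl
    have i2 : Integrable (fun ω => N⁻¹ * (G ω * b ω * (e ω * a ω))) μ :=
      ((Bdd.const _).mul (((hG.mul hb).mono h1).mul ((heb.mul ha).mono hZ))).integrable le_rfl
    calc ∫ ω, b ω * a ω * (g ω - G ω * (N⁻¹ * e ω)) ∂μ
        = ∫ ω, (a ω * g ω * b ω - N⁻¹ * (G ω * b ω * (e ω * a ω))) ∂μ :=
          integral_congr_ae (Eventually.of_forall fun ω => by simp only; ring)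
      _ = 0 := by
          rw [integral_sub i1 i2, integral_const_mul, t2, t1, t b hb]
          field_simp
          ring
  filter_upwards [key] with ω hω
  exact sub_eq_zero.1 hω

/-- Proof: fix `jx ≠ j1`, take `a'` from `exists_contraction`, `g = E[a' G | Z jx] ≠ 0`.  For
`j' ∉ {j1, jx}` put `β = E[g conj G | Z j'] / ∫|G|²`; testing against products `a b`
(`a ∈ Z j'`, `b ∈ 𝓑 j1`), `ext_sup` and exactness at `j'` give `g = G β`.  Taking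
`E[·|𝓑 j1]` of `|g|² = |G|²|β|²` shows `|G|` is a nonzero constant.  So `G = c χ`,
`β = g / G` does not depend on `j'`, hence is `𝓑 jx`-measurable (`Free.bdd_iInter`), and
`Free.mem_charSub_of_sep` applies with `d = conj (c β)`, `w = conj g`. -/
theorem XLine.char_of_eigen (h : XLine μ 𝓑) {j1 : ι} {G : Ω → ℂ} (hG : Bdd μ (𝓑 j1) G)
    (h0 : ¬ G =ᵐ[μ] 0)
    (heig : ∀ jx a a', Adm μ 𝓑 j1 jx a a' →
      ∃ ν : ℂ, Nop μ 𝓑 j1 jx a a' G =ᵐ[μ] fun ω => ν * G ω) :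
    ∃ χ ∈ charSub μ 𝓑 j1, ∃ c : ℂ, c ≠ 0 ∧ G =ᵐ[μ] fun ω => c * cf χ ω := by
  classical
  choose! g hg hg0 hβ using fun jx (hj : jx ≠ j1) => h.eig_factor hG h0 heig hj
  -- `‖G‖` is a positive constant
  obtain ⟨r, hr, hGr⟩ : ∃ r : ℝ, 0 < r ∧ ∀ᵐ ω ∂μ, ‖G ω‖ = r := by
    obtain ⟨jx, hjx, -⟩ := h.exists_third j1 j1
    obtain ⟨j', hj1, hj2⟩ := h.exists_third j1 jx
    obtain ⟨β, hβb, e⟩ := hβ jx hjx j' hj1 hj2
    have hgg := (hg jx hjx).mul (hg jx hjx).conj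
    have hββ := hβb.mul hβb.conj
    have e1 := (h.ind j1 jx hjx.symm).symm.condExp_eq (h.lsig_le _) (h.le j1) hgg
    have e2 := (h.ind j1 j' hj1.symm).symm.condExp_eq (h.lsig_le _) (h.le j1) hββ
    have e3 := condExp_mul_left (h.le j1) (hG.mul hG.conj) (hββ.integrable (h.lsig_le _))
    have e4 : μ[fun ω => g jx ω * conj (g jx ω) | 𝓑 j1] =ᵐ[μ]
        μ[fun ω => G ω * conj (G ω) * (β ω * conj (β ω)) | 𝓑 j1] := condExp_congr_ae (by
      filter_upwards [e] with ω hω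
      rw [hω, map_mul]; ring)
    set A := ∫ ω, g jx ω * conj (g jx ω) ∂μ with hA
    set B := ∫ ω, β ω * conj (β ω) ∂μ with hB
    have hA0 : A ≠ 0 := fun h' =>
      hg0 jx hjx (ae_eq_zero_of_integral_mul_conj ((hg jx hjx).mono (h.lsig_le _)) h')
    have e5 : ∀ᵐ ω ∂μ, ‖A‖ = ‖G ω‖ ^ 2 * ‖B‖ := by
      filter_upwards [e1, e2, e3, e4] with ω h1 h2 h3 h4
      rw [← h1, h4, h3, h2, norm_mul, norm_mul, Complex.norm_conj, sq]
    have hA' : 0 < ‖A‖ := norm_pos_iff.2 hA0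
    have hB' : 0 < ‖B‖ := by
      obtain ⟨ω, hω⟩ := e5.exists
      refine lt_of_le_of_ne (norm_nonneg _) fun h' => ?_
      rw [← h', mul_zero] at hω
      exact hA'.ne' hω
    refine ⟨√(‖A‖ / ‖B‖), Real.sqrt_pos.2 (div_pos hA' hB'), ?_⟩
    filter_upwards [e5] with ω hω
    rw [hω, mul_div_cancel_right₀ _ hB'.ne', Real.sqrt_sq (norm_nonneg _)]
  have hr' : (r : ℂ) ≠ 0 := Complex.ofReal_ne_zero.2 hr.ne'
  obtain ⟨χ, hχ, eχ⟩ := exists_circle_of_ae_norm_eq_one (a := 𝓑 j1) (μ := μ)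
    (G := fun ω => (r : ℂ)⁻¹ * G ω) ((Bdd.const _).mul hG).1 (by
      filter_upwards [hGr] with ω hω
      rw [norm_mul, hω, norm_inv, Complex.norm_real, Real.norm_of_nonneg hr.le,
        inv_mul_cancel₀ hr.ne'])
  have eG : G =ᵐ[μ] fun ω => (r : ℂ) * cf χ ω := by
    filter_upwards [eχ] with ω hω
    rw [← hω, mul_inv_cancel_left₀ hr']
  have hu : ∀ ω, cf χ ω * conj (cf χ ω) = 1 := fun ω => by simp [cf, Complex.mul_conj]
  refine ⟨χ, h.toFree.mem_charSub_of_sep hχ fun jx hjx => ?_, r, hr', eG⟩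
  have hF : Bdd μ (𝓑 jx) fun ω => conj (cf χ ω) * g jx ω := by
    have h1 := h.toFree.bdd_iInter (κ := ι) ((Finset.univ.erase j1).erase jx)
      (by
        obtain ⟨j', hj1, hj2⟩ := h.exists_third j1 jx
        exact ⟨j', by simp [hj1, hj2]⟩)
      (S := fun j' => {l | l ≠ j1 ∧ l ≠ j'}) (j0 := j1) (fun _ _ => by simp)
      (F := fun ω => conj (cf χ ω) * g jx ω) (fun j' hj' => by
        rw [Finset.mem_erase, Finset.mem_erase] at hj'
        obtain ⟨β, hβb, e⟩ := hβ jx hjx j' hj'.2.1 hj'.1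
        refine ((Bdd.const (r : ℂ)).mul hβb).congr ?_
        filter_upwards [e, eG] with ω h1 h2
        rw [h1, h2]
        linear_combination (-(r * β ω)) * hu ω)
    refine h1.mono (lsig_le fun i hi => ?_)
    have : i = jx := by
      by_contra hne
      obtain ⟨j', hj1, hj2⟩ := h.exists_third j1 jx
      have h2 : i ≠ j1 := (Set.mem_iInter₂.1 hi j' (by simp [hj1, hj2])).1
      exact (Set.mem_iInter₂.1 hi i (by simp [h2, hne])).2 rfl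
    rw [this]
  refine ⟨fun ω => conj (conj (cf χ ω) * g jx ω), fun ω => conj (g jx ω), hF.conj,
    (hg jx hjx).conj, fun h' => hg0 jx hjx ?_, Eventually.of_forall fun ω => by simp⟩
  filter_upwards [h'] with ω hω
  have h1 : cf χ ω ≠ 0 := left_ne_zero_of_mul_eq_one (hu ω)
  simpa [h1] using hω

end Crest.Agent.R069
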