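import Crest.Agent.R069.Line

/-! Correspondences between systems of characters. -/

set_option autoImplicit false
open MeasureTheory Filter Topology
open scoped ENNReal ComplexConjugate

namespace Crest.Agent.R069
set_option linter.unusedSectionVars false

variable {Ω ι κ : Type*} [Fintype ι] {m : MeasurableSpace Ω} {𝓑 : ι → MeasurableSpace Ω}
  {m0 : MeasurableSpace Ω} {Q Q1 Q2 Q3 : Measure Ω}

/-- forward orbits of a family of functions -/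
def orb {Ω V : Type*} (T : Ω → Ω) (f : V → Ω → ℂ) (x : V × ℕ) : Ω → ℂ :=
  fun ω => f x.1 (T^[x.2] ω)

lemma Agree.symm (h : Agree m Q1 Q2) : Agree m Q2 Q1 := fun s hs => (h s hs).symm

lemma Agree.mono {m' : MeasurableSpace Ω} {_m0 : MeasurableSpace Ω} {Q1 Q2 : Measure Ω}
    (h : Agree m Q1 Q2) (h' : m' ≤ m) : Agree m' Q1 Q2 := fun s hs => h s (h' s hs)

lemma Agree.integral_eq (h : Agree m Q1 Q2) (hm : m ≤ m0) {U : Ω → ℂ} (hU : Measurable[m] U) :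
    ∫ ω, U ω ∂Q1 = ∫ ω, U ω ∂Q2 := by
  have e : Q1.trim hm = Q2.trim hm := by
    refine @Measure.ext _ m _ _ fun s hs => ?_
    rw [trim_measurableSet_eq hm hs, trim_measurableSet_eq hm hs, h s hs]
  rw [integral_trim hm hU.stronglyMeasurable, integral_trim hm hU.stronglyMeasurable, e]

lemma emb_meas_eq {m : MeasurableSpace Ω} {a : Ω → Circle} (ha : Measurable[m] (cf a))
    (c : Circle) : MeasurableSet[m] {ω | a ω = c} := by
  have : {ω | a ω = c} = cf a ⁻¹' {(c : ℂ)} := by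
    ext ω; exact Circle.ext_iff
  rw [this]
  exact ha (measurableSet_singleton _)

lemma emb_meas_prod {m : MeasurableSpace Ω} {c : ι → Ω → Circle}
    (hc : ∀ i, Measurable[m] (cf (c i))) : MeasurableSet[m] {ω | ∏ i, c i ω = 1} := by
  refine emb_meas_eq (a := fun ω => ∏ i, c i ω) ?_ 1
  have : cf (fun ω => ∏ i, c i ω) = fun ω => ∏ i, cf (c i) ω := by
    ext ω
    exact map_prod Circle.coeHom _ _
  rw [this]
  exact Finset.measurable_fun_prod _ fun i _ => hc i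

/-- compose the subgroups as relations -/
lemma Emb.trans {X1 X2 X3 : Set (Ω → Circle)} {F1 F2 F3 : κ → Ω → ℂ}
    (h : Emb Q1 Q2 X1 X2 F1 F2) (h' : Emb Q2 Q3 X2 X3 F2 F3) : Emb Q1 Q3 X1 X3 F1 F3 := by
  obtain ⟨H, h1, h2⟩ := h
  obtain ⟨H', h1', h2'⟩ := h'
  refine ⟨{ carrier := {p | ∃ b, (p.1, b) ∈ H ∧ (b, p.2) ∈ H'}
            one_mem' := ⟨1, H.one_mem, H'.one_mem⟩
            mul_mem' := ?_
            inv_mem' := ?_ }, ?_, ?_⟩
  · rintro p q ⟨b, hb, hb'⟩ ⟨c, hc, hc'⟩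
    exact ⟨b * c, H.mul_mem hb hc, H'.mul_mem hb' hc'⟩
  · rintro p ⟨b, hb, hb'⟩
    exact ⟨b⁻¹, H.inv_mem hb, H'.inv_mem hb'⟩
  · rintro p ⟨b, hb, hb'⟩
    exact (h1 _ hb).trans (h1' _ hb')
  · intro σ hσ
    obtain ⟨σ', hσ', h3, h4⟩ := h2 σ hσ
    obtain ⟨σ'', hσ'', h5, h6⟩ := h2' σ' hσ'
    exact ⟨σ'', hσ'', ⟨σ', h3, h5⟩, fun x => (h4 x).trans (h6 x)⟩

/-- `H = {(a, a) | cf a is m-measurable}` -/
lemma emb_agree (hm : m ≤ m0) (hB : ∀ i, 𝓑 i ≤ m) (hQ : Agree m Q1 Q2) (i0 : ι)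
    {F G : κ → Ω → ℂ} (hF : ∀ x, Measurable[m] (F x)) (hG : ∀ x, Measurable[m] (G x)) :
    Emb Q1 Q2 (Sig Q1 (charSub Q1 𝓑 i0) F) (Sig Q2 (charSub Q2 𝓑 i0) F) G G := by
  have hae : ∀ p : Ω → Prop, MeasurableSet[m] {ω | p ω} → ((∀ᵐ ω ∂Q1, p ω) ↔ ∀ᵐ ω ∂Q2, p ω) := by
    intro p hp
    rw [ae_iff, ae_iff]
    exact (congrArg (· = 0) (hQ _ hp.compl)).to_iff
  have hip : ∀ (U : Ω → ℂ) (σ : Ω → Circle), Measurable[m] U → Measurable[m] (cf σ) →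
      ip Q1 U (cf σ) = ip Q2 U (cf σ) := fun U σ hU hσ =>
    hQ.integral_eq hm (hU.mul (Complex.continuous_conj.measurable.comp hσ))
  refine ⟨{ carrier := {p | Measurable[m] (cf p.1) ∧ p.2 = p.1}
            one_mem' := ⟨measurable_cf_one, rfl⟩
            mul_mem' := ?_
            inv_mem' := ?_ }, ?_, ?_⟩
  · rintro p q ⟨hp, hp'⟩ ⟨hq, hq'⟩
    exact ⟨measurable_cf_mul hp hq, by rw [Prod.snd_mul, hp', hq', Prod.fst_mul]⟩
  · rintro p ⟨hp, hp'⟩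
    exact ⟨measurable_cf_inv hp, by rw [Prod.snd_inv, hp', Prod.fst_inv]⟩
  · rintro ⟨a, b⟩ ⟨ha, hb⟩
    obtain rfl : b = a := hb
    exact exists_congr fun c => hae _ (emb_meas_eq ha c)
  · rintro σ ⟨⟨c, hc, rfl, hc'⟩, x, hx⟩
    have hc0 : ∀ i, Measurable[m] (cf (c i)) := fun i => (hc i).mono (hB i) le_rfl
    refine ⟨c i0, ⟨⟨c, hc, rfl, (hae _ (emb_meas_prod hc0)).1 hc'⟩, x, ?_⟩, ⟨hc0 i0, rfl⟩,
      fun x => by rw [hip _ _ (hG x) (hc0 i0)]⟩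
    rwa [← hip _ _ (hF x) (hc0 i0)]

/-- `H = {(a, a ∘ T) | cf a measurable}` -/
lemma emb_shift {T : Ω → Ω} (hT : Measurable T) (hB : ∀ i, 𝓑 i ≤ m0)
    (hTB : ∀ i, @Measurable _ _ (𝓑 i) (𝓑 i) T) (i0 : ι) {F : κ → Ω → ℂ}
    (hF : ∀ x, Measurable (F x)) (nx : κ → κ) (hnx : ∀ x ω, F (nx x) ω = F x (T ω)) :
    Emb (Q.map T) Q (Sig (Q.map T) (charSub (Q.map T) 𝓑 i0) F) (Sig Q (charSub Q 𝓑 i0) F)
      F (fun x => F (nx x)) := by
  have hip : ∀ (x : κ) (σ : Ω → Circle), Measurable (cf σ) →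
      ip (Q.map T) (F x) (cf σ) = ip Q (F (nx x)) (cf (σ ∘ T)) := by
    intro x σ hσ
    unfold ip
    rw [integral_map (f := fun ω => F x ω * conj (cf σ ω)) hT.aemeasurable
      ((hF x).mul (Complex.continuous_conj.measurable.comp hσ)).aestronglyMeasurable]
    simp only [hnx]
    rfl
  refine ⟨{ carrier := {p | Measurable (cf p.1) ∧ p.2 = p.1 ∘ T}
            one_mem' := ⟨measurable_cf_one, rfl⟩
            mul_mem' := ?_
            inv_mem' := ?_ }, ?_, ?_⟩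
  · rintro p q ⟨hp, hp'⟩ ⟨hq, hq'⟩
    exact ⟨measurable_cf_mul hp hq, by rw [Prod.snd_mul, hp', hq', Prod.fst_mul]; rfl⟩
  · rintro p ⟨hp, hp'⟩
    exact ⟨measurable_cf_inv hp, by rw [Prod.snd_inv, hp', Prod.fst_inv]; rfl⟩
  · rintro ⟨a, b⟩ ⟨ha, hb⟩
    obtain rfl : b = a ∘ T := hb
    exact exists_congr fun c => ae_map_iff hT.aemeasurable (emb_meas_eq ha c)
  · rintro σ ⟨⟨c, hc, rfl, hc'⟩, x, hx⟩
    have hc0 : ∀ i, Measurable (cf (c i)) := fun i => (hc i).mono (hB i) le_rfl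
    refine ⟨c i0 ∘ T, ⟨⟨fun i => c i ∘ T, fun i => (hc i).comp (hTB i), rfl,
      (ae_map_iff hT.aemeasurable (emb_meas_prod hc0)).1 hc'⟩, nx x, ?_⟩, ⟨hc0 i0, rfl⟩,
      fun x => by rw [hip _ _ (hc0 i0)]⟩
    rwa [← hip _ _ (hc0 i0)]

/-- `H = {(a, b) | a * b⁻¹ a.e. constant}` -/
lemma emb_of_inSpan [IsProbabilityMeasure Q] {X1 X1' X2 Y : Subgroup (Ω → Circle)}
    (hY : ∀ χ ∈ Y, χ ∈ constSub Q ∨ ∫ ω, cf χ ω ∂Q = 0) (h1 : X1 ≤ Y) (h1' : X1' ≤ Y)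
    (hm : ∀ χ ∈ X1, Measurable (cf χ)) {F : κ → Ω → ℂ}
    (hF : ∀ x, InSpan Q ((X1' : Set (Ω → Circle)) ∩ X2) (F x)) :
    Emb Q Q (Sig Q X1 F) (Sig Q X2 F) F F := by
  refine ⟨(constSub Q).comap ((MonoidHom.fst _ _) / (MonoidHom.snd _ _)), ?_, ?_⟩
  · rintro ⟨a, b⟩ hab
    have h : a / b ∈ constSub Q := hab
    refine ⟨fun ha => ?_, fun hb => ?_⟩
    · simpa using (constSub Q).div_mem ha h
    · simpa using (constSub Q).mul_mem h hb
  · rintro σ ⟨hσ, x, hx⟩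
    have hL : MemLp (cf σ) 2 Q :=
      MemLp.of_bound (hm σ hσ).aestronglyMeasurable 1 (Eventually.of_forall fun ω => by simp [cf])
    obtain ⟨χ, ⟨hχ1, hχ2⟩, hχ⟩ : ∃ χ ∈ (X1' : Set (Ω → Circle)) ∩ X2, ip Q (cf χ) (cf σ) ≠ 0 := by
      by_contra hcon
      push Not at hcon
      exact hx (hF x _ hL hcon)
    have h3 : χ / σ ∈ constSub Q := by
      refine (hY _ (Y.div_mem (h1' hχ1) (h1 hσ))).resolve_right fun h0 => hχ ?_
      rw [← h0]
      refine integral_congr_ae (Eventually.of_forall fun ω => ?_)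
      simp only [cf, div_eq_mul_inv, Pi.mul_apply, Pi.inv_apply, Circle.coe_mul,
        Circle.coe_inv_eq_conj]
    have h4 : ∀ y, ‖ip Q (F y) (cf σ)‖ = ‖ip Q (F y) (cf χ)‖ := by
      intro y
      obtain ⟨c, hc⟩ := h3
      have : ip Q (F y) (cf χ) = conj (c : ℂ) * ip Q (F y) (cf σ) := by
        unfold ip
        rw [← integral_const_mul]
        refine integral_congr_ae ?_
        filter_upwards [hc] with ω hω
        have h5 : χ ω = c * σ ω := by rw [← hω]; simp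
        simp only [cf, h5, Circle.coe_mul, map_mul]
        ring
      rw [this, norm_mul]
      simp
    refine ⟨χ, ⟨hχ2, x, fun h0 => hx ?_⟩, ?_, h4⟩
    · rw [← norm_eq_zero, h4, h0, norm_zero]
    · have : σ / χ ∈ constSub Q := by simpa using (constSub Q).inv_mem h3
      exact this

end Crest.Agent.R069
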