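import Crest.Agent.R069.CE3

/-! The slot moving ("S-") argument.
Notation: `π_i = E[·|P_i]`, `ρ_i = E[·|B_i]`, `S_i = ρ_i π_i`, `Λ(F0,F1,R) = ∫ F0 F1 R`.
* move: `Λ(S0 F0, F1, R) = ∫ π0F0·F1·R = ∫ π0F0·π1F1·R = ∫ F0·π1F1·R = Λ(F0, S1 F1, R)`
  (h2, h1, h1', h2').
* two: `Λ(S0F0, S1F1, R) = ∫ S0F0·π1F1·R = ∫ π0F0·π1F1·R = Λ(S0F0, F1, R)` (h2', h3, h1, h2). -/

set_option autoImplicit false
open MeasureTheory Filter Topology
open scoped ENNReal ComplexConjugate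

namespace Crest.Agent.R069
set_option linter.unusedSectionVars false

variable {Ω : Type*} {B0 B1 P0 P1 O : MeasurableSpace Ω} {m0 : MeasurableSpace Ω}
  {μ : Measure Ω} [IsProbabilityMeasure μ]

/-- symmetry of `S = ρ π` on `B`-measurable functions -/
lemma slot_symm {B P : MeasurableSpace Ω} {m0 : MeasurableSpace Ω} {μ : Measure Ω}
    [IsProbabilityMeasure μ] (hB : B ≤ m0) (hP : P ≤ m0) {F G : Ω → ℂ}
    (hF : Bdd μ B F) (hG : Bdd μ B G) :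
    ∫ ω, (μ[μ[F|P]|B]) ω * G ω ∂μ = ∫ ω, F ω * (μ[μ[G|P]|B]) ω ∂μ := by
  have hF1 : Bdd μ P (μ[F|P]) := hF.condExp
  have hG1 : Bdd μ P (μ[G|P]) := hG.condExp
  rw [integral_condExp_mul hB (hF1.integrable hP) hG,
    integral_condExp_mul_comm hP (hF.mono hB) (hG.mono hB)]
  simp_rw [mul_comm (F _)]
  rw [integral_condExp_mul hB (hG1.integrable hP) hF]

/-- a fixed point of `S = ρ π` is `P`-measurable -/
lemma slot_fix {B P : MeasurableSpace Ω} {m0 : MeasurableSpace Ω} {μ : Measure Ω}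
    [IsProbabilityMeasure μ] (hB : B ≤ m0) (hP : P ≤ m0) {J : Ω → ℂ}
    (hJ : Bdd μ B J) (e : J =ᵐ[μ] μ[μ[J|P]|B]) : Bdd μ P J := by
  have hJ1 : Bdd μ P (μ[J|P]) := hJ.condExp
  have h1 : J =ᵐ[μ] μ[J|P] := by
    refine ae_eq_condExp_of_integral_mul_conj hP (hJ.mono hB) ?_
    rw [← integral_condExp_mul hB (hJ1.integrable hP) hJ.conj]
    exact integral_congr_ae (by filter_upwards [e] with ω hω using by rw [← hω])
  exact hJ1.congr h1.symm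

lemma slot_a (h : Slot μ B0 B1 P0 P1 O) {F0 F1 R : Ω → ℂ} (h0 : Bdd μ B0 F0)
    (h1 : Bdd μ B1 F1) (hR : Bdd μ O R) :
    ∫ ω, (μ[μ[F0|P0]|B0]) ω * (F1 ω * R ω) ∂μ =
      ∫ ω, (μ[F0|P0]) ω * ((μ[F1|P1]) ω * R ω) ∂μ := by
  have p0 : Bdd μ P0 (μ[F0|P0]) := h0.condExp
  rw [← h.h2 _ _ p0 ((h1.mono le_sup_left).mul (hR.mono le_sup_right))]
  have := h.h1 _ _ h1 ((p0.mono le_sup_left).mul (hR.mono le_sup_right))
  simp_rw [mul_left_comm ((μ[F0|P0]) _)]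
  exact this

lemma slot_move (h : Slot μ B0 B1 P0 P1 O) {F0 F1 R : Ω → ℂ} (h0 : Bdd μ B0 F0)
    (h1 : Bdd μ B1 F1) (hR : Bdd μ O R) :
    ∫ ω, (μ[μ[F0|P0]|B0]) ω * (F1 ω * R ω) ∂μ =
      ∫ ω, F0 ω * ((μ[μ[F1|P1]|B1]) ω * R ω) ∂μ := by
  have p1 : Bdd μ P1 (μ[F1|P1]) := h1.condExp
  rw [slot_a h h0 h1 hR,
    ← h.h1' _ _ h0 ((p1.mono le_sup_left).mul (hR.mono le_sup_right))]
  have := h.h2' _ _ p1 ((h0.mono le_sup_left).mul (hR.mono le_sup_right))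
  simp_rw [mul_left_comm (F0 _)]
  exact this

lemma slot_two (h : Slot μ B0 B1 P0 P1 O) {F0 F1 R : Ω → ℂ} (h0 : Bdd μ B0 F0)
    (h1 : Bdd μ B1 F1) (hR : Bdd μ O R) :
    ∫ ω, (μ[μ[F0|P0]|B0]) ω * ((μ[μ[F1|P1]|B1]) ω * R ω) ∂μ =
      ∫ ω, (μ[μ[F0|P0]|B0]) ω * (F1 ω * R ω) ∂μ := by
  have p0 : Bdd μ P0 (μ[F0|P0]) := h0.condExp
  have p1 : Bdd μ P1 (μ[F1|P1]) := h1.condExp
  have s0 : Bdd μ B0 (μ[μ[F0|P0]|B0]) := p0.condExp
  rw [slot_a h h0 h1 hR, h.h3 _ _ p0 ((p1.mono le_sup_left).mul (hR.mono le_sup_right))]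
  have := h.h2' _ _ p1 ((s0.mono le_sup_left).mul (hR.mono le_sup_right))
  simp_rw [mul_left_comm ((μ[μ[F0|P0]|B0]) _)]
  exact this.symm

lemma slot_sq_orth (h : Slot μ B0 B1 P0 P1 O) {F0 H : Ω → ℂ} (h0 : Bdd μ B0 F0)
    (hH : Bdd μ (B1 ⊔ O) H) :
    ∫ ω, H ω * (μ[μ[μ[μ[F0|P0]|B0]|P0]|B0]) ω ∂μ = ∫ ω, H ω * (μ[μ[F0|P0]|B0]) ω ∂μ := by
  have p0 : Bdd μ P0 (μ[F0|P0]) := h0.condExp
  have s0 : Bdd μ B0 (μ[μ[F0|P0]|B0]) := p0.condExp
  have p2 : Bdd μ P0 (μ[μ[μ[F0|P0]|B0]|P0]) := s0.condExp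
  have s2 : Bdd μ B0 (μ[μ[μ[μ[F0|P0]|B0]|P0]|B0]) := p2.condExp
  have hle : B1 ⊔ O ≤ m0 := sup_le h.leB1 h.leO
  have := ext_sup h.leB1 h.leO ((s2.sub s0).integrable h.leB0) (fun u v hu hv => by
    have huv : Bdd μ m0 (fun ω => u ω * v ω) := (hu.mono h.leB1).mul (hv.mono h.leO)
    simp_rw [mul_comm (u _ * v _), sub_mul]
    rw [integral_sub (((s2.mono h.leB0).mul huv).integrable le_rfl)
      (((s0.mono h.leB0).mul huv).integrable le_rfl), slot_move h s0 hu hv,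
      slot_two h h0 hu hv, sub_self]) H hH
  simp_rw [mul_sub] at this
  rwa [integral_sub (((hH.mono hle).mul (s2.mono h.leB0)).integrable le_rfl)
      (((hH.mono hle).mul (s0.mono h.leB0)).integrable le_rfl), sub_eq_zero] at this

/-- Proof: `(S²-S)F' ⊥ B1 ⊔ O` for all `F' ∈ B0` (move + two + `ext_sup`), hence
`(S²-S)F = 0` (S is symmetric on `B0`); `W = SF - F` has `SW = 0`, so `π W = 0`
(`∫ conj W · SW = ∫ |πW|²`), so `W ⊥ P0`; but `∫ W conj F = ∫ W conj H'`,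
`∫ W conj (SF) = ∫ W conj (πF)`, so `W = 0`; then `ae_eq_condExp_of_integral_mul_conj`. -/
theorem Slot.exact_of_two (h : Slot μ B0 B1 P0 P1 O) {F H H' : Ω → ℂ}
    (hH : Bdd μ (B1 ⊔ O) H) (hH' : Bdd μ P0 H') (e : F =ᵐ[μ] μ[H|B0]) (e' : F =ᵐ[μ] μ[H'|B0]) :
    Bdd μ P0 F := by
  have hB := h.leB0
  have hP := h.leP0
  have hle : B1 ⊔ O ≤ m0 := sup_le h.leB1 h.leO
  have hF : Bdd μ B0 F := (hH.condExp (m := B0)).congr e.symm
  have p0 : Bdd μ P0 (μ[F|P0]) := hF.condExp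
  have s0 : Bdd μ B0 (μ[μ[F|P0]|B0]) := p0.condExp
  have p2 : Bdd μ P0 (μ[μ[μ[F|P0]|B0]|P0]) := s0.condExp
  have s2 : Bdd μ B0 (μ[μ[μ[μ[F|P0]|B0]|P0]|B0]) := p2.condExp
  -- testing `F` against `B0`-measurable functions
  have tH : ∀ G, Bdd μ B0 G → ∫ ω, F ω * G ω ∂μ = ∫ ω, H ω * G ω ∂μ := fun G hG => by
    rw [← integral_condExp_mul hB (hH.integrable hle) hG]
    exact integral_congr_ae (by filter_upwards [e] with ω hω using by rw [hω])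
  have tH' : ∀ G, Bdd μ B0 G → ∫ ω, F ω * G ω ∂μ = ∫ ω, H' ω * G ω ∂μ := fun G hG => by
    rw [← integral_condExp_mul hB (hH'.integrable hP) hG]
    exact integral_congr_ae (by filter_upwards [e'] with ω hω using by rw [hω])
  -- `S² F = S F`
  have hSS : μ[μ[μ[μ[F|P0]|B0]|P0]|B0] =ᵐ[μ] μ[μ[F|P0]|B0] := by
    refine ae_eq_of_forall_integral_mul_eq hB s2 s0 fun G hG => ?_
    have q0 : Bdd μ P0 (μ[G|P0]) := hG.condExp
    have t0 : Bdd μ B0 (μ[μ[G|P0]|B0]) := q0.condExp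
    have q2 : Bdd μ P0 (μ[μ[μ[G|P0]|B0]|P0]) := t0.condExp
    have t2 : Bdd μ B0 (μ[μ[μ[μ[G|P0]|B0]|P0]|B0]) := q2.condExp
    rw [slot_symm hB hP s0 hG, slot_symm hB hP hF t0, slot_symm hB hP hF hG, tH _ t2, tH _ t0,
      slot_sq_orth h hG hH]
  -- `W = S F - F`
  set W : Ω → ℂ := fun ω => (μ[μ[F|P0]|B0]) ω - F ω with hWdef
  have hW : Bdd μ B0 W := s0.sub hF
  have hWc : Bdd μ B0 (fun ω => conj (W ω)) := hW.conj
  have pW : Bdd μ P0 (μ[W|P0]) := hW.condExp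
  have pWc : Bdd μ P0 (μ[fun ω => conj (W ω)|P0]) := hWc.condExp
  have sWc : Bdd μ B0 (μ[μ[fun ω => conj (W ω)|P0]|B0]) := pWc.condExp
  have h0 : ∫ ω, W ω * (μ[μ[fun ω => conj (W ω)|P0]|B0]) ω ∂μ = 0 := by
    have : ∀ ω, W ω * (μ[μ[fun ω => conj (W ω)|P0]|B0]) ω =
        (μ[μ[F|P0]|B0]) ω * (μ[μ[fun ω => conj (W ω)|P0]|B0]) ω -
          F ω * (μ[μ[fun ω => conj (W ω)|P0]|B0]) ω := fun ω => sub_mul _ _ _
    simp_rw [this]
    rw [integral_sub ((s0.mul sWc).integrable hB) ((hF.mul sWc).integrable hB),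
      ← slot_symm hB hP s0 hWc, ← slot_symm hB hP hF hWc, sub_eq_zero]
    exact integral_congr_ae (by filter_upwards [hSS] with ω hω using by rw [hω])
  have hπ : μ[fun ω => conj (W ω)|P0] =ᵐ[μ] 0 := by
    refine ae_eq_zero_of_integral_mul_conj (pWc.mono hP) ?_
    have e1 := condExp_conj (m := P0) (hW.integrable hB)
    rw [← h0]
    simp_rw [mul_comm (W _)]
    rw [integral_condExp_mul hB (pWc.integrable hP) hW]
    simp_rw [mul_comm _ (W _)]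
    rw [← integral_condExp_mul hP (hW.integrable hB) pWc]
    exact integral_congr_ae (by
      filter_upwards [e1] with ω hω using by rw [hω, Complex.conj_conj, mul_comm])
  have horth : ∀ G, Bdd μ P0 G → ∫ ω, G ω * conj (W ω) ∂μ = 0 := fun G hG => by
    simp_rw [mul_comm (G _)]
    rw [← integral_condExp_mul hP (hWc.integrable hB) hG]
    refine (integral_congr_ae ?_).trans (integral_zero _ _)
    filter_upwards [hπ] with ω hω using by rw [hω]; simp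
  have hW0 : W =ᵐ[μ] 0 := by
    refine ae_eq_zero_of_integral_mul_conj (hW.mono hB) ?_
    have : ∀ ω, W ω * conj (W ω) = (μ[μ[F|P0]|B0]) ω * conj (W ω) - F ω * conj (W ω) :=
      fun ω => sub_mul _ _ _
    simp_rw [this]
    rw [integral_sub ((s0.mul hWc).integrable hB) ((hF.mul hWc).integrable hB),
      integral_condExp_mul hB (p0.integrable hP) hWc, tH' _ hWc, horth _ p0, horth _ hH', sub_self]
  refine slot_fix hB hP hF ?_
  filter_upwards [hW0] with ω hω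
  exact (sub_eq_zero.1 hω).symm

/-- Proof: `S0 F = F`; with `J = E[F R|B1]`, `∫ J G = Λ(S0 F, G, R) = Λ(F, S1 G, R) = ∫ S1 J · G`
so `J = S1 J`, hence `J = π1 J`. -/
theorem Slot.exact_of_exact (h : Slot μ B0 B1 P0 P1 O) {F R : Ω → ℂ}
    (hF : Bdd μ B0 F) (hF' : Bdd μ P0 F) (hR : Bdd μ O R) :
    Bdd μ P1 (μ[fun ω => F ω * R ω|B1]) := by
  have hFR : Bdd μ m0 (fun ω => F ω * R ω) := (hF.mono h.leB0).mul (hR.mono h.leO)
  have hJ : Bdd μ B1 (μ[fun ω => F ω * R ω|B1]) := hFR.condExp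
  have pJ : Bdd μ P1 (μ[μ[fun ω => F ω * R ω|B1]|P1]) := hJ.condExp
  have eS : μ[μ[F|P0]|B0] =ᵐ[μ] F :=
    (condExp_congr_ae (condExp_of_bdd h.leP0 hF')).trans (condExp_of_bdd h.leB0 hF)
  refine slot_fix h.leB1 h.leP1 hJ ?_
  refine ae_eq_of_forall_integral_mul_eq h.leB1 hJ pJ.condExp fun G hG => ?_
  have q0 : Bdd μ P1 (μ[G|P1]) := hG.condExp
  have t0 : Bdd μ B1 (μ[μ[G|P1]|B1]) := q0.condExp
  rw [slot_symm h.leB1 h.leP1 hJ hG, integral_condExp_mul h.leB1 (hFR.integrable le_rfl) hG,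
    integral_condExp_mul h.leB1 (hFR.integrable le_rfl) t0]
  have := slot_move h hF hG hR
  simp_rw [mul_assoc, mul_comm (R _)]
  rw [← this]
  exact integral_congr_ae (by filter_upwards [eS] with ω hω using by rw [hω])

end Crest.Agent.R069
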