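import Crest.Agent.R069.Ins
import Crest.Agent.R069.Avg
import Crest.Agent.R069.Slot

/-! Exactness of the dual functions. -/

set_option autoImplicit false
open MeasureTheory Filter Topology
open scoped ENNReal ComplexConjugate

namespace Crest.Agent.R069
set_option linter.unusedSectionVars false

variable {L V A κ : Type} [AddCommGroup L] [Countable L] [Fintype V] [DecidableEq V]
  [MeasurableSpace A] [Fintype A] [Nonempty A] [DiscreteMeasurableSpace A]
  {v0 : V} {vec : V → L} {P : Measure (Gam L → A)} [IsProbabilityMeasure P]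
  {𝒰 : Ultrafilter κ} {b : κ → V → ℕ}
  {ty : ℚ → V × V}

lemma Oth_mono {I I' : Set ℚ} (hI : I ⊆ I') (m : ℚ) :
    Oth v0 vec ty I m ⊆ Oth v0 vec ty I' m := by
  rintro γ (⟨c, hc, h⟩ | h)
  · exact Or.inl ⟨c, hc, GamOn_mono hI h⟩
  · exact Or.inr (Env_mono hI le_rfl h)

lemma Oth_subset (I : Set ℚ) (m : ℚ) : Oth v0 vec ty I m ⊆ GamOn L (insert m I) := by
  rintro γ (⟨c, ⟨v, -, rfl⟩, h⟩ | h)
  · simpa using add_mem_GamOn (GamOn_mono (Set.subset_insert m I) h)
      (atq_mem_GamOn (Set.mem_insert m I) (vec v))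
  · simpa using Env_subset h

lemma exact_h1 (h : Arr v0 vec P 𝒰 b) {I0 : Set ℚ} {m t : ℚ} (hmt : m < t)
    (hI : I0 ⊆ Set.Iio t) (hm : m ∉ I0) (hdt : DenseBelow ty I0 t)
    {l0 l1 : V} (hl : l1 ≠ l0) {O : Set (Gam L)}
    (hO : O ⊆ ⋃ l ∈ {l | l ≠ l1 ∧ l ≠ l0}, shS (atq t (vec l)) (GamOn L I0)) :
    CI P (cyl A (shS (atq t (vec l1)) (GamOn L I0)))
      (cyl A (shS (atq t (vec l1)) (Oth v0 vec ty I0 m)))
      (cyl A (shS (atq t (vec l0)) (Oth v0 vec ty I0 m)) ⊔ cyl A O) := by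
  have ht : t ∉ I0 := fun h => lt_irrefl t (hI h)
  have hB : {c : Gam L | ∃ v, v ≠ v0 ∧ c = atq m (vec v)} ⊆ GamOn L {m} := by
    rintro _ ⟨v, -, rfl⟩
    exact atq_mem_GamOn (Set.mem_singleton m) (vec v)
  have := h.ins (ty := ty) (J := I0) (J' := I0) (S := {m}) le_rfl ht hmt.ne' hdt hB hl
  refine this.mono (cyl_mono (shS_mono _ (GamOn_mono Set.subset_union_left))) ?_
  rw [← cyl_union]
  refine cyl_mono (Set.union_subset ?_ ?_)
  · rintro γ (⟨c, hc, h1⟩ | h1)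
    · refine Or.inl (Or.inl (Or.inl ⟨c, hc, ?_⟩))
      have h2 := add_mem_GamOn (GamOn_mono (Set.subset_insert t I0) h1)
        (atq_mem_GamOn (Set.mem_insert t I0) (vec l0))
      have e : γ - atq t (vec l0) - c + atq t (vec l0) = γ - c := by abel
      rwa [e] at h2
    · refine Or.inr ?_
      rw [← shS_Env (β := atq t (vec l0)) (atq_mem_GamOn (Set.mem_insert t {m}) _)
        (Set.disjoint_left.2 fun r hr hr' => by
          rcases hr' with rfl | rfl
          · exact ht hr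
          · exact hm hr)]
      exact Env_mono le_rfl (Set.subset_insert _ _) h1
  · intro γ hγ
    refine Or.inl (Or.inl (Or.inr ?_))
    exact Set.iUnion₂_mono (fun l _ => shS_mono _ (GamOn_mono Set.subset_union_left)) (hO hγ)

lemma exact_h2 (h : Arr v0 vec P 𝒰 b) {I0 : Set ℚ} {m t : ℚ} (hmt : m < t)
    (hI : I0 ⊆ Set.Iio t) (hm : m ∉ I0) (hdm : DenseBelow ty I0 m)
    {l0 l1 : V} (hl : l0 ≠ l1) {X : Set (Gam L)} (hX : X ⊆ GamOn L (insert m I0)) (Z : Set V) :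
    CI P (cyl A (shS (atq t (vec l0)) (Oth v0 vec ty I0 m)))
      (cyl A (shS (atq t (vec l0)) (GamOn L I0)))
      (cyl A (shS (atq t (vec l1)) X) ⊔ cyl A (⋃ l ∈ Z, shS (atq t (vec l)) (GamOn L I0))) := by
  have := h.avg hmt hI hm (fun a ha => by
    obtain ⟨r, h1, h2, h3, -⟩ := hdm (v0, v0) a ha
    exact ⟨r, h1, h2, h3⟩) hl
  refine this.mono (cyl_mono (shS_mono _ (Oth_subset _ _))) ?_
  rw [← cyl_union]
  refine cyl_mono (Set.union_subset_union (shS_mono _ hX) (Set.iUnion₂_subset fun l _ => ?_))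
  exact shS_GamOn_subset (atq_mem_GamOn (Set.mem_insert t I0) _) (Set.subset_insert _ _)

/-- slot hypotheses for the line at scale `t`: `h1`, `h1'` from `ins` (`J = J' = I0`, `S = {m}`,
`B = {atq m (vec v) | v ≠ v0}`), `h2`, `h2'`, `h3` from `avg`. -/
theorem Arr.slot (h : Arr v0 vec P 𝒰 b) {I0 : Set ℚ} {m t : ℚ} (hmt : m < t)
    (hI : I0 ⊆ Set.Iio t) (hm : m ∉ I0) (hdm : DenseBelow ty I0 m) (hdt : DenseBelow ty I0 t)
    {l0 l1 : V} (hl : l0 ≠ l1) :
    Slot P (cyl A (shS (atq t (vec l0)) (GamOn L I0))) (cyl A (shS (atq t (vec l1)) (GamOn L I0)))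
      (cyl A (shS (atq t (vec l0)) (Oth v0 vec ty I0 m)))
      (cyl A (shS (atq t (vec l1)) (Oth v0 vec ty I0 m)))
      (cyl A (⋃ l ∈ {l | l ≠ l0 ∧ l ≠ l1}, shS (atq t (vec l)) (GamOn L I0))) where
  leB0 := cyl_le _
  leB1 := cyl_le _
  leP0 := cyl_le _
  leP1 := cyl_le _
  leO := cyl_le _
  h1 := exact_h1 h hmt hI hm hdt hl.symm (by simp only [and_comm]; exact le_rfl)
  h1' := exact_h1 h hmt hI hm hdt hl le_rfl
  h2 := exact_h2 h hmt hI hm hdm hl (GamOn_mono (Set.subset_insert _ _)) _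
  h2' := exact_h2 h hmt hI hm hdm hl.symm (GamOn_mono (Set.subset_insert _ _)) _
  h3 := exact_h2 h hmt hI hm hdm hl (Oth_subset _ _) _

lemma exact_bd_prod {F : V → (Gam L → A) → ℂ} (hF : ∀ l, Bd (cyl A (GamOn L ∅)) (F l))
    (s : Finset V) (β : V → Gam L) {S : Set (Gam L)} (hS : ∀ l ∈ s, shS (β l) (GamOn L ∅) ⊆ S) :
    Bd (cyl A S) (fun ω => ∏ l ∈ s, F l (sh (β l) ω)) :=
  Bd.prod s fun l hl => ((hF l).shift (β l)).mono (cyl_mono (hS l hl))

lemma exact_bd_prod_single {F : V → (Gam L → A) → ℂ} (hF : ∀ l, Bd (cyl A (GamOn L ∅)) (F l))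
    (s : Finset V) (t : ℚ) (x : V → L) :
    Bd (cyl A (GamOn L {t})) (fun ω => ∏ l ∈ s, F l (sh (atq t (x l)) ω)) :=
  exact_bd_prod hF s _ fun _ _ => shS_GamOn_subset (atq_mem_GamOn (Set.mem_singleton t) _)
    (Set.empty_subset _)

/-- `Jop` does not depend on the scale (`spr` with `K = {t}`, `φ = const t'`) -/
lemma Arr.Jop_congr (h : Arr v0 vec P 𝒰 b) (t t' : ℚ) (i : V) {F : V → (Gam L → A) → ℂ}
    (hF : ∀ l, Bd (cyl A (GamOn L ∅)) (F l)) : Jop P vec t i F =ᵐ[P] Jop P vec t' i F := by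
  have h1 := exact_bd_prod_single hF (Finset.univ.erase i) t (fun l => vec l - vec i)
  have h2 := exact_bd_prod_single hF (Finset.univ.erase i) t' (fun l => vec l - vec i)
  refine ae_eq_condExp_of_forall (cyl_le _) (h2.bdd.mono (cyl_le _)) (h1.bdd (μ := P)).condExp
    fun H hH => ?_
  unfold Jop
  rw [integral_condExp_mul (cyl_le _) (h1.bdd.integrable (cyl_le _)) hH]
  obtain ⟨H', hH', e⟩ := hH.exists_bd
  have hfix : ∀ γ ∈ GamOn L ∅, push (fun _ => t') γ = γ := fun γ hγ =>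
    push_eq_self hγ fun q hq => hq.elim
  have key := h.spr {t} (fun _ => t') (Set.subsingleton_singleton.strictMonoOn _) _
    (h1.mul (hH'.mono (cyl_mono (GamOn_mono (Set.empty_subset _)))))
  simp only [sh_Rm, push_atq, hH'.Rm_eq hfix, fun l => (hF l).Rm_eq hfix] at key
  refine Eq.trans (integral_congr_ae ?_) (key.symm.trans (integral_congr_ae ?_))
  · filter_upwards [e] with ω hω using by rw [hω]
  · filter_upwards [e] with ω hω using by rw [hω]

/-- `disj`: conditioning on `Γ_J`, `t ∉ J`, is the same as conditioning on the thin part -/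
lemma Arr.Jop_eq (h : Arr v0 vec P 𝒰 b) {t : ℚ} {J : Set ℚ} (ht : t ∉ J) (i : V)
    {F : V → (Gam L → A) → ℂ} (hF : ∀ l, Bd (cyl A (GamOn L ∅)) (F l)) :
    Jop P vec t i F =ᵐ[P] P[fun ω => ∏ l ∈ Finset.univ.erase i,
      F l (sh (atq t (vec l - vec i)) ω) | cyl A (GamOn L J)] :=
  ((h.disj {t} J (Set.disjoint_singleton_left.2 ht)).condExp_eq (cyl_le _) (cyl_le _)
    (cyl_mono (GamOn_mono (Set.empty_subset _)))
    (exact_bd_prod_single hF (Finset.univ.erase i) t (fun l => vec l - vec i)).bdd).symm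

/-- Given `ty I m t'` from `Exact`, replace `t` by `t'` (`Jop_congr`), put `I0 = I ∩ Iio t'`
(`DenseBelow.inter_Iio`, `Oth_mono`) and use `Slot.exact_of_two` with `l0 = v0` (`vec0`), `H` the
product at scale `t'`, `H'` the product at scale `m` (`Jop_eq`, `Jop_congr`). -/
theorem Arr.exact_Jop_zero (h : Arr v0 vec P 𝒰 b) (t : ℚ) {F : V → (Gam L → A) → ℂ}
    (hF : ∀ l, Bd (cyl A (GamOn L ∅)) (F l)) : Exact P v0 vec (Jop P vec t v0 F) := by
  intro ty I m t' hmt hm hdm hdt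
  have : Nontrivial V := Fintype.one_lt_card_iff_nontrivial.1 (by have := h.card; omega)
  obtain ⟨l1, hl1⟩ := exists_ne v0
  have hm0 : m ∉ I ∩ Set.Iio t' := fun h => hm h.1
  have ht0 : t' ∉ I ∩ Set.Iio t' := fun h => lt_irrefl t' h.2
  have hs := h.slot (ty := ty) hmt Set.inter_subset_right hm0 (hdm.inter_Iio hmt.le)
    (hdt.inter_Iio le_rfl) hl1.symm
  rw [h.vec0, atq_zero, shS_zero, shS_zero] at hs
  refine (hs.exact_of_two ?_ ?_ ((h.Jop_congr t t' v0 hF).trans (h.Jop_eq ht0 v0 hF))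
    ((h.Jop_congr t m v0 hF).trans (h.Jop_eq hm0 v0 hF))).mono
    (cyl_mono (Oth_mono Set.inter_subset_left m))
  · rw [← cyl_union]
    refine (exact_bd_prod hF _ _ fun l hl => ?_).bdd
    rw [h.vec0, sub_zero]
    refine (shS_mono _ (GamOn_mono (Set.empty_subset (I ∩ Set.Iio t')))).trans ?_
    by_cases e : l = l1
    · rw [e]
      exact Set.subset_union_left
    · exact Set.subset_union_of_subset_right (Set.subset_biUnion_of_mem
        (u := fun l => shS (atq t' (vec l)) (GamOn L (I ∩ Set.Iio t')))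
        (show l ∈ {l | l ≠ v0 ∧ l ≠ l1} from ⟨Finset.ne_of_mem_erase hl, e⟩)) _
  · refine (exact_bd_prod hF _ _ fun l hl γ hγ => ?_).bdd
    rw [h.vec0, sub_zero] at hγ
    exact Or.inl ⟨_, ⟨l, Finset.ne_of_mem_erase hl, rfl⟩, GamOn_mono (Set.empty_subset _) hγ⟩

/-- As before with `Slot.exact_of_exact`, `l0 = v0`, `l1 = i` (apply `h0` to `I0`), then
`condExp_sh`, `Jop_eq`, `Bdd.unshift`. -/
theorem Arr.exact_Jop (h : Arr v0 vec P 𝒰 b) (t : ℚ) {i : V} (hi : i ≠ v0)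
    {F : V → (Gam L → A) → ℂ} (hF : ∀ l, Bd (cyl A (GamOn L ∅)) (F l))
    (h0 : Exact P v0 vec (F v0)) : Exact P v0 vec (Jop P vec t i F) := by
  intro ty I m t' hmt hm hdm hdt
  have hm0 : m ∉ I ∩ Set.Iio t' := fun h => hm h.1
  have ht0 : t' ∉ I ∩ Set.Iio t' := fun h => lt_irrefl t' h.2
  have hs := h.slot (ty := ty) hmt Set.inter_subset_right hm0 (hdm.inter_Iio hmt.le)
    (hdt.inter_Iio le_rfl) hi.symm
  rw [h.vec0, atq_zero, shS_zero, shS_zero] at hs
  have hR : Bdd P (cyl A (⋃ l ∈ {l | l ≠ v0 ∧ l ≠ i},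
      shS (atq t' (vec l)) (GamOn L (I ∩ Set.Iio t'))))
      (fun ω => ∏ l ∈ (Finset.univ.erase i).erase v0, F l (sh (atq t' (vec l)) ω)) := by
    refine (exact_bd_prod hF _ _ fun l hl => ?_).bdd
    refine (shS_mono _ (GamOn_mono (Set.empty_subset (I ∩ Set.Iio t')))).trans ?_
    exact Set.subset_biUnion_of_mem
      (u := fun l => shS (atq t' (vec l)) (GamOn L (I ∩ Set.Iio t')))
      (show l ∈ {l | l ≠ v0 ∧ l ≠ i} from
        ⟨Finset.ne_of_mem_erase hl, Finset.ne_of_mem_erase (Finset.mem_of_mem_erase hl)⟩)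
  have h1 := hs.exact_of_exact ((hF v0).bdd.mono (cyl_mono (GamOn_mono (Set.empty_subset _))))
    (h0 ty _ m t' hmt hm0 (hdm.inter_Iio hmt.le) (hdt.inter_Iio le_rfl)) hR
  have h2 := condExp_sh (S := GamOn L (I ∩ Set.Iio t')) h.inv (atq t' (vec i))
    ((exact_bd_prod_single hF (Finset.univ.erase i) t' (fun l => vec l - vec i)).bdd.mono
      (cyl_le _))
  have e : (fun ω : Gam L → A => ∏ l ∈ Finset.univ.erase i,
      F l (sh (atq t' (vec l - vec i)) (sh (atq t' (vec i)) ω))) =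
      fun ω => F v0 ω * ∏ l ∈ (Finset.univ.erase i).erase v0, F l (sh (atq t' (vec l)) ω) := by
    funext ω
    simp only [sh_sh, ← atq_add, sub_add_cancel]
    rw [← Finset.mul_prod_erase _ _ (Finset.mem_erase.2 ⟨hi.symm, Finset.mem_univ v0⟩), h.vec0,
      atq_zero, sh_zero]
  rw [e] at h2
  exact (((h1.congr h2).unshift h.inv).congr
    ((h.Jop_congr t t' i hF).trans (h.Jop_eq ht0 i hF)).symm).mono
    (cyl_mono (Oth_mono Set.inter_subset_left m))

end Crest.Agent.R069
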