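import Crest.Agent.R069.Cyl2

/-! Transfer of statements to the fibres of a disintegration. -/

set_option autoImplicit false
open MeasureTheory Filter Topology
open scoped ENNReal ComplexConjugate

namespace Crest.Agent.R069
set_option linter.unusedSectionVars false

variable {Γ A : Type*} [Countable Γ] [MeasurableSpace A] [Fintype A] [Nonempty A]
  [DiscreteMeasurableSpace A] {P : Measure (Γ → A)} [IsProbabilityMeasure P] {E E' : Set Γ}
  {κ κ' : (Γ → A) → Measure (Γ → A)}

lemma fib_integral_indicator {Ω : Type*} [MeasurableSpace Ω] (Q : Measure Ω) {s : Set Ω}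
    (hs : MeasurableSet s) : ∫ x, s.indicator (1 : Ω → ℂ) x ∂Q = (Q.real s : ℂ) := by
  have : s.indicator (1 : Ω → ℂ) = s.indicator (fun _ => (1 : ℂ)) := rfl
  rw [this, integral_indicator_const _ hs]
  simp

lemma fib_measure_eq {Ω : Type*} [MeasurableSpace Ω] {Q Q' : Measure Ω} [IsFiniteMeasure Q]
    [IsFiniteMeasure Q'] {s : Set Ω} (hs : MeasurableSet s)
    (h : ∫ x, s.indicator (1 : Ω → ℂ) x ∂Q = ∫ x, s.indicator (1 : Ω → ℂ) x ∂Q') :
    Q s = Q' s := by
  rw [fib_integral_indicator Q hs, fib_integral_indicator Q' hs] at h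
  have h2 : Q.real s = Q'.real s := by exact_mod_cast h
  exact (ENNReal.toReal_eq_toReal_iff' (measure_ne_top _ _) (measure_ne_top _ _)).1 h2

/-- use `ProbabilityTheory.condExpKernel P (cyl A E)`; `dep` from `eq_of_measurable_cyl` -/
theorem exists_fib (P : Measure (Γ → A)) [IsProbabilityMeasure P] (E : Set Γ) :
    ∃ κ, Fib P E κ := by
  refine ⟨fun ω => ProbabilityTheory.condExpKernel P (cyl A E) ω, fun ω => inferInstance,
    fun ω ω' hω => Measure.ext fun s hs => ?_, fun U hU => ?_⟩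
  · exact eq_of_measurable_cyl (ProbabilityTheory.measurable_condExpKernel (μ := P) hs) hω
  · exact (ProbabilityTheory.condExp_ae_eq_integral_condExpKernel (cyl_le E)
      (hU.bdd.integrable le_rfl)).symm

lemma Fib.ae (h : Fib P E κ) {p : (Γ → A) → Prop} (hp : ∀ᵐ ω ∂P, p ω) :
    ∀ᵐ ω ∂P, ∀ᵐ x ∂(κ ω), p x := by
  obtain ⟨N, hN, hNm, hN0⟩ := exists_measurable_superset_of_null (ae_iff.1 hp)
  have h1 := h.ce _ (Bd.indicator hNm)
  have h2 : N.indicator (1 : (Γ → A) → ℂ) =ᵐ[P] 0 := by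
    filter_upwards [measure_eq_zero_iff_ae_notMem.1 hN0] with ω hω
    simp [hω]
  have h3 : P[N.indicator (1 : (Γ → A) → ℂ) | cyl A E] =ᵐ[P] 0 := by
    refine (condExp_congr_ae h2).trans ?_
    rw [condExp_zero]
  filter_upwards [h1, h3] with ω h4 h5
  have := h.prob ω
  rw [h5, fib_integral_indicator _ hNm, Pi.zero_apply] at h4
  have h6 : (κ ω).real N = 0 := by exact_mod_cast h4
  have h7 : κ ω N = 0 := (measureReal_eq_zero_iff (measure_ne_top _ _)).1 h6
  exact ae_iff.2 (measure_mono_null hN h7)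

lemma Fib.ae_eqOn (h : Fib P E κ) : ∀ᵐ ω ∂P, ∀ᵐ x ∂(κ ω), ∀ γ ∈ E, x γ = ω γ := by
  have key : ∀ γ : Γ, ∀ a : A, ∀ᵐ ω ∂P, γ ∈ E → ω γ = a → ∀ᵐ x ∂(κ ω), x γ = a := by
    intro γ a
    by_cases hγ : γ ∈ E
    swap
    · exact Eventually.of_forall fun ω h1 => absurd h1 hγ
    have hs : MeasurableSet[cyl A E] {x : Γ → A | x γ = a}ᶜ :=
      (measurable_cylinderEvent_apply (X := fun _ : Γ => A) hγ (measurableSet_singleton a)).compl
    have hs' := cyl_le E _ hs
    have h1 := h.ce _ (Bd.indicator hs')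
    have h2 := condExp_of_bdd (μ := P) (cyl_le E) (Bd.indicator hs).bdd
    filter_upwards [h1, h2] with ω h4 h5 _ ha
    have := h.prob ω
    rw [h5, fib_integral_indicator _ hs', Set.indicator_of_notMem (by simpa using ha)] at h4
    have h6 : (κ ω).real {x : Γ → A | x γ = a}ᶜ = 0 := by exact_mod_cast h4
    exact (measureReal_eq_zero_iff (measure_ne_top _ _)).1 h6
  filter_upwards [ae_all_iff.2 fun γ => ae_all_iff.2 (key γ)] with ω hω
  refine ae_all_iff.2 fun γ => ?_
  by_cases hγ : γ ∈ E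
  · filter_upwards [hω γ _ hγ rfl] with x hx _ using hx
  · exact Eventually.of_forall fun x h1 => absurd h1 hγ

/-- on a fibre, an honest function of `S ∪ E` is a.e. a function of `S`: compose with
`x ↦ (γ ↦ if γ ∈ E then ω γ else x γ)`. -/
lemma bdd_of_ae_eqOn {Q : Measure (Γ → A)} {ω : Γ → A} (hQ : ∀ᵐ x ∂Q, ∀ γ ∈ E, x γ = ω γ)
    {S : Set Γ} {W : (Γ → A) → ℂ} (hW : Bd (cyl A (S ∪ E)) W) : Bdd Q (cyl A S) W := by
  classical
  have hT : @Measurable _ _ (cyl A S) (cyl A (S ∪ E))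
      (fun (x : Γ → A) (γ : Γ) => if γ ∈ E then ω γ else x γ) := by
    refine (@measurable_cylinderEvents_iff _ _ _ (cyl A S) _ _ _).2 fun γ hγ => ?_
    by_cases h1 : γ ∈ E
    · simp only [h1, if_true]
      exact measurable_const
    · simp only [h1, if_false]
      exact measurable_cylinderEvent_apply (X := fun _ : Γ => A) (hγ.resolve_right h1)
  refine (hW.comp hT).bdd.congr ?_
  filter_upwards [hQ] with x hx
  congr 1
  funext γ
  by_cases h1 : γ ∈ E
  · simp [h1, hx γ h1]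
  · simp [h1]

lemma Fib.exact (h : Fib P E κ) {S : Set Γ} {f : (Γ → A) → ℂ}
    (hf : Bdd P (cyl A (S ∪ E)) f) : ∀ᵐ ω ∂P, Bdd (κ ω) (cyl A S) f := by
  obtain ⟨W, hW, e⟩ := hf.exists_bd
  filter_upwards [h.ae e, h.ae_eqOn] with ω h1 h2
  exact (bdd_of_ae_eqOn h2 hW).congr (EventuallyEq.symm h1)

/-- For atoms `u` over `R` let `W_u` be an honest version of `P[1_u | S1 ∪ E]`.  For atoms `c` over
`S2`, `P[(1_u - W_u) 1_c | E] = 0`, so for a.e. `ω` simultaneously for all `u`, `c`: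
`∫ (1_u - W_u) 1_c dκ ω = 0`; `ext_pi`, `bdd_of_ae_eqOn`, `CI.of_atoms_left`. -/
theorem Fib.ci (h : Fib P E κ) {R S1 S2 : Set Γ} (h12 : S1 ⊆ S2)
    (hc : CI P (cyl A R) (cyl A (S1 ∪ E)) (cyl A (S2 ∪ E))) :
    ∀ᵐ ω ∂P, CI (κ ω) (cyl A R) (cyl A S1) (cyl A S2) := by
  have hex : ∀ u : atoms A R, ∃ W, Bd (cyl A (S1 ∪ E)) W ∧
      P[(u : Set (Γ → A)).indicator (1 : (Γ → A) → ℂ) | cyl A (S1 ∪ E)] =ᵐ[P] W := fun u =>
    (Bdd.condExp (μ := P) (Bd.indicator (measurableSet_of_mem_atoms u.2)).bdd).exists_bd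
  choose W hW hWe using hex
  have hD : ∀ u : atoms A R, Bd MeasurableSpace.pi
      (fun x => (u : Set (Γ → A)).indicator (1 : (Γ → A) → ℂ) x - W u x) := fun u =>
    ((Bd.indicator (measurableSet_of_mem_atoms u.2)).mono (cyl_le _)).sub ((hW u).mono (cyl_le _))
  have key : ∀ (u : atoms A R) (c : atoms A S2), ∀ᵐ ω ∂P,
      ∫ x, (c : Set (Γ → A)).indicator (1 : (Γ → A) → ℂ) x *
        ((u : Set (Γ → A)).indicator (1 : (Γ → A) → ℂ) x - W u x) ∂(κ ω) = 0 := by
    intro u c
    have hu : Bd (cyl A R) ((u : Set (Γ → A)).indicator (1 : (Γ → A) → ℂ)) :=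
      Bd.indicator (measurableSet_of_mem_atoms u.2)
    have hcm : Bd (cyl A S2) ((c : Set (Γ → A)).indicator (1 : (Γ → A) → ℂ)) :=
      Bd.indicator (measurableSet_of_mem_atoms c.2)
    have hB := (hcm.mono (cyl_le _)).mul (hD u)
    have h1 := h.ce _ hB
    have h2 := ae_eq_condExp_of_forall (μ := P) (cyl_le E) hB.bdd (Bdd.const 0) fun H hH => by
      have hcH : Bdd P (cyl A (S2 ∪ E))
          (fun x => (c : Set (Γ → A)).indicator (1 : (Γ → A) → ℂ) x * H x) :=
        (hcm.mono (cyl_mono Set.subset_union_left)).bdd.mul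
          (hH.mono (cyl_mono Set.subset_union_right))
      have h3 := hc _ _ hu.bdd hcH
      have h4 : ∫ x, (P[(u : Set (Γ → A)).indicator (1 : (Γ → A) → ℂ) | cyl A (S1 ∪ E)]) x *
          ((c : Set (Γ → A)).indicator (1 : (Γ → A) → ℂ) x * H x) ∂P =
          ∫ x, W u x * ((c : Set (Γ → A)).indicator (1 : (Γ → A) → ℂ) x * H x) ∂P :=
        integral_congr_ae (by filter_upwards [hWe u] with x hx using by rw [hx])
      have hcH0 := hcH.mono (cyl_le _)
      rw [h4, ← sub_eq_zero, ← integral_sub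
        (((hu.mono (cyl_le _)).bdd.mul hcH0).integrable le_rfl)
        ((((hW u).mono (cyl_le _)).bdd.mul hcH0).integrable le_rfl)] at h3
      simp only [zero_mul, integral_zero]
      rw [← h3]
      exact integral_congr_ae (Eventually.of_forall fun x => by ring)
    filter_upwards [h1, h2] with ω h3 h4
    rw [h3, ← h4]
  have : Countable (atoms A R) := (atoms_countable R).to_subtype
  have : Countable (atoms A S2) := (atoms_countable S2).to_subtype
  filter_upwards [ae_all_iff.2 fun u => ae_all_iff.2 (key u), h.ae_eqOn] with ω hω hE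
  have := h.prob ω
  refine CI.of_atoms_left (cyl_le _) (cyl_le _) fun s hs H hH => ?_
  have hu : Bd MeasurableSpace.pi (s.indicator (1 : (Γ → A) → ℂ)) :=
    (Bd.indicator (measurableSet_of_mem_atoms hs)).mono (cyl_le _)
  have hW1 : Bdd (κ ω) (cyl A S1) (W ⟨s, hs⟩) := bdd_of_ae_eqOn hE (hW ⟨s, hs⟩)
  have hW0 := hW1.mono (cyl_le _)
  have h1 := ext_pi (μ := κ ω) (isPiSystem_atoms S2) (generateFrom_atoms S2) (cyl_le _)
    ((hD ⟨s, hs⟩).bdd.integrable le_rfl)
    (by simpa using hω ⟨s, hs⟩ ⟨_, univ_mem_atoms S2⟩)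
    (fun c hc => by
      rw [← hω ⟨s, hs⟩ ⟨c, hc⟩,
        ← integral_indicator (cyl_le _ _ (measurableSet_of_mem_atoms hc))]
      refine integral_congr_ae (Eventually.of_forall fun x => ?_)
      by_cases hx : x ∈ c <;> simp [hx])
  have h2 : ∀ G, Bdd (κ ω) (cyl A S2) G →
      ∫ x, W ⟨s, hs⟩ x * G x ∂(κ ω) = ∫ x, s.indicator (1 : (Γ → A) → ℂ) x * G x ∂(κ ω) := by
    intro G hG
    have hG0 := hG.mono (cyl_le _)
    have h3 := h1 G hG
    rw [eq_comm, ← sub_eq_zero, ← integral_sub ((hu.bdd.mul hG0).integrable le_rfl)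
      ((hW0.mul hG0).integrable le_rfl), ← h3]
    exact integral_congr_ae (Eventually.of_forall fun x => by ring)
  have h3 := ae_eq_condExp_of_forall (cyl_le S1) hu.bdd hW1
    fun G hG => h2 G (hG.mono (cyl_mono h12))
  rw [← h2 H hH]
  exact integral_congr_ae (by filter_upwards [h3] with x hx using by rw [hx])

theorem Fib.agree (h : Fib P E κ) (h' : Fib P E' κ') (hE : E ⊆ E') {R : Set Γ}
    (hc : CI P (cyl A R) (cyl A E) (cyl A E')) : ∀ᵐ ω ∂P, Agree (cyl A R) (κ' ω) (κ ω) := by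
  have key : ∀ s ∈ atoms A R, ∀ᵐ ω ∂P, κ' ω s = κ ω s := by
    intro s hs
    have hm := measurableSet_of_mem_atoms hs
    have hu := Bd.indicator hm
    have h1 := hc.condExp_eq (cyl_le _) (cyl_le _) (cyl_mono hE) hu.bdd
    filter_upwards [h1, h.ce _ (hu.mono (cyl_le _)), h'.ce _ (hu.mono (cyl_le _))] with ω h2 h3 h4
    have := h.prob ω
    have := h'.prob ω
    exact fib_measure_eq (cyl_le _ _ hm) (by rw [h3, h4, h2])
  filter_upwards [(ae_ball_iff (atoms_countable R)).2 key] with ω hω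
  have := h.prob ω
  have := h'.prob ω
  exact agree_of_atoms hω

theorem Fib.agree_of_ind (h : Fib P E κ) {R : Set Γ} (hc : Ind P (cyl A R) (cyl A E)) :
    ∀ᵐ ω ∂P, Agree (cyl A R) (κ ω) P := by
  have key : ∀ s ∈ atoms A R, ∀ᵐ ω ∂P, κ ω s = P s := by
    intro s hs
    have hm := measurableSet_of_mem_atoms hs
    have hu := Bd.indicator hm
    have h1 := hc.condExp_eq (cyl_le _) (cyl_le _) hu.bdd
    filter_upwards [h1, h.ce _ (hu.mono (cyl_le _))] with ω h2 h3
    have := h.prob ω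
    exact fib_measure_eq (cyl_le _ _ hm) (by rw [h3, h2])
  filter_upwards [(ae_ball_iff (atoms_countable R)).2 key] with ω hω
  have := h.prob ω
  exact agree_of_atoms hω

theorem Fib.shift [AddCommGroup Γ] (h : Fib P E κ) (hP : ∀ β : Γ, MeasurePreserving (sh β) P P)
    {β : Γ} (hE : shS β E = E) : ∀ᵐ ω ∂P, κ (sh β ω) = (κ ω).map (sh β) := by
  have key : ∀ s ∈ atoms A (Set.univ : Set Γ), ∀ᵐ ω ∂P, κ (sh β ω) s = (κ ω).map (sh β) s := by
    intro s hs
    have hm : MeasurableSet s := cyl_le _ _ (measurableSet_of_mem_atoms hs)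
    have hu := Bd.indicator hm
    have h1 := condExp_sh (S := E) hP β hu.bdd
    rw [hE] at h1
    have h2 := (hP β).quasiMeasurePreserving.ae (h.ce _ hu)
    filter_upwards [h1, h2, h.ce _ (hu.comp (measurable_sh β))] with ω h3 h4 h5
    have := h.prob ω
    have := h.prob (sh β ω)
    refine fib_measure_eq hm ?_
    rw [integral_map (measurable_sh β).aemeasurable hu.1.aestronglyMeasurable, h5, h3, h4]
  filter_upwards [(ae_ball_iff (atoms_countable _)).2 key] with ω hω
  have := h.prob ω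
  have := h.prob (sh β ω)
  have : IsProbabilityMeasure ((κ ω).map (sh β)) :=
    Measure.isProbabilityMeasure_map (measurable_sh β).aemeasurable
  refine Measure.ext fun s hs => agree_of_atoms hω s ?_
  rwa [cyl, cylinderEvents_univ]

end Crest.Agent.R069
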