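import Crest.Agent.R069.Cyl2

/-! Geometry of positions. -/

set_option autoImplicit false
open MeasureTheory Filter Topology
open scoped ENNReal ComplexConjugate

namespace Crest.Agent.R069
set_option linter.unusedSectionVars false

variable {L : Type} [AddCommGroup L] {V : Type} {J J' K : Set ℚ} {γ γ' : Gam L}

@[simp] lemma atq_fst (q : ℚ) (x : L) : (atq q x).1 = 0 := rfl
@[simp] lemma atq_snd (q : ℚ) (x : L) : (atq q x).2 = Finsupp.single q x := rfl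
@[simp] lemma atq_zero (q : ℚ) : atq q (0 : L) = 0 := by simp [atq]
lemma atq_add (q : ℚ) (x y : L) : atq q (x + y) = atq q x + atq q y := by
  simp [atq, Finsupp.single_add]
lemma atq_neg (q : ℚ) (x : L) : atq q (-x) = -atq q x := by
  simp [atq, Finsupp.single_neg]
lemma atq_sub (q : ℚ) (x y : L) : atq q (x - y) = atq q x - atq q y := by
  simp [atq, Finsupp.single_sub]
@[simp] lemma tz_fst (n : ℤ) : (tz L n).1 = n := rfl
@[simp] lemma tz_snd (n : ℤ) : (tz L n).2 = 0 := rfl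
@[simp] lemma tz_zero : tz L 0 = 0 := rfl
lemma tz_add (n k : ℤ) : tz L (n + k) = tz L n + tz L k := by simp [tz]

lemma mem_GamOn : γ ∈ GamOn L J ↔ ∀ q, γ.2 q ≠ 0 → q ∈ J := Iff.rfl

lemma mem_GamOn' : γ ∈ GamOn L J ↔ ∀ q, q ∉ J → γ.2 q = 0 :=
  forall_congr' fun _ => not_imp_comm

lemma mem_GamOn_iff_support : γ ∈ GamOn L J ↔ (γ.2.support : Set ℚ) ⊆ J := by
  simp [GamOn, Set.subset_def]

lemma mem_GamOn_empty : γ ∈ GamOn L ∅ ↔ γ.2 = 0 := by
  simp [mem_GamOn', Finsupp.ext_iff]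

lemma GamOn_mono (h : J ⊆ J') : GamOn L J ⊆ GamOn L J' := fun _ hγ q hq => h (hγ q hq)

lemma GamOn_univ : GamOn L Set.univ = Set.univ := by ext; simp [GamOn]

lemma zero_mem_GamOn : (0 : Gam L) ∈ GamOn L J := fun _ h => (h rfl).elim

lemma tz_mem_GamOn (n : ℤ) : tz L n ∈ GamOn L J := fun _ h => (h rfl).elim

lemma atq_mem_GamOn {q : ℚ} (hq : q ∈ J) (x : L) : atq q x ∈ GamOn L J := fun r h => by
  by_cases e : q = r
  · exact e ▸ hq
  · simp [Finsupp.single_eq_of_ne' e] at h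

lemma add_mem_GamOn (h : γ ∈ GamOn L J) (h' : γ' ∈ GamOn L J) : γ + γ' ∈ GamOn L J :=
  mem_GamOn'.2 fun q hq => by simp [mem_GamOn'.1 h q hq, mem_GamOn'.1 h' q hq]

lemma neg_mem_GamOn (h : γ ∈ GamOn L J) : -γ ∈ GamOn L J :=
  mem_GamOn'.2 fun q hq => by simp [mem_GamOn'.1 h q hq]

lemma sub_mem_GamOn (h : γ ∈ GamOn L J) (h' : γ' ∈ GamOn L J) : γ - γ' ∈ GamOn L J :=
  mem_GamOn'.2 fun q hq => by simp [mem_GamOn'.1 h q hq, mem_GamOn'.1 h' q hq]

lemma shS_GamOn (h : γ ∈ GamOn L J) : shS γ (GamOn L J) = GamOn L J := by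
  ext δ
  exact ⟨fun h' => by simpa using add_mem_GamOn h' h, fun h' => sub_mem_GamOn h' h⟩

lemma shS_GamOn_subset (h : γ ∈ GamOn L J') (hJ : J ⊆ J') : shS γ (GamOn L J) ⊆ GamOn L J' :=
  (shS_mono γ (GamOn_mono hJ)).trans (shS_GamOn h).subset

/-- a finite set of positions uses finitely many scales -/
lemma exists_scales (S0 : Finset (Gam L)) :
    ∃ K : Finset ℚ, (∀ γ ∈ S0, γ ∈ GamOn L (K : Set ℚ)) ∧
      ∀ q ∈ K, ∃ γ ∈ S0, γ.2 q ≠ 0 := by
  classical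
  refine ⟨S0.biUnion fun γ => γ.2.support, fun γ hγ q hq => ?_, fun q hq => ?_⟩
  · simpa using ⟨γ.1, γ.2, hγ, hq⟩
  · obtain ⟨γ, h1, h2⟩ := Finset.mem_biUnion.1 hq
    exact ⟨γ, h1, by simpa using h2⟩

lemma Cyl.exists_scales {A : Type} [MeasurableSpace A] {U : (Gam L → A) → ℂ}
    (h : Cyl (GamOn L J) U) : ∃ K : Finset ℚ, (K : Set ℚ) ⊆ J ∧ Cyl (GamOn L K) U := by
  obtain ⟨S0, h1, h2⟩ := h
  obtain ⟨K, h3, h4⟩ := R069.exists_scales S0
  refine ⟨K, fun q hq => ?_, S0, h3, h2⟩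
  obtain ⟨γ, h5, h6⟩ := h4 q hq
  exact h1 h5 q h6

/-! ### `push` and `Rm` -/

@[simp] lemma push_fst (φ : ℚ → ℚ) (γ : Gam L) : (push φ γ).1 = γ.1 := rfl
@[simp] lemma push_snd (φ : ℚ → ℚ) (γ : Gam L) : (push φ γ).2 = γ.2.mapDomain φ := rfl

lemma push_add (φ : ℚ → ℚ) (γ γ' : Gam L) : push φ (γ + γ') = push φ γ + push φ γ' := by
  simp [push, Finsupp.mapDomain_add]

@[simp] lemma push_zero (φ : ℚ → ℚ) : push φ (0 : Gam L) = 0 := by simp [push]

lemma push_neg (φ : ℚ → ℚ) (γ : Gam L) : push φ (-γ) = -push φ γ := by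
  rw [eq_neg_iff_add_eq_zero, ← push_add, neg_add_cancel, push_zero]

lemma push_sub (φ : ℚ → ℚ) (γ γ' : Gam L) : push φ (γ - γ') = push φ γ - push φ γ' := by
  rw [sub_eq_add_neg, push_add, push_neg, sub_eq_add_neg]

@[simp] lemma push_atq (φ : ℚ → ℚ) (q : ℚ) (x : L) : push φ (atq q x) = atq (φ q) x := by
  simp [push, atq]

@[simp] lemma push_tz (φ : ℚ → ℚ) (n : ℤ) : push φ (tz L n) = tz L n := by simp [push, tz]

lemma push_push (φ ψ : ℚ → ℚ) (γ : Gam L) : push ψ (push φ γ) = push (ψ ∘ φ) γ := by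
  simp [push, Finsupp.mapDomain_comp]

lemma push_congr {φ ψ : ℚ → ℚ} (h : γ ∈ GamOn L K) (e : ∀ q ∈ K, φ q = ψ q) :
    push φ γ = push ψ γ := by
  simp only [push]
  congr 1
  exact Finsupp.mapDomain_congr fun q hq => e q (h q (by simpa using hq))

lemma push_eq_self {φ : ℚ → ℚ} (h : γ ∈ GamOn L K) (e : ∀ q ∈ K, φ q = q) : push φ γ = γ := by
  rw [push_congr (ψ := id) h e]
  simp [push]

lemma push_mem_GamOn {φ : ℚ → ℚ} (h : γ ∈ GamOn L K) (e : ∀ q ∈ K, φ q ∈ J) :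
    push φ γ ∈ GamOn L J := by
  classical
  intro r hr
  have : r ∈ (γ.2.mapDomain φ).support := by simpa using hr
  obtain ⟨q, h1, rfl⟩ := Finset.mem_image.1 (Finsupp.mapDomain_support this)
  exact e q (h q (by simpa using h1))

lemma push_apply {φ : ℚ → ℚ} (h : γ ∈ GamOn L K) (hφ : Set.InjOn φ K) {q : ℚ} (hq : q ∈ K) :
    (push φ γ).2 (φ q) = γ.2 q :=
  Finsupp.mapDomain_apply' K γ.2 (mem_GamOn_iff_support.1 h) hφ hq

lemma push_apply_of_notMem {φ : ℚ → ℚ} (h : γ ∈ GamOn L K) {r : ℚ} (hr : r ∉ φ '' K) :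
    (push φ γ).2 r = 0 :=
  mem_GamOn'.1 (push_mem_GamOn h fun _ hq => Set.mem_image_of_mem φ hq) r hr

variable {A : Type} [MeasurableSpace A]

lemma measurable_Rm (φ : ℚ → ℚ) : Measurable (Rm φ : (Gam L → A) → (Gam L → A)) :=
  measurable_reindex_pi _

lemma measurable_Rm_cyl (φ : ℚ → ℚ) {S S' : Set (Gam L)} (h : ∀ γ ∈ S, push φ γ ∈ S') :
    @Measurable _ _ (cyl A S') (cyl A S) (Rm φ) := measurable_reindex _ h

lemma Rm_Rm (φ ψ : ℚ → ℚ) (ω : Gam L → A) : Rm φ (Rm ψ ω) = Rm (ψ ∘ φ) ω := by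
  ext γ; simp [Rm, push_push]

lemma sh_Rm (φ : ℚ → ℚ) (β : Gam L) (ω : Gam L → A) :
    sh β (Rm φ ω) = Rm φ (sh (push φ β) ω) := by
  ext γ; simp [Rm, sh, push_add]

lemma Bd.Rm_eq {S : Set (Gam L)} {U : (Gam L → A) → ℂ} (hU : Bd (cyl A S) U) {φ : ℚ → ℚ}
    (h : ∀ γ ∈ S, push φ γ = γ) (ω : Gam L → A) : U (Rm φ ω) = U ω :=
  hU.eq_of_eqOn fun γ hγ => by simp [Rm, h γ hγ]

lemma sh_tz_iterate (n : ℕ) (ω : Gam L → A) : (sh (tz L 1))^[n] ω = sh (tz L n) ω := by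
  induction n with
  | zero => simp
  | succ n ih => rw [Function.iterate_succ_apply', ih, sh_sh, ← tz_add, add_comm]; simp

/-! ### environments -/

variable {vec : V → L} {ty : ℚ → V × V} {S S' : Set ℚ}

lemma Env_subset : Env vec ty J S ⊆ GamOn L (J ∪ S) := fun _ h => h.1

lemma Env_mono (hJ : J ⊆ J') (hS : S ⊆ S') : Env vec ty J S ⊆ Env vec ty J' S' := by
  rintro γ ⟨h1, r, hr, h2⟩
  exact ⟨GamOn_mono (Set.union_subset_union hJ hS) h1, r, hJ hr, h2⟩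

lemma shS_Env {β : Gam L} (hβ : β ∈ GamOn L S) (hd : Disjoint J S) :
    shS β (Env vec ty J S) = Env vec ty J S := by
  have hβ' : β ∈ GamOn L (J ∪ S) := GamOn_mono Set.subset_union_right hβ
  have h0 : ∀ r ∈ J, β.2 r = 0 := fun r hr => mem_GamOn'.1 hβ r (Set.disjoint_left.1 hd hr)
  ext γ
  constructor
  · rintro ⟨h1, r, hr, l, h2, h3, h4, h5⟩
    exact ⟨by simpa using add_mem_GamOn h1 hβ', r, hr, l, h2, h3, h4, by simpa [h0 r hr] using h5⟩
  · rintro ⟨h1, r, hr, l, h2, h3, h4, h5⟩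
    exact ⟨sub_mem_GamOn h1 hβ', r, hr, l, h2, h3, h4, by simpa [h0 r hr] using h5⟩

lemma shS_tz_Env (n : ℤ) : shS (tz L n) (Env vec ty J S) = Env vec ty J S := by
  ext γ
  simp [Env, GamOn]

lemma shS_tz_Vert (n : ℤ) (B : Set (Gam L)) : shS (tz L n) (Vert J B) = Vert J B := by
  ext γ
  simp [Vert, GamOn]

lemma shS_tz_shS_GamOn (n : ℤ) (β : Gam L) :
    shS (tz L n) (shS β (GamOn L J)) = shS β (GamOn L J) := by
  ext γ
  simp [GamOn]

lemma Vert_eq (B : Set (Gam L)) : Vert J B = ⋃ b ∈ B, shS b (GamOn L J) := by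
  ext γ; simp [Vert]

lemma shS_tz_Oth (n : ℤ) (v0 : V) (I : Set ℚ) (m : ℚ) :
    shS (tz L n) (Oth v0 vec ty I m) = Oth v0 vec ty I m := by
  rw [Oth, shS_union, shS_tz_Env, shS_tz_Vert]

lemma DenseBelow.mono {t : ℚ} (h : DenseBelow ty J t) (hJ : J ⊆ J') : DenseBelow ty J' t :=
  fun c a ha => by
    obtain ⟨r, h1, h2⟩ := h c a ha
    exact ⟨r, hJ h1, h2⟩

lemma TDense.mono (h : TDense ty J) (hJ : J ⊆ J') : TDense ty J' := fun t => (h t).mono hJ

lemma DenseBelow.inter_Iio {t u : ℚ} (h : DenseBelow ty J t) (htu : t ≤ u) :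
    DenseBelow ty (J ∩ Set.Iio u) t := fun c a ha => by
  obtain ⟨r, h1, h2, h3, h4⟩ := h c a ha
  exact ⟨r, ⟨h1, h3.trans_le htu⟩, h2, h3, h4⟩

/-- a gap immediately below `q` -/
lemma exists_gap (K : Finset ℚ) (q : ℚ) : ∃ a < q, ∀ k ∈ K, k < q → k ≤ a := by
  classical
  induction K using Finset.induction_on with
  | empty => exact ⟨q - 1, by linarith, by simp⟩
  | insert k K _ ih =>
    obtain ⟨a, ha, h⟩ := ih
    by_cases hk : k < q
    · refine ⟨max a k, max_lt ha hk, fun j hj hjq => ?_⟩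
      rcases Finset.mem_insert.1 hj with rfl | hj
      · exact le_max_right _ _
      · exact (h j hj hjq).trans (le_max_left _ _)
    · refine ⟨a, ha, fun j hj hjq => ?_⟩
      rcases Finset.mem_insert.1 hj with rfl | hj
      · exact (hk hjq).elim
      · exact h j hj hjq

/-- move some points of a finite configuration slightly down into prescribed target sets -/
lemma exists_move (K : Finset ℚ) (Mv : Set ℚ) (tgt : ℚ → Set ℚ)
    (h : ∀ q ∈ Mv, ∀ a < q, ∃ r ∈ tgt q, a < r ∧ r < q) :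
    ∃ φ : ℚ → ℚ, StrictMonoOn φ K ∧ (∀ q, q ∉ Mv → φ q = q) ∧ (∀ q ∈ Mv, φ q ∈ tgt q) ∧
      ∀ q ∈ Mv, φ q ∉ K := by
  classical
  choose a ha ha' using exists_gap K
  have : ∀ q, ∃ r, (q ∉ Mv → r = q) ∧ (q ∈ Mv → r ∈ tgt q ∧ r < q) ∧ a q < r ∧ r ≤ q := fun q => by
    by_cases hq : q ∈ Mv
    · obtain ⟨r, h1, h2, h3⟩ := h q hq (a q) (ha q)
      exact ⟨r, fun h => (h hq).elim, fun _ => ⟨h1, h3⟩, h2, h3.le⟩
    · exact ⟨q, fun _ => rfl, fun h => (hq h).elim, ha q, le_rfl⟩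
  choose φ h1 h2 h3 h4 using this
  refine ⟨φ, fun x hx y _ hxy => ?_, h1, fun q hq => (h2 q hq).1, fun q hq hK => ?_⟩
  · exact ((h4 x).trans (ha' y x hx hxy)).trans_lt (h3 y)
  · exact absurd (ha' q _ hK (h2 q hq).2) (not_le.2 (h3 q))

lemma strictMonoOn_update {K : Set ℚ} {q r : ℚ} (hr : r ≤ q) (h : ∀ k ∈ K, k < q → k < r) :
    StrictMonoOn (Function.update id q r) K := by
  intro x hx y _ hxy
  by_cases h1 : x = q
  · subst h1
    rw [Function.update_self, Function.update_of_ne hxy.ne']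
    exact hr.trans_lt hxy
  · rw [Function.update_of_ne h1]
    by_cases h2 : y = q
    · subst h2
      rw [Function.update_self]
      exact h x hx hxy
    · rwa [Function.update_of_ne h2]

end Crest.Agent.R069
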