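import Crest.Agent.R069.GridBasic

/-! The doubly exact parts of a grid form an exact grid. -/

set_option autoImplicit false
open MeasureTheory Filter Topology
open scoped ENNReal ComplexConjugate

namespace Crest.Agent.R069
set_option linter.unusedSectionVars false

variable {Ω α β : Type*} [Fintype α] [Fintype β] {𝓐 : α → β → MeasurableSpace Ω}
  {m0 : MeasurableSpace Ω} {μ : Measure Ω} [IsProbabilityMeasure μ]

lemma Dsig_le (i : α) (j : β) : Dsig μ 𝓐 i j ≤ 𝓐 i j := inf_le_left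

lemma Dsig_flip : Dsig μ (flip 𝓐) = flip (Dsig μ 𝓐) := by
  funext j i
  show 𝓐 i j ⊓ (_ ⊓ _) = 𝓐 i j ⊓ (_ ⊓ _)
  rw [inf_comm (compl0 μ (lsig (𝓐 i) {l | l ≠ j}))]
  rfl

lemma noisy_bdd_mid {a m b : MeasurableSpace Ω} {m0 : MeasurableSpace Ω} {μ : Measure Ω}
    [IsProbabilityMeasure μ] (ha : a ≤ m0) (hb : b ≤ m0) (hmb : m ≤ b) (h : CI μ a m b)
    {F : Ω → ℂ} (hF : Bdd μ a F) (hF' : Bdd μ b F) : Bdd μ m F :=
  hF.condExp.congr ((h.condExp_eq ha hb hmb hF).symm.trans (condExp_of_bdd hb hF'))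

lemma noisy_replace_one {b d r : MeasurableSpace Ω} {m0 : MeasurableSpace Ω} {μ : Measure Ω}
    [IsProbabilityMeasure μ] (hb : b ≤ m0) (hr : r ≤ m0) (hd : d ≤ b) (h : Ind μ b r)
    {F : Ω → ℂ} (hF : Bdd μ (b ⊔ r) F)
    (he : ∀ R G, Bdd μ r R → Bdd μ b G →
      ∫ ω, F ω * R ω * G ω ∂μ = ∫ ω, F ω * R ω * (μ[G|d]) ω ∂μ) : Bdd μ (r ⊔ d) F := by
  have hm : r ⊔ d ≤ m0 := sup_le hr (hd.trans hb)
  have hbr : b ⊔ r ≤ m0 := sup_le hb hr
  have hE : Bdd μ (r ⊔ d) (μ[F|r ⊔ d]) := hF.condExp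
  have hE' : Bdd μ (b ⊔ r) (μ[F|r ⊔ d]) :=
    hE.mono (sup_le le_sup_right (hd.trans le_sup_left))
  have hW := hF.sub hE'
  have h0 := ext_sup hb hr (hW.integrable hbr) (fun G R hG hR => by
    have hG' : Bdd μ d (μ[G|d]) := hG.condExp
    have h1 := he R G hR hG
    have h2 := h.ci_of_le hb hr hd G _ hG (hE.mul (hR.mono le_sup_left))
    have h3 := integral_condExp_mul hm (hF.integrable hbr)
      ((hR.mono le_sup_left).mul (hG'.mono le_sup_right))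
    have h4 : ∀ ω, G ω * R ω * (F ω - (μ[F|r ⊔ d]) ω) =
        F ω * R ω * G ω - G ω * ((μ[F|r ⊔ d]) ω * R ω) := fun ω => by ring
    simp_rw [h4]
    rw [integral_sub ((((hF.mono hbr).mul (hR.mono hr)).mul (hG.mono hb)).integrable le_rfl)
      (((hG.mono hb).mul ((hE.mono hm).mul (hR.mono hr))).integrable le_rfl), h1, h2, sub_eq_zero]
    simp_rw [mul_assoc]
    rw [← h3]
    exact integral_congr_ae (Eventually.of_forall fun ω => by simp only; ring))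
  have h5 := ae_eq_zero_of_forall_integral_mul hbr (hW.integrable hbr) hW.1 h0
  refine hE.congr ?_
  filter_upwards [h5] with ω hω
  exact (sub_eq_zero.1 hω).symm

/-- Replacement lemma.  The hypothesis says `F` is measurable for `𝓓 l ⊔ rest` for each `l`
(`Ind.ci_of_le`, `CI.sup`, `ext_sup`); induct on the set of replaced vertices. -/
lemma Free.bdd_of_replace {ι : Type*} [Fintype ι] {𝓑 𝓓 : ι → MeasurableSpace Ω}
    {m0 : MeasurableSpace Ω} {μ : Measure Ω} [IsProbabilityMeasure μ] (h : Free μ 𝓑)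
    (hD : ∀ i, 𝓓 i ≤ 𝓑 i) {j1 : ι} {F : Ω → ℂ} (hF : Bdd μ (lsig 𝓑 {l | l ≠ j1}) F)
    (hr : ∀ l, l ≠ j1 → ∀ R G, Bdd μ (lsig 𝓑 {l' | l' ≠ j1 ∧ l' ≠ l}) R → Bdd μ (𝓑 l) G →
      ∫ ω, F ω * R ω * G ω ∂μ = ∫ ω, F ω * R ω * (μ[G|𝓓 l]) ω ∂μ) :
    Bdd μ (lsig 𝓓 {l | l ≠ j1}) F := by
  classical
  have hsplit : ∀ (𝓒 : ι → MeasurableSpace Ω) (l : ι), l ≠ j1 →
      lsig 𝓒 {l | l ≠ j1} = 𝓒 l ⊔ lsig 𝓒 {l' | l' ≠ j1 ∧ l' ≠ l} := by
    intro 𝓒 l hl
    rw [← lsig_insert]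
    congr 1
    ext l'
    by_cases h' : l' = l <;> simp [h', hl]
  have hind : ∀ l, l ≠ j1 → Ind μ (𝓑 l) (lsig 𝓑 {l' | l' ≠ j1 ∧ l' ≠ l}) := fun l hl =>
    (h.ind l j1 hl).mono le_rfl (lsig_mono 𝓑 fun _ h' => h'.symm)
  have key : ∀ T : Finset ι,
      Bdd μ (lsig (fun l => if l ∈ T then 𝓓 l else 𝓑 l) {l | l ≠ j1}) F := by
    intro T
    induction T using Finset.induction_on with
    | empty => simpa using hF
    | insert l T hlT ih =>
      by_cases hl : l = j1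
      · refine ih.mono (R069.lsig_le fun l' hl' => ?_)
        refine le_trans (le_of_eq ?_) (le_lsig _ hl')
        have : l' ≠ l := hl ▸ hl'
        simp [this]
      · have h1 := noisy_replace_one (h.le l) (h.lsig_le _) (hD l) (hind l hl)
          (hsplit 𝓑 l hl ▸ hF) (hr l hl)
        rw [hsplit _ l hl, if_neg hlT] at ih
        have hz : lsig (fun l => if l ∈ T then 𝓓 l else 𝓑 l) {l' | l' ≠ j1 ∧ l' ≠ l} ≤
            lsig 𝓑 {l' | l' ≠ j1 ∧ l' ≠ l} := lsig_mono' (fun i => by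
          split_ifs
          · exact hD i
          · exact le_rfl) _
        have hm : lsig 𝓑 {l' | l' ≠ j1 ∧ l' ≠ l} ⊔ 𝓓 l ≤ m0 :=
          sup_le (h.lsig_le _) ((hD l).trans (h.le l))
        have h2 := ((hind l hl).ci_of_le (h.le l) (h.lsig_le _) (hD l)).sup (h.le l) hm
          le_sup_right (hz.trans le_sup_left)
        have h3 := noisy_bdd_mid (sup_le (h.le l) (hz.trans (h.lsig_le _))) hm
          (sup_le le_sup_right (hz.trans le_sup_left)) h2 ih h1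
        rw [hsplit _ l hl, if_pos (Finset.mem_insert_self _ _)]
        refine h3.mono (sup_le_sup_left (R069.lsig_le fun l' hl' => ?_) _)
        refine le_trans (le_of_eq ?_) (le_lsig _ hl')
        simp [hl'.2]
  simpa using key Finset.univ

/-- For `F` doubly exact at `(i0, j1)`, `J = E[F R | 𝓐 i0 l]` is row exact
(`Slot.exact_of_exact` for the column `i0`) and column exact (`Slot.exact_of_two` for the
row `l`, i.e. `h.flip.slot`, with `H = J`, `H' = F R`). -/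
lemma Grid.bdd_Dsig_condExp (h : Grid μ 𝓐) {i0 : α} {j1 l : β} (hl : l ≠ j1) {F R : Ω → ℂ}
    (hF : Bdd μ (Dsig μ 𝓐 i0 j1) F) (hR : Bdd μ (lsig (𝓐 i0) {l' | l' ≠ j1 ∧ l' ≠ l}) R) :
    Bdd μ (Dsig μ 𝓐 i0 l) (μ[fun ω => F ω * R ω|𝓐 i0 l]) := by
  have hF1 : Bdd μ (𝓐 i0 j1) F := hF.mono inf_le_left
  have hF2 : Bdd μ (lsig (_root_.flip 𝓐 j1) {i | i ≠ i0}) F :=
    bdd_compl0_iff.1 (hF.mono (inf_le_right.trans inf_le_right))
  have hFR : Bdd μ (lsig (𝓐 i0) {l' | l' ≠ l}) fun ω => F ω * R ω :=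
    (hF1.mono (le_lsig (𝓐 i0) hl.symm)).mul (hR.mono (lsig_mono _ fun _ h' => h'.2))
  have hJ : Bdd μ (𝓐 i0 l) (μ[fun ω => F ω * R ω|𝓐 i0 l]) := hFR.condExp
  have hrow := (h.slot i0 hl.symm).exact_of_exact hF1 hF2 hR
  obtain ⟨i1, hi1, -⟩ := (h.free_row l).exists_third i0 i0
  have hcol := (h.flip.slot l hi1.symm).exact_of_two (F := μ[fun ω => F ω * R ω|𝓐 i0 l])
    (hrow.mono (lsig_le fun i hi => by
      by_cases h' : i = i1
      · subst h'; exact le_sup_left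
      · exact le_sup_of_le_right (le_lsig _ ⟨hi, h'⟩))) hFR
    (condExp_of_bdd (h.le i0 l) hJ).symm (ae_eq_refl _)
  exact bdd_inf_compl0 hJ hcol hrow

lemma Grid.Dsig_exc (h : Grid μ 𝓐) (i : α) (j : β) :
    Sle μ (Dsig μ 𝓐 i j) (lsig (Dsig μ 𝓐 i) {l | l ≠ j}) := by
  refine Sle.of_bdd fun F hF => (h.free_col i).bdd_of_replace (Dsig_le i)
    (bdd_compl0_iff.1 (hF.mono (inf_le_right.trans inf_le_left))) fun l hl R G hR hG => ?_
  have hJ := h.bdd_Dsig_condExp hl hF hR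
  have hFR : Bdd μ m0 fun ω => F ω * R ω :=
    (hF.mono ((Dsig_le i j).trans (h.le i j))).mul (hR.mono ((h.free_col i).lsig_le _))
  have hG' : Bdd μ (Dsig μ 𝓐 i l) (μ[G|Dsig μ 𝓐 i l]) := hG.condExp
  rw [← integral_condExp_mul (h.le i l) (hFR.integrable le_rfl) hG,
    ← integral_condExp_mul (h.le i l) (hFR.integrable le_rfl) (hG'.mono (Dsig_le i l))]
  have h1 := integral_condExp_mul ((Dsig_le i l).trans (h.le i l)) (hG.integrable (h.le i l)) hJ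
  simp_rw [mul_comm ((μ[fun ω => F ω * R ω|𝓐 i l]) _)]
  exact h1.symm

lemma Grid.Dsig_exr (h : Grid μ 𝓐) (i : α) (j : β) :
    Sle μ (Dsig μ 𝓐 i j) (lsig (_root_.flip (Dsig μ 𝓐) j) {l | l ≠ i}) := by
  have := h.flip.Dsig_exc j i
  rwa [Dsig_flip] at this

/-- `NRow` passes to row-exact sub-σ-algebras.  For `U` in row `j` of `𝓓`: if `J = univ` trivial;
otherwise pick `i' ∉ J`; `U` is measurable for `𝓓(J×j) ⊔ 𝓓((Jᶜ∖i')×j)` mod null and the second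
is independent of `𝓐(J×j)` (`Free.ind_lsig`), so `E[U|𝓐(J×j)] = E[U|𝓓(J×j)]`
(`Ind.ci_sup`-like). -/
lemma Grid.nrow_of_exr (h : Grid μ 𝓐) {𝓓 : α → β → MeasurableSpace Ω} (hD : ∀ i j, 𝓓 i j ≤ 𝓐 i j)
    (hex : ∀ i j, Sle μ (𝓓 i j) (lsig (_root_.flip 𝓓 j) {l | l ≠ i})) : NRow μ 𝓓 := by
  intro j j0 hj J U H hU hH
  rw [h.nr j j0 hj J U H (hU.mono (gsig_mono' hD _)) (hH.mono (gsig_mono' hD _))]
  have hle : ∀ S, gsig 𝓓 S ≤ m0 := fun S => (gsig_mono' hD S).trans (h.gsig_le S)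
  suffices hs : μ[U|gsig 𝓐 {p | p.1 ∈ J ∧ p.2 = j}] =ᵐ[μ] μ[U|gsig 𝓓 {p | p.1 ∈ J ∧ p.2 = j}] from
    integral_congr_ae (by filter_upwards [hs] with ω hω using by rw [hω])
  by_cases hJ : ∀ i, i ∈ J
  · have hU' : Bdd μ (gsig 𝓓 {p | p.1 ∈ J ∧ p.2 = j}) U :=
      hU.mono (gsig_mono _ fun p hp => ⟨hJ _, hp⟩)
    exact (condExp_of_bdd (h.gsig_le _) (hU'.mono (gsig_mono' hD _))).trans
      (condExp_of_bdd (hle _) hU').symm
  · push Not at hJ
    obtain ⟨i', hi'⟩ := hJ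
    have hD' : ∀ i, _root_.flip 𝓓 j i ≤ _root_.flip 𝓐 j i := fun i => hD i j
    have hf := h.free_row j
    have hf' := hf.mono hD'
    have hind := (hf.ind_lsig (S := {l | l ≠ i' ∧ l ∉ J}) (S' := J) (j0 := i') (fun h' => h'.1 rfl)
      hi' (Set.disjoint_left.2 fun _ h' => h'.2)).mono (lsig_mono' hD' _) le_rfl
    have hci := hind.ci_sup (hf'.lsig_le _) (hf.lsig_le _) (lsig_mono' hD' J)
    have hsub : lsig (_root_.flip 𝓓 j) {l | l ≠ i'} ≤
        lsig (_root_.flip 𝓓 j) {l | l ≠ i' ∧ l ∉ J} ⊔ lsig (_root_.flip 𝓓 j) J :=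
      lsig_le fun l hl => by
        by_cases h' : l ∈ J
        · exact le_sup_of_le_right (le_lsig _ h')
        · exact le_sup_of_le_left (le_lsig _ ⟨hl, h'⟩)
    have hsle : Sle μ (gsig 𝓓 {p | p.2 = j}) (lsig (_root_.flip 𝓓 j) {l | l ≠ i'}) := by
      refine Sle.gsig ?_
      rintro ⟨i, _⟩ (rfl : _ = j)
      by_cases h' : i = i'
      · subst h'; exact hex _ _
      · exact Sle.of_le (le_lsig (_root_.flip 𝓓 _) h')
    have := hci.condExp_eq (sup_le (hf'.lsig_le _) (hf'.lsig_le _)) (hf.lsig_le _)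
      (lsig_mono' hD' J) ((hsle.bdd hU).mono hsub)
    rwa [lsig_row, lsig_row] at this

theorem Grid.xgrid_Dsig (h : Grid μ 𝓐) : XGrid μ (Dsig μ 𝓐) where
  le i j := (Dsig_le i j).trans (h.le i j)
  cardα := h.cardα
  cardβ := h.cardβ
  nr := h.nrow_of_exr Dsig_le h.Dsig_exr
  nc := h.flip.nrow_of_exr (fun j i => Dsig_le i j) fun j i => h.Dsig_exc i j
  exc := h.Dsig_exc
  exr := h.Dsig_exr

end Crest.Agent.R069
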