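import Crest.Agent.R069.Defs

/-! A commuting family containing a nonzero compact symmetric operator has a common
eigenvector. -/

set_option autoImplicit false
open MeasureTheory Filter Topology
open scoped ENNReal ComplexConjugate

namespace Crest.Agent.R069
set_option linter.unusedSectionVars false

theorem hilb_common {V : Type*} [AddCommGroup V] [Module ℂ V] {ι : Type*}
    (T : ι → Module.End ℂ V) (hc : ∀ i j x, T i (T j x) = T j (T i x)) (n : ℕ) :
    ∀ U : Submodule ℂ V, FiniteDimensional ℂ U → Module.finrank ℂ U = n → U ≠ ⊥ →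
      (∀ i, ∀ x ∈ U, T i x ∈ U) → ∃ G ∈ U, G ≠ 0 ∧ ∀ i, ∃ ν : ℂ, T i G = ν • G := by
  induction n using Nat.strong_induction_on with
  | _ n ih =>
  intro U hU hn h0 hinv
  by_cases hs : ∀ i, ∃ ν : ℂ, ∀ x ∈ U, T i x = ν • x
  · obtain ⟨G, hG, hG0⟩ := (Submodule.ne_bot_iff U).1 h0
    exact ⟨G, hG, hG0, fun i => (hs i).imp (fun ν hν => hν G hG)⟩
  · push Not at hs
    obtain ⟨i, hi⟩ := hs
    have : Nontrivial U := Submodule.nontrivial_iff_ne_bot.2 h0
    obtain ⟨ν, hν⟩ := Module.End.exists_eigenvalue ((T i).restrict (hinv i))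
    obtain ⟨v, hv⟩ := hν.exists_hasEigenvector
    obtain ⟨x, hxU, hx⟩ := hi ν
    have hle : U ⊓ Module.End.eigenspace (T i) ν ≤ U := inf_le_left
    have hlt : U ⊓ Module.End.eigenspace (T i) ν < U := lt_of_le_of_ne hle (fun h => hx (by
      have : x ∈ U ⊓ Module.End.eigenspace (T i) ν := by rw [h]; exact hxU
      exact Module.End.mem_eigenspace_iff.1 this.2))
    obtain ⟨G, hG, hG'⟩ := ih _ (hn ▸ Submodule.finrank_lt_finrank_of_lt hlt)
      (U ⊓ Module.End.eigenspace (T i) ν) (Submodule.finiteDimensional_of_le hle) rfl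
      ((Submodule.ne_bot_iff _).2 ⟨v, ⟨v.2, Module.End.mem_eigenspace_iff.2 (by
        have := congrArg Subtype.val hv.apply_eq_smul
        simpa using this)⟩, fun h => hv.2 (Subtype.ext h)⟩)
      (fun j y hy => ⟨hinv j y hy.1, Module.End.mem_eigenspace_iff.2 (by
        rw [hc, Module.End.mem_eigenspace_iff.1 hy.2, map_smul])⟩)
    exact ⟨G, hG.1, hG'⟩

/-- Proof: restrict to `W` (a Hilbert space); `B` compact symmetric nonzero has a nonzero
eigenvalue with finite dimensional eigenspace `E`, invariant under all `N i`; take a nonzero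
subspace of `E` invariant under all `N i` of minimal dimension. -/
theorem exists_common_eigenvector {E : Type*} [NormedAddCommGroup E] [InnerProductSpace ℂ E]
    [CompleteSpace E] (W : Submodule ℂ E) (hW : IsClosed (W : Set E)) {ι : Type*}
    (N : ι → E →L[ℂ] E) (hN : ∀ i, ∀ x ∈ W, N i x ∈ W)
    (hc : ∀ i j, ∀ x ∈ W, N i (N j x) = N j (N i x)) (i0 : ι)
    (hK : IsCompactOperator (fun x : W => N i0 x))
    (hs : ∀ x ∈ W, ∀ y ∈ W, inner ℂ (N i0 x) y = inner ℂ x (N i0 y))
    (hne : ∃ x ∈ W, N i0 x ≠ 0) :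
    ∃ G ∈ W, G ≠ 0 ∧ (∃ c : ℂ, c ≠ 0 ∧ N i0 G = c • G) ∧ ∀ i, ∃ ν : ℂ, N i G = ν • G := by
  have : CompleteSpace W := hW.completeSpace_coe
  let T : ι → W →L[ℂ] W := fun i => (N i).restrict (hN i)
  have hT : ∀ i (x : W), (T i x : E) = N i x := fun _ _ => rfl
  have hK' : IsCompactOperator (T i0) := hK.codRestrict (fun x => hN i0 x x.2) hW
  have hs' : (T i0).IsSymmetric := fun x y => hs x x.2 y y.2
  have hne' : T i0 ≠ 0 := by
    intro h
    obtain ⟨x, hx, hx0⟩ := hne
    apply hx0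
    rw [← hT i0 ⟨x, hx⟩, h]; rfl
  rw [Ne, ← ContinuousLinearMap.eq_zero_of_forall_hasEigenvalue_eq_zero hK' hs'] at hne'
  push Not at hne'
  obtain ⟨μ, hμ, hμ0⟩ := hne'
  have hcomm : ∀ i j (x : W), (T i).toLinearMap ((T j).toLinearMap x) =
      (T j).toLinearMap ((T i).toLinearMap x) := fun i j x => Subtype.ext (hc i j x x.2)
  obtain ⟨G, hG, hG0, hG'⟩ := hilb_common (fun i => (T i).toLinearMap) hcomm _
    (Module.End.eigenspace (T i0).toLinearMap μ)
    (ContinuousLinearMap.finite_dimensional_eigenspace hK' μ hμ0) rfl hμ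
    (fun j y hy => Module.End.mem_eigenspace_iff.2 (by
      rw [hcomm, Module.End.mem_eigenspace_iff.1 hy, map_smul]))
  refine ⟨G, G.2, fun h => hG0 (Subtype.ext h), ⟨μ, hμ0, ?_⟩, fun i => ?_⟩
  · exact congrArg Subtype.val (Module.End.mem_eigenspace_iff.1 hG)
  · obtain ⟨ν, hν⟩ := hG' i
    exact ⟨ν, congrArg Subtype.val hν⟩

end Crest.Agent.R069
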