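import Crest.Agent.R069.CE3

/-! `L²` versions of multiplication and conditional expectation; Hilbert–Schmidt compactness. -/

set_option autoImplicit false
open MeasureTheory Filter Topology
open scoped ENNReal ComplexConjugate

namespace Crest.Agent.R069
set_option linter.unusedSectionVars false

variable {Ω : Type*} {y z m : MeasurableSpace Ω} {m0 : MeasurableSpace Ω} {μ : Measure Ω}
  [IsProbabilityMeasure μ]

/-- multiplication by a bounded function on `L²` -/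
lemma exists_mulL2 {a : Ω → ℂ} (ha : Bdd μ m0 a) :
    ∃ M : Lp ℂ 2 μ →L[ℂ] Lp ℂ 2 μ, ∀ f : Lp ℂ 2 μ, M f =ᵐ[μ] a * f := by
  refine ⟨(ContinuousLinearMap.mul ℂ ℂ).holderL μ ∞ 2 2 ((ha.memLp le_rfl ∞).toLp a), fun f => ?_⟩
  rw [ContinuousLinearMap.holderL_apply_apply]
  filter_upwards [(ContinuousLinearMap.mul ℂ ℂ).coeFn_holder (r := 2)
    ((ha.memLp le_rfl ∞).toLp a) f, (ha.memLp le_rfl ∞).coeFn_toLp] with ω h1 h2
  rw [h1, h2]
  rfl

/-- conditional expectation on `L²` -/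
lemma exists_condExpL2 (hm : m ≤ m0) :
    ∃ E : Lp ℂ 2 μ →L[ℂ] Lp ℂ 2 μ, ∀ f : Lp ℂ 2 μ, E f =ᵐ[μ] μ[f|m] := by
  refine ⟨(lpMeas ℂ ℂ m 2 μ).subtypeL.comp (condExpL2 ℂ ℂ hm), fun f => ?_⟩
  have h := (Lp.memLp f).condExpL2_ae_eq_condExp (𝕜 := ℂ) hm
  rw [Lp.toLp_coeFn] at h
  exact h

/-- bounded `m`-measurable functions are dense in `lpMeas m`: continuous maps agreeing on them
agree. -/
lemma lpMeas_ext (hm : m ≤ m0) {X : Type*} [TopologicalSpace X] [T2Space X]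
    {Φ Ψ : Lp ℂ 2 μ → X} (hΦ : Continuous Φ) (hΨ : Continuous Ψ)
    (h : ∀ f : Lp ℂ 2 μ, Bdd μ m f → Φ f = Ψ f) :
    ∀ f : Lp ℂ 2 μ, AEStronglyMeasurable[m] f μ → Φ f = Ψ f := by
  have key : ∀ f : Lp ℂ 2 μ, AEStronglyMeasurable[m] f μ →
      f ∈ closure {g : Lp ℂ 2 μ | Bdd μ m g} := by
    refine Lp.induction_stronglyMeasurable hm (by norm_num)
      (fun f => f ∈ closure {g : Lp ℂ 2 μ | Bdd μ m g}) ?_ ?_ ?_
    · intro c s hs hμs
      refine subset_closure ?_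
      rw [Lp.simpleFunc.coe_indicatorConst]
      refine ((Bdd.const c).mul (Bd.indicator hs).bdd).congr ?_
      filter_upwards [indicatorConstLp_coeFn (p := 2) (hs := hm s hs) (hμs := hμs.ne) (c := c)]
        with ω hω
      rw [hω]
      by_cases h : ω ∈ s <;> simp [h]
    · intro f g hf hg _ _ _ h1 h2
      refine map_mem_closure₂ continuous_add h1 h2 (fun u hu v hv => ?_)
      exact (Bdd.add hu hv).congr (Lp.coeFn_add u v).symm
    · exact isClosed_closure.preimage continuous_subtype_val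
  intro f hf
  exact Set.EqOn.closure (s := {g : Lp ℂ 2 μ | Bdd μ m g}) h hΦ hΨ (key f hf)

lemma l2_indep (hy : y ≤ m0) (hz : z ≤ m0) (hi : Ind μ y z) : ProbabilityTheory.Indep y z μ := by
  rw [ProbabilityTheory.Indep_iff]
  intro s t hs ht
  have h := hi _ _ (Bd.indicator hs).bdd (Bd.indicator ht).bdd
  have e : ∀ u : Set Ω, MeasurableSet u → ∫ ω, u.indicator (1 : Ω → ℂ) ω ∂μ = (μ.real u : ℂ) := by
    intro u hu
    rw [integral_indicator hu]
    simp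
  have e2 : (fun ω => s.indicator (1 : Ω → ℂ) ω * t.indicator (1 : Ω → ℂ) ω) =
      (s ∩ t).indicator (1 : Ω → ℂ) := by
    funext ω
    by_cases h1 : ω ∈ s <;> by_cases h2 : ω ∈ t <;> simp [h1, h2]
  rw [e2, e _ ((hy s hs).inter (hz t ht)), e _ (hy s hs), e _ (hz t ht)] at h
  have h' : μ.real (s ∩ t) = μ.real s * μ.real t := by exact_mod_cast h
  rw [← ENNReal.toReal_eq_toReal_iff' (measure_ne_top _ _)
    (ENNReal.mul_ne_top (measure_ne_top _ _) (measure_ne_top _ _)), ENNReal.toReal_mul]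
  exact h'

lemma l2_condExp_ind {E : Type*} [NormedAddCommGroup E] [NormedSpace ℝ E] [CompleteSpace E]
    (hy : y ≤ m0) (hz : z ≤ m0) (hi : Ind μ y z) {G : Ω → E}
    (hG : AEStronglyMeasurable[y] G μ) : μ[G|z] =ᵐ[μ] fun _ => ∫ ω, G ω ∂μ := by
  refine (condExp_congr_ae hG.ae_eq_mk).trans ?_
  rw [integral_congr_ae hG.ae_eq_mk]
  exact condExp_indep_eq hy hz hG.stronglyMeasurable_mk (l2_indep hy hz hi)

lemma l2_norm_sq (f : Lp ℂ 2 μ) : ‖f‖ ^ 2 = ∫ ω, ‖f ω‖ ^ 2 ∂μ := by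
  have h1 : (inner ℂ f f : ℂ) = ((∫ ω, ‖f ω‖ ^ 2 ∂μ : ℝ) : ℂ) := by
    rw [L2.inner_def, ← integral_mul_conj_eq]
    simp only [RCLike.inner_apply]
  rw [inner_self_eq_norm_sq_to_K] at h1
  apply Complex.ofReal_injective
  rw [← h1]
  simp

/-- the contraction of an `L²(y)` function is bounded: `|E[a G|z]| ≤ ‖a‖_∞ ∫ |G|` -/
lemma bdd_contraction (hy : y ≤ m0) (hz : z ≤ m0) (hi : Ind μ y z) {a G : Ω → ℂ}
    (ha : Bdd μ m0 a) (hG : AEStronglyMeasurable[y] G μ) (hG' : Integrable G μ) :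
    Bdd μ z (μ[a * G|z]) := by
  obtain ⟨h1, C, hC⟩ := id ha
  refine ⟨stronglyMeasurable_condExp.aestronglyMeasurable, C * ∫ ω, ‖G ω‖ ∂μ, ?_⟩
  have hi1 : Integrable (fun ω => ‖(a * G) ω‖) μ := (ha.mul_integrable le_rfl hG').norm
  have hi2 : Integrable (fun ω => C * ‖G ω‖) μ := hG'.norm.const_mul C
  have h2 := condExp_mono (m := z) hi1 hi2 (by
    filter_upwards [hC] with ω hω
    rw [Pi.mul_apply, norm_mul]
    exact mul_le_mul_of_nonneg_right hω (norm_nonneg _))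
  have h3 := l2_condExp_ind hy hz hi (G := fun ω => C * ‖G ω‖) ((continuous_const.mul continuous_norm).comp_aestronglyMeasurable hG)
  rw [integral_const_mul] at h3
  filter_upwards [norm_condExp_le (μ := μ) (m := z) (a * G), h2, h3] with ω e1 e2 e3
  exact e1.trans (e2.trans e3.le)

lemma l2_contraction_le (hy : y ≤ m0) (hz : z ≤ m0) (hi : Ind μ y z) {c G F : Lp ℂ 2 μ}
    (hc : Bdd μ m0 c) (hG : AEStronglyMeasurable[y] G μ) (hF : F =ᵐ[μ] μ[(c : Ω → ℂ) * G|z]) :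
    ‖F‖ ≤ ‖c‖ * ‖G‖ := by
  have hGi : Integrable G μ := (Lp.memLp G).integrable one_le_two
  have hFb : Bdd μ z F := (bdd_contraction hy hz hi hc hG hGi).congr hF.symm
  have h1 : ∫ ω, F ω * conj (F ω) ∂μ = ∫ ω, c ω * (G ω * conj (F ω)) ∂μ := by
    have e := integral_condExp_mul hz (U := (c : Ω → ℂ) * ⇑G) (hc.mul_integrable le_rfl hGi) hFb.conj
    rw [integral_congr_ae (g := fun ω => (μ[(c : Ω → ℂ) * ⇑G|z]) ω * conj (F ω))
      (by filter_upwards [hF] with ω hω using by rw [← hω]), e]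
    simp only [Pi.mul_apply, mul_assoc]
  obtain ⟨h2, h3⟩ := hi.integral_norm_sq_mul hy hz hG (Lp.memLp G) hFb.conj.1 (hFb.conj.memLp hz 2)
  have h4 := norm_integral_mul_sq_le (Lp.memLp c) h2
  rw [← h1, h3, integral_mul_conj_eq] at h4
  simp only [RCLike.norm_conj] at h4
  rw [← l2_norm_sq, ← l2_norm_sq, ← l2_norm_sq, Complex.norm_real, Real.norm_of_nonneg (sq_nonneg _)]
    at h4
  rcases (norm_nonneg F).eq_or_lt with h0 | h0
  · rw [← h0]
    positivity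
  · have h5 : ‖F‖ ^ 2 ≤ (‖c‖ * ‖G‖) ^ 2 := by
      have h6 : ‖F‖ ^ 2 * ‖F‖ ^ 2 ≤ (‖c‖ * ‖G‖) ^ 2 * ‖F‖ ^ 2 := by nlinarith
      exact le_of_mul_le_mul_right h6 (by positivity)
    exact (pow_le_pow_iff_left₀ (norm_nonneg _) (by positivity) two_ne_zero).1 h5

/-- Hilbert–Schmidt: for independent `y`, `z` and bounded `a`, the operator
`G ↦ E[a G | z]` is compact on `L²(y)`.  Proof: replace `a` by `b = E[a | y ⊔ z]`;
`‖E[b G|z]‖₂ ≤ ‖b‖₂ ‖G‖₂` (duality + `Ind.integral_norm_sq_mul`); for `b = u v` the operator is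
`G ↦ v ∫ u G` (rank one); finite sums of products are dense in `L²(y ⊔ z)` (`ext_sup`);
`isClosed_setOf_isCompactOperator`. -/
theorem isCompactOperator_contraction (hy : y ≤ m0) (hz : z ≤ m0) (hi : Ind μ y z) {a : Ω → ℂ}
    (ha : Bdd μ m0 a) (W : Submodule ℂ (Lp ℂ 2 μ))
    (hW : ∀ f ∈ W, AEStronglyMeasurable[y] f μ) (K : Lp ℂ 2 μ →L[ℂ] Lp ℂ 2 μ)
    (hK : ∀ f : Lp ℂ 2 μ, K f =ᵐ[μ] μ[a * f|z]) :
    IsCompactOperator (fun f : W => K f) := by
  have hyz : y ⊔ z ≤ m0 := sup_le hy hz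
  have hint : ∀ f : Lp ℂ 2 μ, Integrable f μ := fun f => (Lp.memLp f).integrable one_le_two
  let S : Submodule ℂ (Lp ℂ 2 μ) := Submodule.span ℂ
    {s | ∃ u v : Ω → ℂ, Bdd μ y u ∧ Bdd μ z v ∧ s =ᵐ[μ] u * v}
  have hS : ∀ s ∈ S, Bdd μ m0 s ∧ ∃ K' : W →L[ℂ] Lp ℂ 2 μ, IsCompactOperator K' ∧
      ∀ f : W, K' f =ᵐ[μ] μ[(s : Ω → ℂ) * ⇑(f : Lp ℂ 2 μ)|z] := by
    intro s hs
    induction hs using Submodule.span_induction with
    | mem s hs =>
      obtain ⟨u, v, hu, hv, e⟩ := hs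
      refine ⟨((hu.mono hy).mul' (hv.mono hz)).congr e.symm, ?_⟩
      let φ : W →L[ℂ] ℂ := (innerSL ℂ ((hu.conj.memLp hy 2).toLp _)).comp W.subtypeL
      have hφ : ∀ f : W, φ f = ∫ ω, u ω * (f : Lp ℂ 2 μ) ω ∂μ := by
        intro f
        simp only [φ, ContinuousLinearMap.comp_apply, innerSL_apply_apply, Submodule.subtypeL_apply,
          L2.inner_def, RCLike.inner_apply]
        refine integral_congr_ae ?_
        filter_upwards [(hu.conj.memLp hy 2).coeFn_toLp] with ω hω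
        rw [hω, mul_comm]
        simp
      refine ⟨(ContinuousLinearMap.toSpanSingleton ℂ ((hv.memLp hz 2).toLp _)).comp φ,
        (isCompactOperator_of_locallyCompactSpace_dom φ).clm_comp
          (ContinuousLinearMap.toSpanSingleton ℂ ((hv.memLp hz 2).toLp _)), fun f => ?_⟩
      have h1 : Integrable (fun ω => u ω * (f : Lp ℂ 2 μ) ω) μ := hu.mul_integrable hy (hint _)
      have h2 := condExp_mul_left hz hv h1
      have h3 := l2_condExp_ind hy hz hi (G := fun ω => u ω * (f : Lp ℂ 2 μ) ω)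
        (hu.1.mul (hW f f.2))
      have h4 : μ[(s : Ω → ℂ) * ⇑(f : Lp ℂ 2 μ)|z] =ᵐ[μ]
          μ[fun ω => v ω * (u ω * (f : Lp ℂ 2 μ) ω)|z] := condExp_congr_ae (by
        filter_upwards [e] with ω hω
        simp only [Pi.mul_apply, hω]
        ring)
      rw [ContinuousLinearMap.comp_apply, ContinuousLinearMap.toSpanSingleton_apply, hφ]
      filter_upwards [h2, h3, h4, Lp.coeFn_smul (∫ ω, u ω * (f : Lp ℂ 2 μ) ω ∂μ)
        ((hv.memLp hz 2).toLp _), (hv.memLp hz 2).coeFn_toLp] with ω e2 e3 e4 e5 e6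
      rw [e5, e4, e2, e3, Pi.smul_apply, e6, smul_eq_mul, mul_comm]
    | zero =>
      refine ⟨(Bdd.const 0).congr (Lp.coeFn_zero ℂ 2 μ).symm, 0, isCompactOperator_zero, fun f => ?_⟩
      have h1 : μ[((0 : Lp ℂ 2 μ) : Ω → ℂ) * ⇑(f : Lp ℂ 2 μ)|z] =ᵐ[μ] μ[(0 : Ω → ℂ)|z] :=
        condExp_congr_ae (by
          filter_upwards [Lp.coeFn_zero ℂ 2 μ] with ω hω
          rw [Pi.mul_apply, hω]
          simp)
      rw [condExp_zero] at h1
      exact (Lp.coeFn_zero ℂ 2 μ).trans h1.symm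
    | add s t _ _ hs ht =>
      obtain ⟨s1, K1, s2, s3⟩ := hs
      obtain ⟨t1, K2, t2, t3⟩ := ht
      refine ⟨(s1.add t1).congr (Lp.coeFn_add s t).symm, K1 + K2, s2.add t2, fun f => ?_⟩
      have h1 : μ[((s + t : Lp ℂ 2 μ) : Ω → ℂ) * ⇑(f : Lp ℂ 2 μ)|z] =ᵐ[μ]
          μ[(s : Ω → ℂ) * ⇑(f : Lp ℂ 2 μ) + (t : Ω → ℂ) * ⇑(f : Lp ℂ 2 μ)|z] :=
        condExp_congr_ae (by
          filter_upwards [Lp.coeFn_add s t] with ω hω
          simp only [Pi.mul_apply, Pi.add_apply, hω]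
          ring)
      have h2 := condExp_add (μ := μ) (f := (s : Ω → ℂ) * ⇑(f : Lp ℂ 2 μ))
        (g := (t : Ω → ℂ) * ⇑(f : Lp ℂ 2 μ)) (s1.mul_integrable le_rfl (hint _))
        (t1.mul_integrable le_rfl (hint _)) z
      rw [ContinuousLinearMap.add_apply]
      filter_upwards [h1, h2, s3 f, t3 f, Lp.coeFn_add (K1 f) (K2 f)] with ω e1 e2 e3 e4 e5
      rw [e5, e1, e2, Pi.add_apply, Pi.add_apply, e3, e4]
    | smul c s _ hs =>
      obtain ⟨s1, K1, s2, s3⟩ := hs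
      refine ⟨((Bdd.const c).mul s1).congr (Lp.coeFn_smul c s).symm, c • K1, s2.smul c, fun f => ?_⟩
      have h1 : μ[((c • s : Lp ℂ 2 μ) : Ω → ℂ) * ⇑(f : Lp ℂ 2 μ)|z] =ᵐ[μ]
          μ[c • ((s : Ω → ℂ) * ⇑(f : Lp ℂ 2 μ))|z] :=
        condExp_congr_ae (by
          filter_upwards [Lp.coeFn_smul c s] with ω hω
          simp only [Pi.mul_apply, Pi.smul_apply, hω, smul_eq_mul]
          ring)
      have h2 := condExp_smul (μ := μ) c ((s : Ω → ℂ) * ⇑(f : Lp ℂ 2 μ)) z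
      rw [ContinuousLinearMap.smul_apply]
      filter_upwards [h1, h2, s3 f, Lp.coeFn_smul c (K1 f)] with ω e1 e2 e3 e5
      rw [e5, e1, e2, Pi.smul_apply, Pi.smul_apply, e3]
  have hb : Bdd μ (y ⊔ z) (μ[a|y ⊔ z]) := ha.condExp
  let b : Lp ℂ 2 μ := (hb.memLp hyz 2).toLp _
  have hbe : b =ᵐ[μ] μ[a|y ⊔ z] := (hb.memLp hyz 2).coeFn_toLp
  have hb0 : Bdd μ m0 b := (hb.mono hyz).congr hbe.symm
  have hbS : b ∈ closure (S : Set (Lp ℂ 2 μ)) := by
    rw [← Submodule.topologicalClosure_coe, SetLike.mem_coe,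
      ← Submodule.orthogonal_orthogonal_eq_closure, Submodule.mem_orthogonal]
    intro q hq
    have hqi : Integrable (fun ω => conj (q ω)) μ := (Complex.conjCLE.toContinuousLinearMap).integrable_comp (hint q)
    have h1 := ext_sup hy hz hqi (fun u v hu hv => by
      have huv : Bdd μ m0 (u * v) := (hu.mono hy).mul' (hv.mono hz)
      have h2 := (Submodule.mem_orthogonal' _ _).1 hq ((huv.memLp le_rfl 2).toLp _)
        (Submodule.subset_span ⟨u, v, hu, hv, (huv.memLp le_rfl 2).coeFn_toLp⟩)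
      rw [L2.inner_def] at h2
      rw [← h2]
      refine integral_congr_ae ?_
      filter_upwards [(huv.memLp le_rfl 2).coeFn_toLp] with ω hω
      rw [hω, RCLike.inner_apply, Pi.mul_apply]) _ hb
    rw [L2.inner_def, ← h1]
    refine integral_congr_ae ?_
    filter_upwards [hbe] with ω hω
    rw [hω, RCLike.inner_apply]
  have hKb : ∀ f : W, K f =ᵐ[μ] μ[(b : Ω → ℂ) * ⇑(f : Lp ℂ 2 μ)|z] := by
    intro f
    have h1 : μ[μ[a * ⇑(f : Lp ℂ 2 μ)|y ⊔ z]|z] =ᵐ[μ] μ[a * ⇑(f : Lp ℂ 2 μ)|z] :=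
      condExp_condExp_of_le le_sup_right hyz
    have h2 := condExp_bilin_of_aestronglyMeasurable_left (m := y ⊔ z) (μ := μ)
      (ContinuousLinearMap.mul ℝ ℂ).flip (f := ((f : Lp ℂ 2 μ) : Ω → ℂ)) (g := a)
      ((hW f f.2).mono le_sup_left) (ha.mul_integrable le_rfl (hint _)) (ha.integrable le_rfl)
    refine (hK f).trans (h1.symm.trans (condExp_congr_ae ?_))
    filter_upwards [h2, hbe] with ω e1 e2
    rw [Pi.mul_apply, e2]
    exact e1
  have hcl : K.comp W.subtypeL ∈ closure {T : W →L[ℂ] Lp ℂ 2 μ | IsCompactOperator T} := by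
    refine (Metric.mem_closure_iff (α := W →L[ℂ] Lp ℂ 2 μ)).2 fun ε hε => ?_
    obtain ⟨s, hs, hd⟩ := Metric.mem_closure_iff.1 hbS ε hε
    obtain ⟨s1, K', s2, s3⟩ := hS s hs
    refine ⟨K', s2, lt_of_le_of_lt ?_ hd⟩
    rw [dist_eq_norm b s]
    refine (dist_eq_norm (E := W →L[ℂ] Lp ℂ 2 μ) _ _).trans_le ?_
    refine ContinuousLinearMap.opNorm_le_bound _ (norm_nonneg _) fun f => ?_
    refine l2_contraction_le hy hz hi (G := f) ((hb0.sub s1).congr (Lp.coeFn_sub b s).symm)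
      (hW f f.2) ?_
    have h1 : μ[((b - s : Lp ℂ 2 μ) : Ω → ℂ) * ⇑(f : Lp ℂ 2 μ)|z] =ᵐ[μ]
        μ[(b : Ω → ℂ) * ⇑(f : Lp ℂ 2 μ) - (s : Ω → ℂ) * ⇑(f : Lp ℂ 2 μ)|z] :=
      condExp_congr_ae (by
        filter_upwards [Lp.coeFn_sub b s] with ω hω
        simp only [Pi.mul_apply, Pi.sub_apply, hω]
        ring)
    have h2 := condExp_sub (μ := μ) (f := (b : Ω → ℂ) * ⇑(f : Lp ℂ 2 μ))
      (g := (s : Ω → ℂ) * ⇑(f : Lp ℂ 2 μ)) (hb0.mul_integrable le_rfl (hint _))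
      (s1.mul_integrable le_rfl (hint _)) z
    rw [ContinuousLinearMap.sub_apply]
    filter_upwards [h1, h2, s3 f, hKb f, Lp.coeFn_sub ((K.comp W.subtypeL) f) (K' f)]
      with ω e1 e2 e3 e4 e5
    rw [e5, e1, e2, Pi.sub_apply, Pi.sub_apply, e3, ← e4]
    rfl
  rw [isClosed_setOfPred_isCompactOperator.closure_eq] at hcl
  exact hcl

end Crest.Agent.R069
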