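import Crest.Agent.R069.Eig
import Crest.Agent.R069.Hilb
import Crest.Agent.R069.L2

/-! On an exact line with commuting operators, characters span. -/

set_option autoImplicit false
open MeasureTheory Filter Topology
open scoped ENNReal ComplexConjugate

namespace Crest.Agent.R069
set_option linter.unusedSectionVars false

variable {Ω ι : Type*} [Fintype ι] {𝓑 : ι → MeasurableSpace Ω}
  {m0 : MeasurableSpace Ω} {μ : Measure Ω} [IsProbabilityMeasure μ]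

lemma spec_inner (f g : Lp ℂ 2 μ) : inner ℂ f g = ∫ ω, g ω * conj (f ω) ∂μ := by
  rw [L2.inner_def]
  simp

lemma spec_ce_adj {m : MeasurableSpace Ω} {m0 : MeasurableSpace Ω} {μ : Measure Ω}
    [IsProbabilityMeasure μ] (hm : m ≤ m0) {E : Lp ℂ 2 μ →L[ℂ] Lp ℂ 2 μ}
    (hE : ∀ f : Lp ℂ 2 μ, E f =ᵐ[μ] μ[f|m]) (f g : Lp ℂ 2 μ) :
    inner ℂ (E f) g = inner ℂ f (E g) := by
  have : ∀ f : Lp ℂ 2 μ, E f = (condExpL2 ℂ ℂ hm f : Lp ℂ 2 μ) := fun f => by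
    have h1 := (Lp.memLp f).condExpL2_ae_eq_condExp (𝕜 := ℂ) hm
    rw [Lp.toLp_coeFn] at h1
    exact Lp.ext ((hE f).trans h1.symm)
  rw [this, this, inner_condExpL2_left_eq_right]

lemma spec_mul_adj {a : Ω → ℂ} {M M' : Lp ℂ 2 μ →L[ℂ] Lp ℂ 2 μ}
    (hM : ∀ f : Lp ℂ 2 μ, M f =ᵐ[μ] a * f)
    (hM' : ∀ f : Lp ℂ 2 μ, M' f =ᵐ[μ] (fun ω => conj (a ω)) * f) (f g : Lp ℂ 2 μ) :
    inner ℂ f (M g) = inner ℂ (M' f) g := by
  rw [spec_inner, spec_inner]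
  refine integral_congr_ae ?_
  filter_upwards [hM g, hM' f] with ω h1 h2
  rw [h1, h2]
  simp only [Pi.mul_apply, map_mul, Complex.conj_conj]
  ring

lemma spec_Nop_congr {j1 jx : ι} {a a' G G' : Ω → ℂ} (h : G =ᵐ[μ] G') :
    Nop μ 𝓑 j1 jx a a' G =ᵐ[μ] Nop μ 𝓑 j1 jx a a' G' :=
  condExp_congr_ae (EventuallyEq.rfl.mul (condExp_congr_ae (EventuallyEq.rfl.mul h)))

lemma Adm.spec_bdd (h : Free μ 𝓑) {j1 jx : ι} {a a' : Ω → ℂ} (hA : Adm μ 𝓑 j1 jx a a') :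
    Bdd μ m0 a ∧ Bdd μ m0 a' :=
  let ⟨_, _, _, h1⟩ := hA.ha
  ⟨h1.mono (h.lsig_le _), hA.ha'.mono (h.le _)⟩

lemma Adm.spec_conj {j1 jx : ι} {a a' : Ω → ℂ} (hA : Adm μ 𝓑 j1 jx a a') :
    Adm μ 𝓑 j1 jx (fun ω => conj (a ω)) (fun ω => conj (a' ω)) :=
  let ⟨j, h1, h2, h3⟩ := hA.ha
  ⟨hA.ne, hA.ha'.conj, j, h1, h2, h3.conj⟩

/-- Proof: let `W ⊆ L²` be the closed subspace of `𝓑 j1`-measurable functions orthogonal to all
characters.  If `ψ ⊥` characters and `ip F ψ ≠ 0` then `E[ψ | 𝓑 j1]` is a nonzero element of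
`W`.  The `L²` versions of the admissible `Nop` (`exists_mulL2`, `exists_condExpL2`) preserve
`W` (`Free.transpose_char`), commute on `W` (`lpMeas_ext`), and `B = Nop (conj a') a'` with
`a'` from `exists_contraction` is compact, symmetric, nonzero on `W`.  A common eigenvector `G`
(`exists_common_eigenvector`) is bounded (`G = B G / c`, `bdd_contraction`) so it is a
multiple of a character (`char_of_eigen`), contradicting `G ∈ W`, `G ≠ 0`. -/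
theorem XLine.inSpan (h : XLine μ 𝓑) {j1 : ι} (hc : Comm μ 𝓑 j1) {F : Ω → ℂ}
    (hF : Bdd μ (𝓑 j1) F) : InSpan μ (charSub μ 𝓑 j1) F := by
  intro ψ hψ hψX
  by_contra hne
  have hfr := h.toFree
  have hle := h.le j1
  obtain ⟨E1, hE1⟩ := exists_condExpL2 (μ := μ) hle
  choose EZ hEZ using fun jx => exists_condExpL2 (μ := μ) (hfr.lsig_le {l | l ≠ j1 ∧ l ≠ jx})
  choose M hM using fun (a : Ω → ℂ) (ha : Bdd μ m0 a) => exists_mulL2 ha
  have hfix : ∀ f : Lp ℂ 2 μ, AEStronglyMeasurable[𝓑 j1] f μ → E1 f = f := fun f hf =>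
    Lp.ext ((hE1 f).trans (condExp_of_aestronglyMeasurable' hle hf
      ((Lp.memLp f).integrable one_le_two)))
  have hmeas : ∀ f : Lp ℂ 2 μ, AEStronglyMeasurable[𝓑 j1] (E1 f) μ := fun f =>
    stronglyMeasurable_condExp.aestronglyMeasurable.congr (hE1 f).symm
  have hchi : ∀ g : Lp ℂ 2 μ, ∀ χ ∈ charSub μ 𝓑 j1, g =ᵐ[μ] cf χ → E1 g = g := fun g χ hχ hg =>
    hfix g ((measurable_of_mem_charSub hχ).stronglyMeasurable.aestronglyMeasurable.congr hg.symm)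
  let W : Submodule ℂ (Lp ℂ 2 μ) :=
    { carrier := {f | E1 f = f ∧ ∀ g : Lp ℂ 2 μ, ∀ χ ∈ charSub μ 𝓑 j1, g =ᵐ[μ] cf χ →
        inner ℂ g f = 0}
      zero_mem' := ⟨map_zero _, fun _ _ _ _ => inner_zero_right _⟩
      add_mem' := fun {x y} hx hy => ⟨by rw [map_add, hx.1, hy.1], fun g χ h1 h2 => by
        rw [inner_add_right, hx.2 g χ h1 h2, hy.2 g χ h1 h2, add_zero]⟩
      smul_mem' := fun c x hx => ⟨by rw [map_smul, hx.1], fun g χ h1 h2 => by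
        rw [inner_smul_right, hx.2 g χ h1 h2, mul_zero]⟩ }
  have hWm : ∀ f ∈ W, AEStronglyMeasurable[𝓑 j1] f μ := fun f hf => hf.1 ▸ hmeas f
  have hWc : IsClosed (W : Set (Lp ℂ 2 μ)) := by
    refine IsClosed.and (isClosed_eq E1.continuous continuous_id) ?_
    simp only [Set.ofPred_forall]
    exact isClosed_iInter fun g => isClosed_iInter fun χ => isClosed_iInter fun _ =>
      isClosed_iInter fun _ => isClosed_eq (continuous_const.inner continuous_id) continuous_const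
  let I := {p : ι × (Ω → ℂ) × (Ω → ℂ) // Adm μ 𝓑 j1 p.1 p.2.1 p.2.2}
  let K : ∀ (_ : ι) (a : Ω → ℂ), Bdd μ m0 a → Lp ℂ 2 μ →L[ℂ] Lp ℂ 2 μ :=
    fun jx a ha => (EZ jx).comp (M a ha)
  have hK : ∀ jx a ha (f : Lp ℂ 2 μ),
      K jx a ha f =ᵐ[μ] μ[a * f | lsig 𝓑 {l | l ≠ j1 ∧ l ≠ jx}] := fun jx a ha f =>
    (hEZ jx _).trans (condExp_congr_ae (hM a ha f))
  let N : I → Lp ℂ 2 μ →L[ℂ] Lp ℂ 2 μ := fun p =>
    (E1.comp (M _ (p.2.spec_bdd hfr).1)).comp (K p.1.1 _ (p.2.spec_bdd hfr).2)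
  have hN : ∀ (p : I) (f : Lp ℂ 2 μ), N p f =ᵐ[μ] Nop μ 𝓑 j1 p.1.1 p.1.2.1 p.1.2.2 f :=
    fun p f => (hE1 _).trans (condExp_congr_ae ((hM _ _ _).trans
      (EventuallyEq.rfl.mul (hK _ _ _ f))))
  have hNW : ∀ p, ∀ x ∈ W, N p x ∈ W := by
    rintro ⟨⟨jx, a, a'⟩, hA⟩ x hx
    refine ⟨hfix _ (hmeas _), fun g χ hχ hg => ?_⟩
    obtain ⟨κ, hκ⟩ := hfr.transpose_char hA.spec_conj (inv_mem hχ)
    obtain ⟨ha, ha'⟩ := hA.spec_bdd hfr
    have e : E1 (M _ ha'.conj (EZ jx (M _ ha.conj g))) = κ • g := by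
      have e1 : ∀ ω, conj (cf χ⁻¹ ω) = cf χ ω := fun ω => by
        simp [cf, ← Circle.coe_inv_eq_conj]
      simp only [e1] at hκ
      refine Lp.ext ((hE1 _).trans ((condExp_congr_ae ((hM _ _ _).trans (EventuallyEq.rfl.mul
        ((hK jx _ ha.conj g).trans (condExp_congr_ae (EventuallyEq.rfl.mul hg)))))).trans
        (hκ.trans ?_)))
      filter_upwards [Lp.coeFn_smul κ g, hg] with ω h1 h2
      rw [h1, Pi.smul_apply, h2, smul_eq_mul]
    change inner ℂ g (E1 (M _ ha (EZ jx (M _ ha' x)))) = 0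
    rw [← spec_ce_adj hle hE1, hchi g χ hχ hg, spec_mul_adj (hM _ ha) (hM _ ha.conj),
      ← spec_ce_adj (hfr.lsig_le _) (hEZ jx), spec_mul_adj (hM _ ha') (hM _ ha'.conj), ← hx.1,
      ← spec_ce_adj hle hE1, e, inner_smul_left, hx.2 g χ hχ hg, mul_zero]
  have hNc : ∀ p q, ∀ x ∈ W, N p (N q x) = N q (N p x) := fun p q x hx =>
    lpMeas_ext hle (Φ := fun x => N p (N q x)) (Ψ := fun x => N q (N p x)) (by fun_prop)
      (by fun_prop) (fun f hf => Lp.ext (((hN p _).trans (spec_Nop_congr (hN q f))).trans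
        ((hc _ _ _ _ _ _ p.2 q.2 f hf).trans
          ((hN q _).trans (spec_Nop_congr (hN p f))).symm))) x (hWm x hx)
  -- a nonzero element of `W`
  have hG0 : E1 hψ.toLp ∈ W := by
    refine ⟨hfix _ (hmeas _), fun g χ hχ hg => ?_⟩
    rw [← spec_ce_adj hle hE1, hchi g χ hχ hg, ← inner_conj_symm, spec_inner,
      ← map_zero (starRingEnd ℂ), ← hψX χ hχ, ip]
    congr 1
    refine integral_congr_ae ?_
    filter_upwards [hg, hψ.coeFn_toLp] with ω h1 h2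
    rw [h1, h2]
  have hG0ne : ¬ (E1 hψ.toLp : Ω → ℂ) =ᵐ[μ] 0 := fun h0 => hne (by
    have h1 : E1 hψ.toLp = 0 := Lp.ext (h0.trans (Lp.coeFn_zero _ _ _).symm)
    have hF2 := hF.memLp hle 2
    have h2 := spec_ce_adj hle hE1 hψ.toLp hF2.toLp
    rw [h1, inner_zero_left, hfix _ (hF.1.congr hF2.coeFn_toLp.symm), spec_inner] at h2
    rw [h2, ip]
    refine integral_congr_ae ?_
    filter_upwards [hF2.coeFn_toLp, hψ.coeFn_toLp] with ω h1 h2
    rw [h1, h2])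
  obtain ⟨jx, hjx, -⟩ := hfr.exists_third j1 j1
  obtain ⟨j', hj1, hj2⟩ := hfr.exists_third j1 jx
  obtain ⟨a', ha', hcon⟩ := h.exists_contraction hjx (hmeas _)
    ((Lp.memLp _).integrable one_le_two) hG0ne
  have hA : Adm μ 𝓑 j1 jx (fun ω => conj (a' ω)) a' :=
    ⟨hjx, ha', j', hj1, hj2, ha'.conj.mono (le_lsig 𝓑 ⟨hjx, hj2.symm⟩)⟩
  let i0 : I := ⟨(jx, fun ω => conj (a' ω), a'), hA⟩
  have ha0 : Bdd μ m0 a' := ha'.mono (h.le _)
  have hind := h.ind j1 jx hjx.symm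
  have hB : ∀ x, ∀ y ∈ W, inner ℂ (N i0 x) y = inner ℂ (K jx a' ha0 x) (K jx a' ha0 y) := by
    intro x y hy
    change inner ℂ (E1 (M _ ha0.conj (EZ jx (M _ ha0 x)))) y =
      inner ℂ (EZ jx (M _ ha0 x)) (EZ jx (M _ ha0 y))
    have hid : ∀ f, EZ jx (EZ jx f) = EZ jx f := fun f => Lp.ext ((hEZ jx _).trans
      (condExp_of_aestronglyMeasurable' (hfr.lsig_le _)
        (stronglyMeasurable_condExp.aestronglyMeasurable.congr (hEZ jx f).symm)
        ((Lp.memLp _).integrable one_le_two)))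
    rw [spec_ce_adj hle hE1, hy.1, ← spec_mul_adj (hM _ ha0) (hM _ ha0.conj),
      ← spec_ce_adj (hfr.lsig_le _) (hEZ jx), hid]
  obtain ⟨G, hGW, hGne, ⟨c, hc0, hcG⟩, heig⟩ := exists_common_eigenvector W hWc N hNW hNc i0
    ((isCompactOperator_contraction hle (hfr.lsig_le _) hind ha0 W hWm (K jx a' ha0)
      (hK jx a' ha0)).clm_comp (E1.comp (M _ ha0.conj)))
    (fun x hx y hy => by rw [hB x y hy, ← inner_conj_symm x, hB y x hx, inner_conj_symm])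
    ⟨_, hG0, fun h0 => hcon (by
      have h1 := hB (E1 hψ.toLp) _ hG0
      rw [h0, inner_zero_left, eq_comm, inner_self_eq_zero] at h1
      refine (hK jx a' ha0 _).symm.trans ?_
      rw [h1]
      exact Lp.coeFn_zero _ _ _)⟩
  have hGb : Bdd μ (𝓑 j1) G := by
    have h1 : Bdd μ (𝓑 j1) (Nop μ 𝓑 j1 jx (fun ω => conj (a' ω)) a' G) :=
      (ha0.conj.mul' ((bdd_contraction hle (hfr.lsig_le _) hind ha0 (hWm G hGW)
        ((Lp.memLp _).integrable one_le_two)).mono (hfr.lsig_le _))).condExp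
    refine ((Bdd.const c⁻¹).mul h1).congr ?_
    filter_upwards [hN i0 G, Lp.coeFn_smul c G] with ω h2 h3
    rw [← h2, hcG, h3, Pi.smul_apply, smul_eq_mul, inv_mul_cancel_left₀ hc0]
  obtain ⟨χ, hχ, d, hd, hGχ⟩ := h.char_of_eigen hGb
    (fun h0 => hGne (Lp.ext (h0.trans (Lp.coeFn_zero _ _ _).symm))) (fun jy b b' hb => by
      obtain ⟨ν, hν⟩ := heig ⟨(jy, b, b'), hb⟩
      refine ⟨ν, (hN ⟨(jy, b, b'), hb⟩ G).symm.trans ?_⟩
      rw [hν]
      exact Lp.coeFn_smul ν G)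
  have h1 := hGW.2 (d⁻¹ • G) χ hχ (by
    filter_upwards [Lp.coeFn_smul d⁻¹ G, hGχ] with ω h2 h3
    rw [h2, Pi.smul_apply, h3, smul_eq_mul, inv_mul_cancel_left₀ hd])
  rw [inner_smul_left, mul_eq_zero, inner_self_eq_zero] at h1
  exact h1.elim (by simpa using hd) hGne

end Crest.Agent.R069
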