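import Crest.Agent.R069.GridComm
import Crest.Agent.R069.Noisy
import Crest.Agent.R069.Spec

/-! The grid theorem. -/

set_option autoImplicit false
open MeasureTheory Filter Topology
open scoped ENNReal ComplexConjugate

namespace Crest.Agent.R069
set_option linter.unusedSectionVars false

variable {Ω α β : Type*} [Fintype α] [Fintype β] {𝓐 : α → β → MeasurableSpace Ω}
  {m0 : MeasurableSpace Ω} {μ : Measure Ω} [IsProbabilityMeasure μ]

lemma InSpan.mono {X Y : Set (Ω → Circle)} {F : Ω → ℂ} (h : InSpan μ X F) (hXY : X ⊆ Y) :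
    InSpan μ Y F := fun ψ hψ h' => h ψ hψ fun χ hχ => h' χ (hXY hχ)

/-- a doubly exact function lies in the span of the bi-characters -/
theorem Grid.inSpan (h : Grid μ 𝓐) (i0 : α) (j0 : β) {F : Ω → ℂ} (h1 : Bdd μ (𝓐 i0 j0) F)
    (hc : Bdd μ (lsig (𝓐 i0) {l | l ≠ j0}) F)
    (hr : Bdd μ (lsig (_root_.flip 𝓐 j0) {l | l ≠ i0}) F) :
    InSpan μ ((charSub μ (𝓐 i0) j0 : Set (Ω → Circle)) ∩ charSub μ (_root_.flip 𝓐 j0) i0) F := by
  have hX := h.xgrid_Dsig
  have hF : Bdd μ (Dsig μ 𝓐 i0 j0) F := bdd_inf_compl0 h1 hc hr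
  refine ((hX.xline_col i0).inSpan (hX.comm i0 j0) hF).mono fun χ hχ => ⟨?_, ?_⟩
  · exact charSub_mono (fun j => Dsig_le i0 j) j0 hχ
  · exact charSub_mono (𝓑 := _root_.flip (Dsig μ 𝓐) j0) (fun i => Dsig_le i j0) i0
      (hX.charSub_le i0 j0 hχ)

end Crest.Agent.R069
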