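import Crest.Agent.R069.Line
import Crest.Agent.R069.Slot

/-! Basic facts on grids. -/

set_option autoImplicit false
open MeasureTheory Filter Topology
open scoped ENNReal ComplexConjugate

namespace Crest.Agent.R069
set_option linter.unusedSectionVars false

variable {Ω α β : Type*} [Fintype α] [Fintype β] {𝓐 : α → β → MeasurableSpace Ω}
  {m0 : MeasurableSpace Ω} {μ : Measure Ω} [IsProbabilityMeasure μ]

lemma Grid.flip (h : Grid μ 𝓐) : Grid μ (flip 𝓐) :=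
  ⟨fun j i => h.le i j, h.cardβ, h.cardα, h.nc, h.nr⟩

lemma XGrid.flip (h : XGrid μ 𝓐) : XGrid μ (flip 𝓐) :=
  ⟨h.toGrid.flip, fun j i => h.exr i j, fun j i => h.exc i j⟩

lemma Grid.gsig_le (h : Grid μ 𝓐) (S : Set (α × β)) : gsig 𝓐 S ≤ m0 :=
  R069.gsig_le fun i j _ => h.le i j

/-- row `j` is independent of all rows other than `j`, `j0` -/
lemma Grid.ind_row (h : Grid μ 𝓐) {j j0 : β} (hj : j ≠ j0) :
    Ind μ (gsig 𝓐 {p | p.2 = j}) (gsig 𝓐 {p | p.2 ≠ j ∧ p.2 ≠ j0}) := by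
  have := h.nr j j0 hj ∅
  rw [ind_iff_ci]
  simpa [gsig] using this

lemma Grid.free_col (h : Grid μ 𝓐) (i : α) : Free μ (𝓐 i) :=
  ⟨h.le i, h.cardβ, fun j j0 hj => (h.ind_row hj).mono (le_gsig 𝓐 (i := i) (j := j) rfl)
    (lsig_le fun l hl => le_gsig 𝓐 (i := i) (j := l) hl)⟩

lemma Grid.free_row (h : Grid μ 𝓐) (j : β) : Free μ (_root_.flip 𝓐 j) := h.flip.free_col j

lemma XGrid.xline_col (h : XGrid μ 𝓐) (i : α) : XLine μ (𝓐 i) :=
  ⟨h.toGrid.free_col i, h.exc i⟩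

lemma XGrid.xline_row (h : XGrid μ 𝓐) (j : β) : XLine μ (_root_.flip 𝓐 j) := h.flip.xline_col j

/-- the slot hypotheses for two slots `l0 ≠ l1` of the column `i0`
(`nr` with `J = {i ≠ i0}` for h1, h1'; `J = {i0}` for h2, h2', h3; `lsig_col`, `lsig_row`). -/
lemma Grid.slot (h : Grid μ 𝓐) (i0 : α) {l0 l1 : β} (hl : l0 ≠ l1) :
    Slot μ (𝓐 i0 l0) (𝓐 i0 l1) (lsig (_root_.flip 𝓐 l0) {i | i ≠ i0})
      (lsig (_root_.flip 𝓐 l1) {i | i ≠ i0}) (lsig (𝓐 i0) {l | l ≠ l0 ∧ l ≠ l1}) := by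
  classical
  have hrow : ∀ l, lsig (_root_.flip 𝓐 l) {i | i ≠ i0} =
      gsig 𝓐 {p | p.1 ∈ {i | i ≠ i0} ∧ p.2 = l} := fun l => lsig_row 𝓐 l _
  have hpt : ∀ l, 𝓐 i0 l = gsig 𝓐 {p | p.1 ∈ ({i0} : Set α) ∧ p.2 = l} := fun l => by
    rw [← lsig_row, lsig_singleton]; rfl
  have A : ∀ {l l' : β}, l ≠ l' → ∀ {S : Set β}, (∀ x ∈ S, x ≠ l ∧ x ≠ l') →
      CI μ (𝓐 i0 l) (lsig (_root_.flip 𝓐 l) {i | i ≠ i0})
        (lsig (_root_.flip 𝓐 l') {i | i ≠ i0} ⊔ lsig (𝓐 i0) S) := by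
    intro l l' hll S hS
    rw [hrow l]
    refine (h.nr l l' hll {i | i ≠ i0}).mono (le_gsig 𝓐 (i := i0) (j := l) rfl) (sup_le ?_ ?_)
    · exact lsig_le fun i hi => le_gsig 𝓐 (i := i) (j := l') (Or.inl hi)
    · exact lsig_le fun x hx => le_gsig 𝓐 (i := i0) (j := x) (Or.inr (hS x hx))
  have B : ∀ {l l' : β}, l ≠ l' → ∀ {b : MeasurableSpace Ω},
      b ≤ gsig 𝓐 {p | p.1 ∈ ({i0} : Set α) ∨ (p.2 ≠ l ∧ p.2 ≠ l')} →
      CI μ (lsig (_root_.flip 𝓐 l) {i | i ≠ i0}) (𝓐 i0 l) b := by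
    intro l l' hll b hb
    rw [hpt l]
    exact (h.nr l l' hll {i0}).mono (lsig_le fun i _ => le_gsig 𝓐 (i := i) (j := l) rfl) hb
  obtain ⟨l2, h20, h21⟩ : ∃ l2 : β, l2 ≠ l0 ∧ l2 ≠ l1 := by
    by_contra hcon
    push Not at hcon
    have h1 : (Finset.univ : Finset β) ⊆ {l0, l1} := fun x _ => by
      by_cases hx : x = l0
      · simp [hx]
      · simp [hcon x hx]
    have h2 := (Finset.card_le_card h1).trans Finset.card_le_two
    have h3 := h.cardβ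
    rw [Finset.card_univ] at h2
    omega
  refine ⟨h.le _ _, h.le _ _, lsig_le fun i _ => h.le i l0, lsig_le fun i _ => h.le i l1,
    lsig_le fun l _ => h.le i0 l, A hl.symm fun x hx => ⟨hx.2, hx.1⟩, A hl fun x hx => hx,
    B hl (sup_le ?_ ?_), B hl.symm (sup_le ?_ ?_), B h20.symm (sup_le ?_ ?_)⟩
  · exact le_gsig 𝓐 (i := i0) (j := l1) (Or.inl rfl)
  · exact lsig_le fun x _ => le_gsig 𝓐 (i := i0) (j := x) (Or.inl rfl)
  · exact le_gsig 𝓐 (i := i0) (j := l0) (Or.inl rfl)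
  · exact lsig_le fun x _ => le_gsig 𝓐 (i := i0) (j := x) (Or.inl rfl)
  · exact lsig_le fun i _ => le_gsig 𝓐 (i := i) (j := l1) (Or.inr ⟨hl.symm, h21.symm⟩)
  · exact lsig_le fun x _ => le_gsig 𝓐 (i := i0) (j := x) (Or.inl rfl)

end Crest.Agent.R069
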