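import Crest.Agent.R069.GridOp

/-! Commutation (Eckmann–Hilton) and: column characters are row characters. -/

set_option autoImplicit false
open MeasureTheory Filter Topology
open scoped ENNReal ComplexConjugate

namespace Crest.Agent.R069
set_option linter.unusedSectionVars false

/-- operators acting on different tensor factors commute -/
lemma IsOp.comm_of_factors {Ω : Type*} {b1 b2 w : MeasurableSpace Ω} {m0 : MeasurableSpace Ω}
    {μ : Measure Ω} [IsProbabilityMeasure μ] {Φ1 Φ2 : (Ω → ℂ) → (Ω → ℂ)}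
    (h1 : IsOp μ Φ1) (h2 : IsOp μ Φ2) (hb1 : b1 ≤ m0) (hb2 : b2 ≤ m0) (hw : w ≤ m0)
    (p1 : ∀ G, Bdd μ b1 G → Bdd μ b1 (Φ1 G)) (p2 : ∀ G, Bdd μ b2 G → Bdd μ b2 (Φ2 G))
    (c1 : ∀ u G, Bdd μ (b2 ⊔ w) u → Bdd μ m0 G → Φ1 (u * G) =ᵐ[μ] u * Φ1 G)
    (c2 : ∀ u G, Bdd μ (b1 ⊔ w) u → Bdd μ m0 G → Φ2 (u * G) =ᵐ[μ] u * Φ2 G) :
    ∀ G, Bdd μ (b1 ⊔ (b2 ⊔ w)) G → Φ1 (Φ2 G) =ᵐ[μ] Φ2 (Φ1 G) := by
  refine IsOp.ext_sup (h1.comp h2) (h2.comp h1) hb1 (sup_le hb2 hw) fun u v hu hv => ?_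
  have hu0 := hu.mono hb1
  refine IsOp.ext_sup ((h1.comp h2).comp (IsOp.mul hu0)) ((h2.comp h1).comp (IsOp.mul hu0))
    hb2 hw (fun v t hv ht => ?_) v hv
  have hv0 := hv.mono hb2
  have ht0 := ht.mono hw
  have hΦ1 := p1 u hu
  have hΦ2 := p2 v hv
  have e1 : Φ2 (u * (v * t)) =ᵐ[μ] (t * Φ2 v) * u := by
    have := c2 (u * t) v ((hu.mono le_sup_left).mul' (ht.mono le_sup_right)) hv0
    rw [show u * (v * t) = u * t * v by ring]
    refine this.trans (Eventually.of_forall fun ω => ?_)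
    simp only [Pi.mul_apply]; ring
  have e2 : Φ1 (u * (v * t)) =ᵐ[μ] (t * Φ1 u) * v := by
    have := c1 (v * t) u ((hv.mono le_sup_left).mul' (ht.mono le_sup_right)) hu0
    rw [show u * (v * t) = v * t * u by ring]
    refine this.trans (Eventually.of_forall fun ω => ?_)
    simp only [Pi.mul_apply]; ring
  have e3 := h1.congr (h2.1 _ (hu0.mul' (hv0.mul' ht0))) e1
  have e4 := h2.congr (h1.1 _ (hu0.mul' (hv0.mul' ht0))) e2
  have e5 := c1 (t * Φ2 v) u ((ht.mono le_sup_right).mul' (hΦ2.mono le_sup_left)) hu0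
  have e6 := c2 (t * Φ1 u) v ((ht.mono le_sup_right).mul' (hΦ1.mono le_sup_left)) hv0
  filter_upwards [e3, e4, e5, e6] with ω h3 h4 h5 h6
  rw [h3, h4, h5, h6]
  simp only [Pi.mul_apply]; ring

variable {Ω α β : Type*} [Fintype α] [Fintype β] {𝓐 : α → β → MeasurableSpace Ω}
  {m0 : MeasurableSpace Ω} {μ : Measure Ω} [IsProbabilityMeasure μ]

/-- choose `i1 ≠ i2` different from `i0`, extend one operator with `i1`, the other with `i2`. -/
theorem XGrid.comm (h : XGrid μ 𝓐) (i0 : α) (j1 : β) : Comm μ (𝓐 i0) j1 := by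
  intro jx a a' jy b b' hA hB G hG
  have hrow := h.toGrid.free_row j1
  have hcol := h.toGrid.free_col i0
  obtain ⟨i1, hi1, -⟩ := hrow.exists_third i0 i0
  obtain ⟨i2, hi2, hi21⟩ := hrow.exists_third i0 i1
  have ha := hA.bdd_a hcol
  have ha' := hA.ha'.mono (h.le _ _)
  have hb := hB.bdd_a hcol
  have hb' := hB.ha'.mono (h.le _ _)
  have o1 : IsOp μ (Next μ 𝓐 i0 i1 j1 jx a a') := isOp_Next h.toGrid ha ha'
  have o2 : IsOp μ (Next μ 𝓐 i0 i2 j1 jy b b') := isOp_Next h.toGrid hb hb'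
  have key := IsOp.comm_of_factors (b1 := 𝓐 i1 j1) (b2 := 𝓐 i2 j1)
    (w := lsig (_root_.flip 𝓐 j1) {i | i ≠ i0 ∧ i ≠ i1 ∧ i ≠ i2}) o1 o2 (h.le _ _) (h.le _ _)
    (hrow.lsig_le _) (fun G hG => h.bdd_next hi1 hA hG) (fun G hG => h.bdd_next hi2 hB hG)
    (fun u G hu hG => h.toGrid.next_mul ha ha' (hu.mono (sup_le
      (le_lsig (_root_.flip 𝓐 j1) (i := i2) ⟨hi2, hi21⟩)
      (lsig_mono _ fun i hi => ⟨hi.1, hi.2.1⟩))) hG)
    (fun u G hu hG => h.toGrid.next_mul hb hb' (hu.mono (sup_le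
      (le_lsig (_root_.flip 𝓐 j1) (i := i1) ⟨hi1, hi21.symm⟩)
      (lsig_mono _ fun i hi => ⟨hi.1, hi.2.2⟩))) hG) G
    (((h.exr i0 j1).bdd hG).mono (lsig_le fun i hi => by
      by_cases e1 : i = i1
      · subst e1; exact le_sup_left
      by_cases e2 : i = i2
      · subst e2; exact le_sup_of_le_right le_sup_left
      · exact le_sup_of_le_right (le_sup_of_le_right
          (le_lsig (_root_.flip 𝓐 j1) (i := i) ⟨hi, e1, e2⟩))))
  have hG0 := hG.mono (h.le _ _)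
  have n1 : Bdd μ (𝓐 i0 j1) (Nop μ (𝓐 i0) j1 jx a a' G) :=
    (ha.mul' ((ha'.mul' hG0).condExp.mono (hcol.lsig_le _))).condExp
  have n2 : Bdd μ (𝓐 i0 j1) (Nop μ (𝓐 i0) j1 jy b b' G) :=
    (hb.mul' ((hb'.mul' hG0).condExp.mono (hcol.lsig_le _))).condExp
  have e1 := (o1.congr (o2.1 G hG0) (h.next_eq_nop hi2 hB hG)).trans (h.next_eq_nop hi1 hA n2)
  have e2 := (o2.congr (o1.1 G hG0) (h.next_eq_nop hi1 hA hG)).trans (h.next_eq_nop hi2 hB n1)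
  exact e1.symm.trans (key.trans e2)

/-- Let `χ` have factors `c`.  Take `jx ≠ j1`, `a' = c jx`, `a = conj (c jx)`.  Then
`Nop b = χ ∫ b conj χ` for `b ∈ 𝓐 i0 j1`, so for `i1 ≠ i0` and `V = {i ≠ i0, i1} × j1`,
`Next F = χ E[F conj χ | V]` on the whole row (`IsOp.ext_sup`, exactness).  `Next χ = χ ≠ 0`, so
(`IsOp.ext_sup` with `IsOp.zero`) some bounded `b ∈ 𝓐 i1 j1` has `d = Next b ≠ 0`; apply
`Free.mem_charSub_of_sep` to the row line. -/
theorem XGrid.charSub_le (h : XGrid μ 𝓐) (i0 : α) (j1 : β) :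
    charSub μ (𝓐 i0) j1 ≤ charSub μ (_root_.flip 𝓐 j1) i0 := by
  classical
  rintro χ ⟨c, hc, hcχ, hprod⟩
  have hrow := h.toGrid.free_row j1
  have hcol := h.toGrid.free_col i0
  have hχm : Measurable[𝓐 i0 j1] (cf χ) := hcχ ▸ hc j1
  have hχ : Bdd μ (𝓐 i0 j1) (cf χ) := (Bd.cf hχm).bdd
  have hχ0 := hχ.mono (h.le _ _)
  obtain ⟨jx, hjx, -⟩ := hcol.exists_third j1 j1
  obtain ⟨j', hj', hj'x⟩ := hcol.exists_third j1 jx
  have hcx : Bdd μ (𝓐 i0 jx) (cf (c jx)) := (Bd.cf (hc jx)).bdd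
  set a' : Ω → ℂ := cf (c jx) with ha'def
  set a : Ω → ℂ := fun ω => conj (cf (c jx) ω) with hadef
  set χc : Ω → ℂ := fun ω => conj (cf χ ω) with hχc
  have hA : Adm μ (𝓐 i0) j1 jx a a' :=
    ⟨hjx, hcx, j', hj', hj'x, hcx.conj.mono (le_lsig (𝓐 i0) (i := jx) ⟨hjx, hj'x.symm⟩)⟩
  have ha := hA.bdd_a hcol
  have ha' := hA.ha'.mono (h.le _ _)
  have hcc : ∀ (σ : Ω → Circle) (ω : Ω), cf σ ω * conj (cf σ ω) = 1 := fun σ ω => by
    simp [cf, Complex.mul_conj, Complex.normSq_eq_norm_sq]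
  -- the remaining factors
  let ρ : Ω → ℂ := fun ω => conj (∏ l ∈ (Finset.univ.erase j1).erase jx, cf (c l) ω)
  have hρ : Bdd μ (lsig (𝓐 i0) {l | l ≠ j1 ∧ l ≠ jx}) ρ :=
    (Bdd.prod _ fun l hl => (Bd.cf (hc l)).bdd.mono (le_lsig (𝓐 i0) (i := l)
      (S := {l | l ≠ j1 ∧ l ≠ jx}) ⟨Finset.ne_of_mem_erase (Finset.mem_of_mem_erase hl), Finset.ne_of_mem_erase hl⟩)).conj
  have hfac : ∀ᵐ ω ∂μ, a' ω = ρ ω * χc ω ∧ a ω * ρ ω = cf χ ω := by
    filter_upwards [hprod] with ω hω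
    rw [← Finset.mul_prod_erase _ _ (Finset.mem_univ j1), ← Finset.mul_prod_erase _ _
      (Finset.mem_erase.2 ⟨hjx, Finset.mem_univ jx⟩), hcχ] at hω
    have h1 : cf χ ω * (cf (c jx) ω * ∏ l ∈ (Finset.univ.erase j1).erase jx, cf (c l) ω) = 1 := by
      have := congrArg Circle.coeHom hω
      simpa only [map_mul, map_prod, map_one, cf, Circle.coeHom_apply] using this
    have h2 : conj (cf χ ω) * (conj (cf (c jx) ω) * ρ ω) = 1 := by
      have := congrArg conj h1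
      simpa only [map_mul, map_one] using this
    have h3 := hcc χ ω
    have h4 := hcc (c jx) ω
    constructor
    · change cf (c jx) ω = ρ ω * conj (cf χ ω)
      linear_combination (-cf (c jx) ω) * h2 + (conj (cf χ ω) * ρ ω) * h4
    · change conj (cf (c jx) ω) * ρ ω = cf χ ω
      linear_combination (cf χ ω) * h2 - (conj (cf (c jx) ω) * ρ ω) * h3
  have hnop : ∀ b, Bdd μ (𝓐 i0 j1) b →
      Nop μ (𝓐 i0) j1 jx a a' b =ᵐ[μ] fun ω => cf χ ω * ∫ ω, (χc * b) ω ∂μ := by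
    intro b hb
    have hb1 : Bdd μ (𝓐 i0 j1) (χc * b) := hχ.conj.mul' hb
    have e1 : a' * b =ᵐ[μ] ρ * (χc * b) := by
      filter_upwards [hfac] with ω hω
      simp only [Pi.mul_apply, hω.1]; ring
    have e2 := (condExp_congr_ae (m := lsig (𝓐 i0) {l | l ≠ j1 ∧ l ≠ jx}) e1).trans
      (condExp_mul_left' (hcol.lsig_le _) hρ (hb1.integrable (h.le _ _)))
    have e3 := (hcol.ind j1 jx hjx.symm).condExp_eq (h.le _ _) (hcol.lsig_le _) hb1
    have e4 : a * μ[a' * b | lsig (𝓐 i0) {l | l ≠ j1 ∧ l ≠ jx}] =ᵐ[μ]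
        fun ω => cf χ ω * ∫ ω, (χc * b) ω ∂μ := by
      filter_upwards [e2, e3, hfac] with ω h2 h3 hω
      rw [Pi.mul_apply, h2, Pi.mul_apply, h3, ← mul_assoc, hω.2]
    exact (condExp_congr_ae e4).trans (condExp_of_bdd (h.le _ _) (hχ.mul (Bdd.const _)))
  refine hrow.mem_charSub_of_sep hχm fun i1 hi1 => ?_
  have hV := hrow.lsig_le {l | l ≠ i0 ∧ l ≠ i1}
  have o1 : IsOp μ (Next μ 𝓐 i0 i1 j1 jx a a') := isOp_Next h.toGrid ha ha'
  have o2 : IsOp μ (fun F => cf χ * μ[χc * F | lsig (_root_.flip 𝓐 j1) {l | l ≠ i0 ∧ l ≠ i1}]) :=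
    (IsOp.mul hχ0).comp ((IsOp.condExp hV).comp (IsOp.mul hχ0.conj))
  have key := IsOp.ext_sup o1 o2 (h.le i0 j1) hV (fun u v hu hv => by
    have hu0 := hu.mono (h.le _ _)
    have hb1 : Bdd μ (𝓐 i0 j1) (χc * u) := hχ.conj.mul' hu
    have e1 := h.toGrid.next_mul (jx := jx) ha ha' hv hu0
    have e2 := (h.next_eq_nop hi1 hA hu).trans (hnop u hu)
    have e3 := condExp_mul_left' hV hv (hb1.integrable (h.le _ _))
    have e4 := (hrow.ind i0 i1 hi1.symm).condExp_eq (h.le _ _) hV hb1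
    rw [mul_comm u v, show χc * (v * u) = v * (χc * u) by ring]
    filter_upwards [e1, e2, e3, e4] with ω h1 h2 h3 h4
    rw [h1, Pi.mul_apply, h2, Pi.mul_apply, h3, Pi.mul_apply, h4]
    ring)
  have hsup : ∀ i i' : α, i ≠ i' → (i = i0 ∧ i' = i1 ∨ i = i1 ∧ i' = i0) → ∀ F, Bdd μ (𝓐 i j1) F →
      Bdd μ (𝓐 i' j1 ⊔ lsig (_root_.flip 𝓐 j1) {l | l ≠ i0 ∧ l ≠ i1}) F := by
    intro i i' _ hii F hF
    refine ((h.exr i j1).bdd hF).mono (lsig_le fun l hl => ?_)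
    by_cases e : l = i'
    · subst e; exact le_sup_left
    · refine le_sup_of_le_right (le_lsig (_root_.flip 𝓐 j1) (i := l) ?_)
      rcases hii with ⟨rfl, rfl⟩ | ⟨rfl, rfl⟩
      · exact ⟨hl, e⟩
      · exact ⟨e, hl⟩
  have hex : ∃ b, Bdd μ (𝓐 i1 j1) b ∧ ¬ Next μ 𝓐 i0 i1 j1 jx a a' b =ᵐ[μ] 0 := by
    by_contra hcon
    push Not at hcon
    have k0 := IsOp.ext_sup o1 IsOp.zero (h.le i1 j1) hV (fun u v hu hv => by
      have e1 := h.toGrid.next_mul (jx := jx) ha ha' hv (hu.mono (h.le _ _))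
      rw [mul_comm u v]
      filter_upwards [e1, hcon u hu] with ω h1 h2
      rw [h1, Pi.mul_apply, h2]
      simp) (cf χ) (hsup i0 i1 hi1.symm (Or.inl ⟨rfl, rfl⟩) _ hχ)
    have e2 := (h.next_eq_nop hi1 hA hχ).trans (hnop _ hχ)
    have e3 : ∫ ω, (χc * cf χ) ω ∂μ = 1 := by
      rw [integral_congr_ae (g := fun _ => (1 : ℂ)) (Eventually.of_forall fun ω => by
        rw [Pi.mul_apply, mul_comm]; exact hcc χ ω)]
      simp
    have : ∀ᵐ ω ∂μ, False := by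
      filter_upwards [k0, e2] with ω h1 h2
      rw [h1, e3, mul_one] at h2
      have h3 := hcc χ ω
      rw [← h2] at h3
      simp at h3
    exact this.exists.elim fun _ hh => hh
  obtain ⟨b, hb, hb0⟩ := hex
  refine ⟨_, μ[χc * b | lsig (_root_.flip 𝓐 j1) {l | l ≠ i0 ∧ l ≠ i1}], h.bdd_next hi1 hA hb,
    (hχ0.conj.mul' (hb.mono (h.le _ _))).condExp, hb0, ?_⟩
  exact key b (hsup i1 i0 hi1 (Or.inr ⟨rfl, rfl⟩) _ hb)

end Crest.Agent.R069
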