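import Crest.Agent.R069.Exact

/-! Replacing all slots by exact thin functions. -/

set_option autoImplicit false
open MeasureTheory Filter Topology
open scoped ENNReal ComplexConjugate

namespace Crest.Agent.R069
set_option linter.unusedSectionVars false

variable {L V A κ : Type} [AddCommGroup L] [Countable L] [Fintype V] [DecidableEq V]
  [MeasurableSpace A] [Fintype A] [Nonempty A] [DiscreteMeasurableSpace A]
  {v0 : V} {vec : V → L} {P : Measure (Gam L → A)} [IsProbabilityMeasure P]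
  {𝒰 : Ultrafilter κ} {b : κ → V → ℕ}

lemma Exact.congr {f g : (Gam L → A) → ℂ} (h : Exact P v0 vec f) (e : f =ᵐ[P] g) :
    Exact P v0 vec g := fun ty I m t h1 h2 h3 h4 => (h ty I m t h1 h2 h3 h4).congr e

lemma Exact.conj {f : (Gam L → A) → ℂ} (h : Exact P v0 vec f) :
    Exact P v0 vec (fun ω => conj (f ω)) := fun ty I m t h1 h2 h3 h4 =>
  (h ty I m t h1 h2 h3 h4).conj

lemma Exact.shift (hA : Arr v0 vec P 𝒰 b) {f : (Gam L → A) → ℂ} (h : Exact P v0 vec f) (n : ℤ) :
    Exact P v0 vec (fun ω => f (sh (tz L n) ω)) := fun ty I m t h1 h2 h3 h4 => by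
  simpa only [shS_tz_Oth] using (h ty I m t h1 h2 h3 h4).shift hA.inv (tz L n)

lemma thin_bd_prod (t : ℚ) (i : V) {F : V → (Gam L → A) → ℂ}
    (hF : ∀ l, Bd (cyl A (GamOn L ∅)) (F l)) :
    Bdd P MeasurableSpace.pi
      (fun ω => ∏ l ∈ Finset.univ.erase i, F l (sh (atq t (vec l - vec i)) ω)) :=
  (Bd.prod _ fun l _ => ((hF l).shift _).mono (cyl_le _)).bdd

lemma thin_bdd_Jop (t : ℚ) (i : V) {F : V → (Gam L → A) → ℂ}
    (hF : ∀ l, Bd (cyl A (GamOn L ∅)) (F l)) : Bdd P (cyl A (GamOn L ∅)) (Jop P vec t i F) :=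
  (thin_bd_prod t i hF).condExp

lemma thin_bd_update {F : V → (Gam L → A) → ℂ} (hF : ∀ l, Bd (cyl A (GamOn L ∅)) (F l)) (i : V)
    {g : (Gam L → A) → ℂ} (hg : Bd (cyl A (GamOn L ∅)) g) :
    ∀ l, Bd (cyl A (GamOn L ∅)) (Function.update F i g l) := by
  intro l
  by_cases hl : l = i
  · subst hl
    rwa [Function.update_self]
  · rw [Function.update_of_ne hl]
    exact hF l

/-- `Lam F = ∫ F i · Jop i F` (shift by `-atq t (vec i)`, pull-out) -/
lemma Arr.Lam_eq (h : Arr v0 vec P 𝒰 b) (t : ℚ) (i : V) {F : V → (Gam L → A) → ℂ}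
    (hF : ∀ l, Bd (cyl A (GamOn L ∅)) (F l)) :
    Lam P vec t F = ∫ ω, F i ω * Jop P vec t i F ω ∂P := by
  have h1 := integral_condExp_mul (cyl_le _) ((thin_bd_prod (P := P) (vec := vec) t i hF).integrable
    le_rfl) (hF i).bdd
  simp_rw [mul_comm (F i _)]
  rw [Jop, h1, Lam, ← integral_sh h.inv (-atq t (vec i))]
  refine integral_congr_ae (Eventually.of_forall fun ω => ?_)
  simp only [sh_sh, ← sub_eq_add_neg, ← atq_sub]
  rw [← Finset.prod_erase_mul _ _ (Finset.mem_univ i)]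
  simp

lemma Jop_update (t : ℚ) (i : V) (F : V → (Gam L → A) → ℂ) (g : (Gam L → A) → ℂ) :
    Jop P vec t i (Function.update F i g) = Jop P vec t i F := by
  unfold Jop
  congr 1
  funext ω
  exact Finset.prod_congr rfl fun l hl => by
    rw [Function.update_of_ne (Finset.ne_of_mem_erase hl)]

/-- one replacement step: an honest version `g` of `conj (Jop i F)` keeps `Lam ≠ 0` -/
lemma Arr.exists_replace (h : Arr v0 vec P 𝒰 b) (t : ℚ) (i : V) {F : V → (Gam L → A) → ℂ}
    (hF : ∀ l, Bd (cyl A (GamOn L ∅)) (F l)) (h0 : Lam P vec t F ≠ 0) :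
    ∃ g, Bd (cyl A (GamOn L ∅)) g ∧ (g =ᵐ[P] fun ω => conj (Jop P vec t i F ω)) ∧
      Lam P vec t (Function.update F i g) ≠ 0 := by
  have hJ := thin_bdd_Jop (P := P) (vec := vec) t i hF
  obtain ⟨g, hg, e⟩ := hJ.conj.exists_bd
  refine ⟨g, hg, e.symm, fun h1 => h0 ?_⟩
  rw [h.Lam_eq t i (thin_bd_update hF i hg), Jop_update, Function.update_self] at h1
  have h2 := ae_eq_zero_of_integral_mul_conj (hJ.mono (cyl_le _)) (by
    rw [← h1]
    exact integral_congr_ae (by filter_upwards [e] with ω hω using by rw [← hω, mul_comm]))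
  rw [h.Lam_eq t i hF, integral_congr_ae (g := fun _ => 0)
    (by filter_upwards [h2] with ω hω using by rw [hω]; simp), integral_zero]

/-- `top` with `j0 = v0`, `x = 0` -/
lemma Arr.integral_Jop_zero (h : Arr v0 vec P 𝒰 b) (t : ℚ) {F : V → (Gam L → A) → ℂ}
    (hF : ∀ l, Bd (cyl A (GamOn L ∅)) (F l)) {l : V} (hl : l ≠ v0) (h0 : ∫ ω, F l ω ∂P = 0) :
    ∫ ω, Jop P vec t v0 F ω ∂P = 0 := by
  have h1 := h.top t v0 0 (fun l ω => F l (sh (atq t (vec l + 0)) ω)) (fun l _ =>
    (((hF l).mono (cyl_mono (GamOn_mono (Set.empty_subset _)))).shift _).bdd)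
  rw [Jop, integral_condExp (cyl_le _), h.vec0]
  simp only [sub_zero, add_zero] at h1 ⊢
  rw [h1]
  exact Finset.prod_eq_zero (Finset.mem_erase.2 ⟨hl, Finset.mem_univ l⟩)
    (by rw [integral_sh h.inv, h0])

/-- first replace the slot `v0`, then the others one at a time (induction on a finset) -/
theorem Arr.exists_exact (h : Arr v0 vec P 𝒰 b) (t : ℚ) {g : V → (Gam L → A) → ℂ}
    (hg : ∀ l, Bd (cyl A (GamOn L ∅)) (g l)) {l : V} (hl : l ≠ v0) (h0 : ∫ ω, g l ω ∂P = 0)
    (hne : Lam P vec t g ≠ 0) :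
    ∃ f : V → (Gam L → A) → ℂ, (∀ i, Bd (cyl A (GamOn L ∅)) (f i)) ∧
      (∀ i, Exact P v0 vec (f i)) ∧ ∫ ω, f v0 ω ∂P = 0 ∧ Lam P vec t f ≠ 0 := by
  have key : ∀ s : Finset V, ∃ f : V → (Gam L → A) → ℂ, (∀ i, Bd (cyl A (GamOn L ∅)) (f i)) ∧
      Exact P v0 vec (f v0) ∧ (∀ i ∈ s, Exact P v0 vec (f i)) ∧ ∫ ω, f v0 ω ∂P = 0 ∧
      Lam P vec t f ≠ 0 := by
    intro s
    induction s using Finset.induction_on with
    | empty =>
      obtain ⟨g0, h1, h2, h3⟩ := h.exists_replace t v0 hg hne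
      refine ⟨Function.update g v0 g0, thin_bd_update hg v0 h1, ?_, by simp, ?_, h3⟩
      · rw [Function.update_self]
        exact (h.exact_Jop_zero t hg).conj.congr h2.symm
      · rw [Function.update_self, integral_congr_ae h2, integral_conj,
          h.integral_Jop_zero t hg hl h0, map_zero]
    | insert i s _ ih =>
      obtain ⟨f, f1, f2, f3, f4, f5⟩ := ih
      by_cases hi : i = v0
      · refine ⟨f, f1, f2, fun j hj => ?_, f4, f5⟩
        rcases Finset.mem_insert.1 hj with rfl | hj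
        · rwa [hi]
        · exact f3 j hj
      · obtain ⟨g0, h1, h2, h3⟩ := h.exists_replace t i f1 f5
        refine ⟨Function.update f i g0, thin_bd_update f1 i h1, ?_, fun j hj => ?_, ?_, h3⟩
        · rwa [Function.update_of_ne (Ne.symm hi)]
        · by_cases hji : j = i
          · subst hji
            rw [Function.update_self]
            exact (h.exact_Jop t hi f1 f2).conj.congr h2.symm
          · rw [Function.update_of_ne hji]
            exact f3 j ((Finset.mem_insert.1 hj).resolve_left hji)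
        · rwa [Function.update_of_ne (Ne.symm hi)]
  obtain ⟨f, f1, -, f3, f4, f5⟩ := key Finset.univ
  exact ⟨f, f1, fun i => f3 i (Finset.mem_univ i), f4, f5⟩

end Crest.Agent.R069
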