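import Crest.Agent.R069.Ins
import Crest.Agent.R069.Fib
import Crest.Agent.R069.Grid
import Crest.Agent.R069.Thin

/-! Grids in the fibres. -/

set_option autoImplicit false
open MeasureTheory Filter Topology
open scoped ENNReal ComplexConjugate

namespace Crest.Agent.R069
set_option linter.unusedSectionVars false

variable {L V A κ : Type} [AddCommGroup L] [Countable L] [Fintype V] [DecidableEq V]
  [MeasurableSpace A] [Fintype A] [Nonempty A] [DiscreteMeasurableSpace A]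
  {v0 : V} {vec : V → L} {P : Measure (Gam L → A)} [IsProbabilityMeasure P]
  {𝒰 : Ultrafilter κ} {b : κ → V → ℕ}
  {ty : ℚ → V × V} {I I' : Set ℚ} {s s' : ℚ} {kk : (Gam L → A) → Measure (Gam L → A)}

lemma GA_flip (vec : V → L) (I : Set ℚ) (s s' : ℚ) :
    flip (GA A vec I s s') = GA A vec I s' s := by
  funext j i
  show cyl A _ = cyl A _
  rw [add_comm]

lemma GA_col (h0 : vec v0 = 0) (I : Set ℚ) (s s' : ℚ) : GA A vec I s s' v0 = Line A vec I s' := by
  funext j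
  show cyl A _ = cyl A _
  rw [h0, atq_zero, zero_add]

lemma GA_row (h0 : vec v0 = 0) (I : Set ℚ) (s s' : ℚ) :
    flip (GA A vec I s s') v0 = Line A vec I s := by
  rw [GA_flip, GA_col h0]

lemma Line_zero (h0 : vec v0 = 0) (I : Set ℚ) (s : ℚ) :
    Line A vec I s v0 = cyl A (GamOn L I) := by
  show cyl A _ = cyl A _
  rw [h0, atq_zero, shS_zero]

lemma Line_mono (hI : I ⊆ I') (s : ℚ) (v : V) : Line A vec I s v ≤ Line A vec I' s v :=
  cyl_mono (shS_mono _ (GamOn_mono hI))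

lemma Line_le (I : Set ℚ) (s : ℚ) (v : V) : Line A vec I s v ≤ cyl A (GamOn L (I ∪ {s})) :=
  cyl_mono (shS_GamOn_subset (atq_mem_GamOn (by simp) _) Set.subset_union_left)

lemma measurable_sh_tz_Line (n : ℤ) (I : Set ℚ) (s : ℚ) (v : V) :
    @Measurable _ _ (Line A vec I s v) (Line A vec I s v) (sh (tz L n)) := by
  have := measurable_sh_cyl (A := A) (tz L n) (shS (atq s (vec v)) (GamOn L I))
  rwa [shS_tz_shS_GamOn] at this

theorem Arr.nrow_fib (h : Arr v0 vec P 𝒰 b) (hI : I ⊆ I') (hd : TDense ty I) (hs : s ∉ I')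
    (hs' : s' ∉ I') (hss : s ≠ s') (hk : Fib P (Env vec ty I' {s, s'}) kk) :
    ∀ᵐ ω ∂P, NRow (kk ω) (GA A vec I s s') := by
  unfold NRow
  simp only [ae_all_iff, gsig_cyl]
  intro j j0 hj J
  exact hk.ci (Set.biUnion_subset_biUnion_left fun p hp => Or.inl hp.1)
    (h.nrow_env hI hd hs hs' hss hj J)

theorem Arr.grid_fib (h : Arr v0 vec P 𝒰 b) (hI : I ⊆ I') (hd : TDense ty I) (hs : s ∉ I')
    (hs' : s' ∉ I') (hss : s ≠ s') (hk : Fib P (Env vec ty I' {s, s'}) kk) :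
    ∀ᵐ ω ∂P, Grid (kk ω) (GA A vec I s s') := by
  have h1 := h.nrow_fib hI hd hs hs' hss hk
  have h2 := h.nrow_fib hI hd hs' hs hss.symm (by rwa [Set.pair_comm])
  filter_upwards [h1, h2] with ω h1 h2
  exact ⟨fun _ _ => cyl_le _, h.card, h.card, h1, by rwa [GA_flip]⟩

theorem Exact.fib {f : (Gam L → A) → ℂ} (hf : Exact P v0 vec f) (hI : I ⊆ I') (hd : TDense ty I)
    (hs : s ∉ I') {S : Set ℚ} (hS : s ∈ S) (hk : Fib P (Env vec ty I' S) kk) :
    ∀ᵐ ω ∂P, Bdd (kk ω) (lsig (Line A vec I s) {l | l ≠ v0}) f := by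
  have := hf ty I s (s + 1) (by linarith) (fun h => hs (hI h)) (hd _) (hd _)
  simp only [lsig_cyl]
  refine hk.exact (this.mono (cyl_mono (Set.union_subset_union ?_ (Env_mono hI (by simpa)))))
  rintro γ ⟨_, ⟨v, hv, rfl⟩, hγ⟩
  exact Set.mem_biUnion (show v ∈ {l | l ≠ v0} from hv) hγ

/-- on a.e. fibre an exact thin function is in the span of the bi-characters -/
theorem Arr.inSpan_fib (h : Arr v0 vec P 𝒰 b) (hI : I ⊆ I') (hd : TDense ty I) (hs : s ∉ I')
    (hs' : s' ∉ I') (hss : s ≠ s') (hk : Fib P (Env vec ty I' {s, s'}) kk)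
    {f : (Gam L → A) → ℂ} (hf0 : Bd (cyl A (GamOn L ∅)) f) (hf : Exact P v0 vec f) :
    ∀ᵐ ω ∂P, InSpan (kk ω) ((charSub (kk ω) (Line A vec I s') v0 : Set _) ∩
      charSub (kk ω) (Line A vec I s) v0) f := by
  filter_upwards [h.grid_fib hI hd hs hs' hss hk, hf.fib hI hd hs (by simp) hk,
    hf.fib hI hd hs' (by simp) hk] with ω h1 h2 h3
  have := hk.prob ω
  have := h1.inSpan v0 v0 (F := f)
  rw [GA_row h.vec0, GA_col h.vec0, Line_zero h.vec0] at this
  exact this (hf0.mono (cyl_mono (GamOn_mono (Set.empty_subset _)))).bdd h3 h2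

theorem Arr.free_fib (h : Arr v0 vec P 𝒰 b) (hI : I ⊆ I') (hd : TDense ty I) (hs : s ∉ I')
    (hs' : s' ∉ I') (hss : s ≠ s') (hk : Fib P (Env vec ty I' {s, s'}) kk) :
    ∀ᵐ ω ∂P, Free (kk ω) (Line A vec I s) ∧ Free (kk ω) (Line A vec I s') := by
  filter_upwards [h.grid_fib hI hd hs hs' hss hk] with ω h1
  have := hk.prob ω
  exact ⟨GA_row (A := A) h.vec0 I s s' ▸ h1.free_row v0, GA_col (A := A) h.vec0 I s s' ▸ h1.free_col v0⟩

end Crest.Agent.R069
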