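import Crest.Agent.R069.GridBasic
import Crest.Agent.R069.Eig

/-! The extended operators `Next`. -/

set_option autoImplicit false
open MeasureTheory Filter Topology
open scoped ENNReal ComplexConjugate

namespace Crest.Agent.R069
set_option linter.unusedSectionVars false

variable {Ω α β : Type*} [Fintype α] [Fintype β] {𝓐 : α → β → MeasurableSpace Ω}
  {m0 : MeasurableSpace Ω} {μ : Measure Ω} [IsProbabilityMeasure μ]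
  {i0 i1 : α} {j1 jx : β} {a a' : Ω → ℂ}

lemma Adm.bdd_a {ι : Type*} [Fintype ι] {𝓑 : ι → MeasurableSpace Ω} {m0 : MeasurableSpace Ω}
    {μ : Measure Ω} [IsProbabilityMeasure μ] {j1 jx : ι} {a a' : Ω → ℂ} (h : Free μ 𝓑)
    (hA : Adm μ 𝓑 j1 jx a a') : Bdd μ m0 a := by
  obtain ⟨j', -, -, h3⟩ := hA.ha
  exact h3.mono (h.lsig_le _)

lemma isOp_Next (h : Grid μ 𝓐) (ha : Bdd μ m0 a) (ha' : Bdd μ m0 a') :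
    IsOp μ (Next μ 𝓐 i0 i1 j1 jx a a') :=
  (IsOp.condExp (h.gsig_le _)).comp ((IsOp.mul ha).comp
    ((IsOp.condExp (h.gsig_le _)).comp (IsOp.mul ha')))

lemma gridop_gsig_single {Ω α β : Type*} (𝓐 : α → β → MeasurableSpace Ω) (i : α) (j : β) :
    gsig 𝓐 {p | p.1 ∈ ({i} : Set α) ∧ p.2 = j} = 𝓐 i j :=
  le_antisymm (gsig_le fun _ _ h => by obtain ⟨rfl, rfl⟩ := h; exact le_rfl)
    (le_gsig 𝓐 (i := i) (j := j) ⟨rfl, rfl⟩)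

/-- (X1).  Let `𝒢` be the inner σ-algebra of `Next`, `Z = lsig (𝓐 i0) {l ≠ j1, jx} ≤ 𝒢`.
`𝓐 i0 jx` is independent of `𝒢` (`nr` for row `jx` with `j0 = j1`, `J = {i ≠ i0, i1}`, and
`free_row`), `a' G` is `𝓐 i0 jx ⊔ Z`-measurable mod null (exactness), so `Ind.ci_sup` gives
`E[a'G|𝒢] = E[a'G|Z]`.  The outer step is `nr` for row `j1` with `J = {i0}` (symmetric form). -/
lemma XGrid.next_eq_nop (h : XGrid μ 𝓐) (hi : i1 ≠ i0) (hA : Adm μ (𝓐 i0) j1 jx a a')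
    {G : Ω → ℂ} (hG : Bdd μ (𝓐 i0 j1) G) :
    Next μ 𝓐 i0 i1 j1 jx a a' G =ᵐ[μ] Nop μ (𝓐 i0) j1 jx a a' G := by
  have hg := h.toGrid
  have hne := hA.ne
  have hZle : lsig (𝓐 i0) {l | l ≠ j1 ∧ l ≠ jx} ≤
      gsig 𝓐 {p | (p.2 = j1 ∧ p.1 ≠ i0 ∧ p.1 ≠ i1) ∨ (p.2 ≠ j1 ∧ p.2 ≠ jx)} :=
    lsig_le fun l hl => le_gsig 𝓐 (i := i0) (j := l) (Or.inr hl)
  have hZ0 := (hg.free_col i0).lsig_le {l | l ≠ j1 ∧ l ≠ jx}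
  have hind : Ind μ (𝓐 i0 jx)
      (gsig 𝓐 {p | (p.2 = j1 ∧ p.1 ≠ i0 ∧ p.1 ≠ i1) ∨ (p.2 ≠ j1 ∧ p.2 ≠ jx)}) := by
    intro U H hU hH
    have h1 := hg.nr jx j1 hne {i | i ≠ i0 ∧ i ≠ i1} U H
      (hU.mono (le_gsig 𝓐 (i := i0) (j := jx) rfl))
      (hH.mono (gsig_mono 𝓐 fun p hp => hp.elim (fun h => Or.inl h.2) fun h => Or.inr ⟨h.2, h.1⟩))
    have h2 := ((hg.free_row jx).ind i0 i1 hi.symm).condExp_eq (hg.le i0 jx)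
      ((hg.free_row jx).lsig_le _) hU
    rw [lsig_row] at h2
    rw [h1, ← integral_const_mul]
    exact integral_congr_ae (by filter_upwards [h2] with ω hω using by rw [hω])
  have haG : Bdd μ (𝓐 i0 jx ⊔ lsig (𝓐 i0) {l | l ≠ j1 ∧ l ≠ jx}) (a' * G) := by
    refine (hA.ha'.mono le_sup_left).mul' ?_
    rw [← lsig_ne_eq (𝓐 i0) hne]
    exact (h.exc i0 j1).bdd hG
  have e1 := (hind.ci_sup (hg.le i0 jx) (hg.gsig_le _) hZle).condExp_eq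
    (sup_le (hg.le i0 jx) hZ0) (hg.gsig_le _) hZle haG
  obtain ⟨j', -, -, ha⟩ := hA.ha
  have hW : Bdd μ (gsig 𝓐 {p | p.1 ∈ ({i0} : Set α) ∨ (p.2 ≠ j1 ∧ p.2 ≠ jx)})
      (a * μ[a' * G | lsig (𝓐 i0) {l | l ≠ j1 ∧ l ≠ jx}]) :=
    (ha.mono (lsig_le fun l _ => le_gsig 𝓐 (i := i0) (j := l) (Or.inl rfl))).mul'
      (haG.condExp.mono (lsig_le fun l _ => le_gsig 𝓐 (i := i0) (j := l) (Or.inl rfl)))
  have e2 := ((hg.nr j1 jx hne.symm {i0}).symm (hg.gsig_le _) (hg.gsig_le _)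
    (hg.gsig_le _)).condExp_eq (hg.gsig_le _) (hg.gsig_le _) (gsig_mono 𝓐 fun _ hp => hp.2) hW
  rw [gridop_gsig_single] at e2
  refine (condExp_congr_ae ?_).trans e2
  filter_upwards [e1] with ω hω
  simp only [Pi.mul_apply] at hω ⊢
  rw [hω]

/-- (X2).  Let `J = {i ≠ i0, i1}`, `Z1 = lsig (𝓐 i1) {l ≠ j1, jx}`.  `a' G` is measurable mod null
for `row jx ⊔ Z1`; by column exactness `𝒢` contains all of the columns in `J` mod null, so `nr`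
(row `jx`, `j0 = j1`, `CI.sup` with `z = Z1`) shows that `E[a'G|𝒢]` is measurable mod null for
`𝓐(J × jx) ⊔ Z1`.  So `a E[a'G|𝒢]` is measurable for column `i1` and rows `∉ {j1, j'}`, and
`nr` (row `j1`, `j0 = j'`, `J = {i1}`) finishes. -/
lemma XGrid.bdd_next (h : XGrid μ 𝓐) (hi : i1 ≠ i0) (hA : Adm μ (𝓐 i0) j1 jx a a')
    {G : Ω → ℂ} (hG : Bdd μ (𝓐 i1 j1) G) :
    Bdd μ (𝓐 i1 j1) (Next μ 𝓐 i0 i1 j1 jx a a' G) := by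
  have hg := h.toGrid
  have hne := hA.ne
  have hZle : lsig (𝓐 i1) {l | l ≠ j1 ∧ l ≠ jx} ≤
      gsig 𝓐 {p | p.1 ∈ {i | i ≠ i0 ∧ i ≠ i1} ∨ (p.2 ≠ jx ∧ p.2 ≠ j1)} :=
    lsig_le fun l hl => le_gsig 𝓐 (i := i1) (j := l) (Or.inr ⟨hl.2, hl.1⟩)
  have hZ0 := (hg.free_col i1).lsig_le {l | l ≠ j1 ∧ l ≠ jx}
  have hMle : gsig 𝓐 {p | p.1 ∈ {i | i ≠ i0 ∧ i ≠ i1} ∧ p.2 = jx} ≤
      gsig 𝓐 {p | p.1 ∈ {i | i ≠ i0 ∧ i ≠ i1} ∨ (p.2 ≠ jx ∧ p.2 ≠ j1)} :=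
    gsig_mono 𝓐 fun _ hp => Or.inl hp.1
  have haG : Bdd μ (gsig 𝓐 {p | p.2 = jx} ⊔ lsig (𝓐 i1) {l | l ≠ j1 ∧ l ≠ jx}) (a' * G) := by
    refine Bdd.mul' (hA.ha'.mono (le_sup_of_le_left (le_gsig 𝓐 (i := i0) (j := jx) rfl))) ?_
    refine ((h.exc i1 j1).bdd hG).mono ?_
    rw [lsig_ne_eq (𝓐 i1) hne]
    exact sup_le_sup_right (le_gsig 𝓐 (S := {p | p.2 = jx}) (i := i1) (j := jx) rfl) _
  have e1 := ((hg.nr jx j1 hne {i | i ≠ i0 ∧ i ≠ i1}).sup (hg.gsig_le _) (hg.gsig_le _) hMle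
    hZle).condExp_eq (sup_le (hg.gsig_le _) hZ0) (hg.gsig_le _) (sup_le hMle hZle) haG
  have e0 : μ[a' * G | gsig 𝓐 {p | (p.2 = j1 ∧ p.1 ≠ i0 ∧ p.1 ≠ i1) ∨ (p.2 ≠ j1 ∧ p.2 ≠ jx)}] =ᵐ[μ]
      μ[a' * G | gsig 𝓐 {p | p.1 ∈ {i | i ≠ i0 ∧ i ≠ i1} ∨ (p.2 ≠ jx ∧ p.2 ≠ j1)}] := by
    refine condExp_congr_sle (hg.gsig_le _) (hg.gsig_le _) (Sle.of_le (gsig_mono 𝓐 fun p hp =>
      hp.elim (fun h => Or.inl h.2) fun h => Or.inr ⟨h.2, h.1⟩)) (Sle.gsig ?_)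
      (haG.mono (sup_le (hg.gsig_le _) hZ0))
    have key : ∀ i j, i ≠ i0 ∧ i ≠ i1 → j ≠ jx → 𝓐 i j ≤
        gsig 𝓐 {p | (p.2 = j1 ∧ p.1 ≠ i0 ∧ p.1 ≠ i1) ∨ (p.2 ≠ j1 ∧ p.2 ≠ jx)} := by
      intro i j h1 h2
      refine le_gsig 𝓐 (i := i) (j := j) ?_
      by_cases hj : j = j1
      · exact Or.inl ⟨hj, h1⟩
      · exact Or.inr ⟨hj, h2⟩
    rintro ⟨i, j⟩ (hp | hp)
    · by_cases hj : j = jx
      · subst hj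
        exact (h.exc i j).mono_right (lsig_le fun l hl => key i l hp hl)
      · exact Sle.of_le (key i j hp hj)
    · exact Sle.of_le (le_gsig 𝓐 (i := i) (j := j) (Or.inr ⟨hp.2, hp.1⟩))
  obtain ⟨j', hj1, hj2, ha⟩ := hA.ha
  have hE : Bdd μ (gsig 𝓐 {p | p.1 ∈ ({i1} : Set α) ∨ (p.2 ≠ j1 ∧ p.2 ≠ j')})
      (μ[a' * G | gsig 𝓐 {p | (p.2 = j1 ∧ p.1 ≠ i0 ∧ p.1 ≠ i1) ∨ (p.2 ≠ j1 ∧ p.2 ≠ jx)}]) := by
    refine (haG.condExp.mono (sup_le (gsig_mono 𝓐 ?_) ?_)).congr (e0.trans e1).symm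
    · rintro ⟨i, j⟩ ⟨-, hp⟩
      obtain rfl : j = jx := hp
      exact Or.inr ⟨hne, hj2.symm⟩
    · exact lsig_le fun l _ => le_gsig 𝓐 (i := i1) (j := l) (Or.inl rfl)
  have hW := (ha.mono (lsig_le fun l hl => le_gsig 𝓐 (i := i0) (j := l) (Or.inr hl))).mul' hE
  have e2 := ((hg.nr j1 j' hj1.symm {i1}).symm (hg.gsig_le _) (hg.gsig_le _)
    (hg.gsig_le _)).condExp_eq (hg.gsig_le _) (hg.gsig_le _) (gsig_mono 𝓐 fun _ hp => hp.2) hW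
  rw [gridop_gsig_single] at e2
  exact hW.condExp.congr e2.symm

/-- (X3): pull-out -/
lemma Grid.next_mul (h : Grid μ 𝓐) (ha : Bdd μ m0 a) (ha' : Bdd μ m0 a') {w G : Ω → ℂ}
    (hw : Bdd μ (lsig (_root_.flip 𝓐 j1) {i | i ≠ i0 ∧ i ≠ i1}) w) (hG : Bdd μ m0 G) :
    Next μ 𝓐 i0 i1 j1 jx a a' (w * G) =ᵐ[μ] w * Next μ 𝓐 i0 i1 j1 jx a a' G := by
  rw [lsig_row] at hw
  have h1 : Bdd μ (gsig 𝓐 {p | (p.2 = j1 ∧ p.1 ≠ i0 ∧ p.1 ≠ i1) ∨ (p.2 ≠ j1 ∧ p.2 ≠ jx)}) w :=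
    hw.mono (gsig_mono 𝓐 fun _ hp => Or.inl ⟨hp.2, hp.1⟩)
  have h2 : Bdd μ (gsig 𝓐 {p | p.2 = j1}) w := hw.mono (gsig_mono 𝓐 fun _ hp => hp.2)
  have e1 := condExp_mul_left' (h.gsig_le _) h1 ((ha'.mul' hG).integrable le_rfl)
  have e2 := condExp_mul_left' (h.gsig_le _) h2 ((ha.mul' (((ha'.mul' hG).condExp (m := gsig 𝓐
    {p | (p.2 = j1 ∧ p.1 ≠ i0 ∧ p.1 ≠ i1) ∨ (p.2 ≠ j1 ∧ p.2 ≠ jx)})).mono
      (h.gsig_le _))).integrable le_rfl)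
  refine (condExp_congr_ae ?_).trans e2
  rw [mul_left_comm a' w G]
  filter_upwards [e1] with ω hω
  simp only [Pi.mul_apply] at hω ⊢
  rw [hω]; ring

end Crest.Agent.R069
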