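import Crest.Agent.R069.CN

/-! Instances of the constant norm lemma. -/

set_option autoImplicit false
open MeasureTheory Filter Topology
open scoped ENNReal ComplexConjugate

namespace Crest.Agent.R069
set_option linter.unusedSectionVars false

variable {L V A κ : Type} [AddCommGroup L] [Countable L] [Fintype V] [DecidableEq V]
  [MeasurableSpace A] [Fintype A] [Nonempty A] [DiscreteMeasurableSpace A]
  {v0 : V} {vec : V → L} {P : Measure (Gam L → A)} [IsProbabilityMeasure P]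
  {𝒰 : Ultrafilter κ} {b : κ → V → ℕ}
  {ty : ℚ → V × V}

lemma ins_sub_atq_mem_Env {J S : Set ℚ} {t : ℚ} (ht : t ∉ J) (ht' : t ∈ S) (x : L) {γ : Gam L}
    (hγ : γ ∈ Env vec ty J S) : γ - atq t x ∈ Env vec ty J S := by
  obtain ⟨h1, r, hr, l, h2, h3, h4, h5⟩ := hγ
  have hrt : t ≠ r := fun e => ht (e ▸ hr)
  exact ⟨sub_mem_GamOn h1 (atq_mem_GamOn (Or.inr ht') x), r, hr, l, h2, h3, h4,
    by simpa [Finsupp.single_eq_of_ne' hrt] using h5⟩

/-- unshifted form of `Arr.ins`: move the scale `t` to a point `r ∈ J` of type `(j, j0)`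
immediately below `t` (`exists_scales`, `exists_move` with `Mv = {t}`). -/
theorem Arr.ins0 (h : Arr v0 vec P 𝒰 b) {J J' S : Set ℚ} {t : ℚ} (hJ : J ⊆ J') (ht : t ∉ J')
    (ht' : t ∉ S) (hd : DenseBelow ty J t) {B : Set (Gam L)} (hB : B ⊆ GamOn L S) {j j0 : V}
    (hj : j ≠ j0) :
    CI P (cyl A (GamOn L (J' ∪ S))) (cyl A (Vert J B ∪ Env vec ty J' S))
      (cyl A (Vert (insert t J) B ∪
        (⋃ l ∈ {l | l ≠ j ∧ l ≠ j0}, shS (atq t (vec l - vec j)) (GamOn L (J' ∪ S))) ∪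
        Env vec ty J' (insert t S))) := by
  classical
  refine h.cn ?_ fun R0 S0 hR0 hS0 => ?_
  · rintro γ (⟨c, hc, hγ⟩ | hγ)
    · exact Or.inl (Or.inl ⟨c, hc, GamOn_mono (Set.subset_insert _ _) hγ⟩)
    · exact Or.inr (Env_mono subset_rfl (Set.subset_insert _ _) hγ)
  obtain ⟨K, hK, -⟩ := exists_scales (R0 ∪ S0)
  obtain ⟨φ, hφ, hfix, htgt, hnot⟩ := exists_move K {t} (fun _ => {r | r ∈ J ∧ ty r = (j, j0)})
    (by
      rintro q rfl a ha
      obtain ⟨r, h1, h2, h3, h4⟩ := hd (j, j0) a ha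
      exact ⟨r, ⟨h1, h4⟩, h2, h3⟩)
  have hfix' : ∀ q, q ≠ t → φ q = q := fun q hq => hfix q hq
  obtain ⟨hrJ, hrty⟩ := htgt t rfl
  have hrK := hnot t rfl
  have hS : ∀ q ∈ S, φ q = q := fun q hq => hfix' q fun e => ht' (e ▸ hq)
  have hJ' : ∀ q ∈ J', φ q = q := fun q hq => hfix' q fun e => ht (e ▸ hq)
  have hJS : ∀ q ∈ J' ∪ S, φ q = q := fun q hq => hq.elim (hJ' q) (hS q)
  have hKS : ∀ γ ∈ S0, γ ∈ GamOn L K := fun γ hγ => hK γ (Finset.mem_union_right _ hγ)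
  refine ⟨K, φ, hφ, fun γ hγ => hK γ (Finset.mem_union_left _ hγ), hKS,
    fun γ hγ => push_eq_self (hR0 hγ) hJS, fun γ hγ => ?_⟩
  rcases hS0 hγ with (⟨c, hc, hγ'⟩ | hγ') | hγ'
  · refine Or.inl ⟨c, hc, ?_⟩
    rw [← push_eq_self (hB hc) hS, ← push_sub]
    refine push_mem_GamOn hγ' ?_
    rintro q (rfl | hq)
    · exact hrJ
    · rwa [hJ' q (hJ hq)]
  · simp only [Set.mem_iUnion] at hγ'
    obtain ⟨l, ⟨hl, hl0⟩, hγ'⟩ := hγ'
    rw [mem_shS] at hγ'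
    have e : push φ γ = (γ - atq t (vec l - vec j)) + atq (φ t) (vec l - vec j) := by
      conv_lhs => rw [← sub_add_cancel γ (atq t (vec l - vec j)), push_add, push_atq,
        push_eq_self hγ' hJS]
    have hrt : t ≠ φ t := fun e => ht (e ▸ hJ hrJ)
    refine Or.inr ⟨?_, φ t, hJ hrJ, l, ?_, ?_, ?_, ?_⟩
    · rw [e]
      exact add_mem_GamOn hγ' (atq_mem_GamOn (Or.inl (hJ hrJ)) _)
    · rw [hrty]; exact hj
    · rw [hrty]; exact hl
    · rw [hrty]; exact hl0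
    · rw [e, hrty]
      simp [mem_GamOn'.1 (hKS γ hγ) (φ t) hrK, Finsupp.single_eq_of_ne' hrt]
  · obtain ⟨h1, r, hr, l, h2, h3, h4, h5⟩ := hγ'
    refine Or.inr ⟨push_mem_GamOn h1 ?_, r, hr, l, h2, h3, h4, ?_⟩
    · rintro q (hq | rfl | hq)
      · rw [hJ' q hq]; exact Or.inl hq
      · exact Or.inl (hJ hrJ)
      · rw [hS q hq]; exact Or.inr hq
    · have hrK' : r ∈ (K : Set ℚ) := hKS γ hγ r (by
        rw [h5]; exact sub_ne_zero.2 fun e => h3 (h.inj e))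
      have := push_apply (hKS γ hγ) hφ.injOn hrK'
      rwa [hJ' r hr, h5] at this

/-- insertion of the scale `t` (`CI.shift` of `ins0` by `atq t (vec j)`, `shS_Env`) -/
theorem Arr.ins (h : Arr v0 vec P 𝒰 b) {J J' S : Set ℚ} {t : ℚ} (hJ : J ⊆ J') (ht : t ∉ J')
    (ht' : t ∉ S) (hd : DenseBelow ty J t) {B : Set (Gam L)} (hB : B ⊆ GamOn L S) {j j0 : V}
    (hj : j ≠ j0) :
    CI P (cyl A (shS (atq t (vec j)) (GamOn L (J' ∪ S))))
      (cyl A (shS (atq t (vec j)) (Vert J B ∪ Env vec ty J' S)))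
      (cyl A (Vert (insert t J) B ∪
        (⋃ l ∈ {l | l ≠ j ∧ l ≠ j0}, shS (atq t (vec l)) (GamOn L (J' ∪ S))) ∪
        shS (atq t (vec j)) (Env vec ty J' S) ∪ Env vec ty J' (insert t S))) := by
  refine ((h.ins0 hJ ht ht' hd hB hj).shift h.inv (atq t (vec j))).mono le_rfl (cyl_mono ?_)
  rintro γ (((⟨c, hc, hγ⟩ | hγ) | hγ) | hγ)
  · refine Or.inl (Or.inl ⟨c, hc, ?_⟩)
    rw [sub_right_comm]
    exact sub_mem_GamOn hγ (atq_mem_GamOn (Set.mem_insert _ _) _)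
  · simp only [Set.mem_iUnion] at hγ
    obtain ⟨l, hl, hγ⟩ := hγ
    refine Or.inl (Or.inr ?_)
    simp only [Set.mem_iUnion]
    refine ⟨l, hl, ?_⟩
    rw [mem_shS] at hγ ⊢
    rwa [atq_sub, sub_sub, add_sub_cancel]
  · exact Or.inr (Env_mono subset_rfl (Set.subset_insert _ _) hγ)
  · exact Or.inr (ins_sub_atq_mem_Env ht (Set.mem_insert _ _) _ hγ)

/-- locality of the environment (`exists_move` with `Mv = (J ∪ S)ᶜ`,
`tgt q = {r ∈ J | ty r = ty q}`) -/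
theorem Arr.loc (h : Arr v0 vec P 𝒰 b) {J J' S S' : Set ℚ} (hJ : J ⊆ J') (hS : S ⊆ S')
    (hd : TDense ty J) (hdis : Disjoint J' S) :
    CI P (cyl A (GamOn L (J ∪ S))) (cyl A (Env vec ty J S)) (cyl A (Env vec ty J' S')) := by
  classical
  refine h.cn (Env_mono hJ hS) fun R0 S0 hR0 hS0 => ?_
  obtain ⟨K, hK, -⟩ := exists_scales (R0 ∪ S0)
  obtain ⟨φ, hφ, hfix, htgt, -⟩ := exists_move K (J ∪ S)ᶜ (fun q => {r | r ∈ J ∧ ty r = ty q})
    (by
      intro q _ a ha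
      obtain ⟨r, h1, h2, h3, h4⟩ := hd q (ty q) a ha
      exact ⟨r, ⟨h1, h4⟩, h2, h3⟩)
  have hfix' : ∀ q ∈ J ∪ S, φ q = q := fun q hq => hfix q fun e => e hq
  have hKS : ∀ γ ∈ S0, γ ∈ GamOn L K := fun γ hγ => hK γ (Finset.mem_union_right _ hγ)
  refine ⟨K, φ, hφ, fun γ hγ => hK γ (Finset.mem_union_left _ hγ), hKS,
    fun γ hγ => push_eq_self (hR0 hγ) hfix', fun γ hγ => ?_⟩
  obtain ⟨h1, r, hr, l, h2, h3, h4, h5⟩ := hS0 hγ
  have hr' : φ r ∈ J ∧ ty (φ r) = ty r := by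
    by_cases e : r ∈ J ∪ S
    · rw [hfix' r e]
      exact ⟨e.resolve_right (Set.disjoint_left.1 hdis hr), rfl⟩
    · exact htgt r e
  have hrK' : r ∈ (K : Set ℚ) := hKS γ hγ r (by
    rw [h5]; exact sub_ne_zero.2 fun e => h3 (h.inj e))
  refine ⟨push_mem_GamOn h1 fun q _ => ?_, φ r, hr'.1, l, ?_, ?_, ?_, ?_⟩
  · by_cases e : q ∈ J ∪ S
    · rwa [hfix' q e]
    · exact Or.inl (htgt q e).1
  · rwa [hr'.2]
  · rwa [hr'.2]
  · rwa [hr'.2]
  · rw [push_apply (hKS γ hγ) hφ.injOn hrK', hr'.2, h5]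

/-- the row property of the grid `(I; s, s')` relative to the environment of `I' ⊇ I`
(`ins` with `t = s'`, `S = {s}`, `B = {atq s (vec i) | i ∈ J}`, then `CI.mono`, `CI.mid`) -/
theorem Arr.nrow_env (h : Arr v0 vec P 𝒰 b) {I I' : Set ℚ} {s s' : ℚ} (hI : I ⊆ I')
    (hd : TDense ty I) (hs : s ∉ I') (hs' : s' ∉ I') (hss : s ≠ s') {j j0 : V} (hj : j ≠ j0)
    (J : Set V) :
    CI P (cyl A (⋃ p ∈ {p : V × V | p.2 = j},
        shS (atq s (vec p.1) + atq s' (vec p.2)) (GamOn L I)))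
      (cyl A ((⋃ p ∈ {p : V × V | p.1 ∈ J ∧ p.2 = j},
        shS (atq s (vec p.1) + atq s' (vec p.2)) (GamOn L I)) ∪ Env vec ty I' {s, s'}))
      (cyl A ((⋃ p ∈ {p : V × V | p.1 ∈ J ∨ (p.2 ≠ j ∧ p.2 ≠ j0)},
        shS (atq s (vec p.1) + atq s' (vec p.2)) (GamOn L I)) ∪ Env vec ty I' {s, s'})) := by
  have h0 := h.ins (ty := ty) (J := I) (J' := I') (S := {s}) (t := s') hI hs' (fun e => hss e.symm)
    (hd s') (B := {c | ∃ i ∈ J, c = atq s (vec i)})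
    (by rintro _ ⟨i, -, rfl⟩; exact atq_mem_GamOn (Set.mem_singleton s) (vec i)) hj
  refine CI.mid (cyl_le _) (cyl_le _) (cyl_mono ?_) (cyl_mono ?_)
    (h0.mono (cyl_mono ?_) (cyl_mono ?_))
  · rintro γ (⟨_, ⟨i, hi, rfl⟩, hγ⟩ | hγ)
    · refine Or.inl ?_
      simp only [Set.mem_iUnion]
      refine ⟨(i, j), ⟨hi, rfl⟩, ?_⟩
      rwa [mem_shS, add_comm, ← sub_sub]
    · refine Or.inr ?_
      have h1 : γ - atq s' (vec j) ∈ Env vec ty I' {s, s'} :=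
        Env_mono subset_rfl (by simp) hγ
      have h2 := ins_sub_atq_mem_Env hs' (Or.inr rfl) (-vec j) h1
      rwa [atq_neg, sub_neg_eq_add, sub_add_cancel] at h2
  · refine Set.union_subset_union_left _ (Set.biUnion_subset_biUnion_left ?_)
    exact fun p hp => Or.inl hp.1
  · intro γ hγ
    simp only [Set.mem_iUnion] at hγ
    obtain ⟨⟨i, j'⟩, hp, hγ⟩ := hγ
    obtain rfl : j' = j := hp
    rw [mem_shS] at hγ ⊢
    have := add_mem_GamOn (GamOn_mono (hI.trans (Set.subset_union_left (t := {s}))) hγ)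
      (atq_mem_GamOn (Or.inr rfl) (vec i))
    rwa [add_comm (atq s _), ← sub_sub, sub_add_cancel] at this
  · rintro γ (hγ | hγ)
    · simp only [Set.mem_iUnion] at hγ
      obtain ⟨⟨i, l⟩, hp, hγ⟩ := hγ
      rw [mem_shS] at hγ
      rcases hp with hp | hp
      · refine Or.inl (Or.inl (Or.inl ⟨_, ⟨i, hp, rfl⟩, ?_⟩))
        have := add_mem_GamOn (GamOn_mono (Set.subset_insert s' I) hγ)
          (atq_mem_GamOn (Set.mem_insert _ _) (vec l))
        rwa [← sub_sub, sub_add_cancel] at this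
      · refine Or.inl (Or.inl (Or.inr ?_))
        simp only [Set.mem_iUnion]
        refine ⟨l, hp, ?_⟩
        have := add_mem_GamOn (GamOn_mono (hI.trans (Set.subset_union_left (t := {s}))) hγ)
          (atq_mem_GamOn (Or.inr rfl) (vec i))
        rwa [add_comm (atq s _), ← sub_sub, sub_add_cancel] at this
    · refine Or.inr ?_
      rwa [Set.pair_comm] at hγ

end Crest.Agent.R069
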