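import Crest.Agent.R069.CE3

/-! Integer powers of `T`; elementary reductions for mixing. -/

set_option autoImplicit false
open MeasureTheory Filter Topology
open scoped ENNReal ComplexConjugate

namespace Crest.Agent.R069
set_option linter.unusedSectionVars false

variable {Ω : Type*} [m0 : MeasurableSpace Ω] {μ : Measure Ω} [IsProbabilityMeasure μ]
  {T : Ω ≃ᵐ Ω}

@[simp] lemma zp_zero (x : Ω) : zp T 0 x = x := by simp [zp]

lemma zp_add (n k : ℤ) (x : Ω) : zp T (n + k) x = zp T n (zp T k x) := by
  simp [zp, zpow_add]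

lemma zp_natCast (n : ℕ) : zp T n = T^[n] := by
  simp only [zp, zpow_natCast]
  exact Equiv.Perm.coe_pow _ _

lemma measurePreserving_zp (hT : MeasurePreserving T μ μ) (n : ℤ) :
    MeasurePreserving (zp T n) μ μ := by
  obtain ⟨k, rfl | rfl⟩ := n.eq_nat_or_neg
  · rw [zp_natCast]; exact hT.iterate k
  · have e : zp T (-(k : ℤ)) = T.symm^[k] := by
      simp only [zp, zpow_neg, zpow_natCast, ← inv_pow]
      exact Equiv.Perm.coe_pow _ _
    rw [e]; exact (hT.symm T).iterate k

lemma integral_zp (hT : MeasurePreserving T μ μ) (n : ℤ) (U : Ω → ℂ) :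
    ∫ x, U (zp T n x) ∂μ = ∫ x, U x ∂μ := by
  let e : Ω ≃ᵐ Ω :=
    { toFun := zp T n
      invFun := zp T (-n)
      left_inv := fun x => by rw [← zp_add, neg_add_cancel, zp_zero]
      right_inv := fun x => by rw [← zp_add, add_neg_cancel, zp_zero]
      measurable_toFun := (measurePreserving_zp hT n).measurable
      measurable_invFun := (measurePreserving_zp hT (-n)).measurable }
  exact MeasurePreserving.integral_comp' (f := e) (measurePreserving_zp hT n) U

lemma zp_lin_ext {κ : Type*} {𝓕 : Filter κ} {S : κ → Ω → Ω}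
    (hS : ∀ n, MeasurePreserving (S n) μ μ) {G : κ → Ω → ℂ} (hG : ∀ n, Measurable (G n)) {C : ℝ}
    (hC : ∀ n x, ‖G n x‖ ≤ C) {g : ℂ}
    (h : ∀ s, MeasurableSet s → Tendsto (fun n => ∫ x, s.indicator (1 : Ω → ℂ) (S n x) * G n x ∂μ)
      𝓕 (𝓝 ((∫ x, s.indicator (1 : Ω → ℂ) x ∂μ) * g))) {U : Ω → ℂ} (hU : Integrable U μ) :
    Tendsto (fun n => ∫ x, U (S n x) * G n x ∂μ) 𝓕 (𝓝 ((∫ x, U x ∂μ) * g)) := by
  have hint : ∀ {U : Ω → ℂ}, Integrable U μ → ∀ n, Integrable (fun x => U (S n x) * G n x) μ :=
    fun {U} hU n => ((hS n).integrable_comp_of_integrable hU).mul_bdd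
      (hG n).aestronglyMeasurable (Eventually.of_forall (hC n))
  refine Integrable.induction (μ := μ) (fun U : Ω → ℂ =>
    Tendsto (fun n => ∫ x, U (S n x) * G n x ∂μ) 𝓕 (𝓝 ((∫ x, U x ∂μ) * g))) ?_ ?_ ?_ ?_ hU
  · intro c s hs _
    have e : ∀ x, s.indicator (fun _ => c) x = c * s.indicator (1 : Ω → ℂ) x := fun x => by
      by_cases hx : x ∈ s <;> simp [hx]
    simp only [e, mul_assoc, integral_const_mul]
    exact (h s hs).const_mul c
  · intro f f' _ hf hf' h1 h2
    simp only [Pi.add_apply, add_mul]
    rw [integral_add hf hf', add_mul]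
    exact (h1.add h2).congr fun n => (integral_add (hint hf n) (hint hf' n)).symm
  · refine Equicontinuous.isClosed_setOfPred_tendsto
      (F := fun n (f : Ω →₁[μ] ℂ) => ∫ x, f (S n x) * G n x ∂μ) ?_
      (continuous_integral.mul continuous_const)
    refine (LipschitzWith.uniformEquicontinuous _ (Real.toNNReal C) fun n => ?_).equicontinuous
    refine LipschitzWith.of_dist_le_mul fun f f' => ?_
    have hf := L1.integrable_coeFn f
    have hf' := L1.integrable_coeFn f'
    rw [dist_eq_norm, ← integral_sub (hint hf n) (hint hf' n), L1.dist_eq_integral_dist,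
      ← integral_const_mul]
    have hd : Integrable (fun x => (Real.toNNReal C : ℝ) * dist (f x) (f' x)) μ := by
      simp only [dist_eq_norm]
      exact (hf.sub hf').norm.const_mul _
    have e := integral_map (μ := μ) (hS n).aemeasurable
      (f := fun x => (Real.toNNReal C : ℝ) * dist (f x) (f' x))
      (by rw [(hS n).map_eq]; exact hd.aestronglyMeasurable)
    rw [(hS n).map_eq] at e
    rw [e]
    refine norm_integral_le_of_norm_le ((hS n).integrable_comp_of_integrable hd)
      (Eventually.of_forall fun x => ?_)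
    rw [← sub_mul, norm_mul, mul_comm, dist_eq_norm]
    exact mul_le_mul_of_nonneg_right ((hC n x).trans (Real.le_coe_toNNReal C)) (norm_nonneg _)
  · intro f f' e _ h1
    rw [← integral_congr_ae e]
    refine h1.congr fun n => integral_congr_ae ?_
    filter_upwards [(hS n).quasiMeasurePreserving.ae_eq e] with x hx
    rw [Function.comp_apply, Function.comp_apply] at hx
    rw [hx]

/-- multilinearity (simple functions) and uniform approximation
(`norm_integral_prod_sub_le`) -/
theorem MixSet.mixLe (hT : MeasurePreserving T μ μ) {p : ℕ} (h : MixSet μ T p) :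
    MixLe μ T p := by
  classical
  intro ι _ hι f hf κ 𝓕 c hc
  have hind : ∀ g : Ω → ℂ, (∃ s, MeasurableSet s ∧ g = s.indicator 1) → Bd m0 g := by
    rintro _ ⟨s, hs, rfl⟩
    exact Bd.indicator hs
  have key : ∀ s : Finset ι, ∀ f : ι → Ω → ℂ, (∀ i, Bd m0 (f i)) →
      (∀ i, i ∉ s → ∃ t, MeasurableSet t ∧ f i = t.indicator 1) →
      Tendsto (fun n => ∫ x, ∏ i, f i (zp T (c n i) x) ∂μ) 𝓕 (𝓝 (∏ i, ∫ x, f i x ∂μ)) := by
    intro s
    induction s using Finset.induction_on with
    | empty => exact fun f _ h' => h ι hι f (fun i => h' i (Finset.notMem_empty i)) κ 𝓕 c hc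
    | insert a s ha ih =>
      intro f hf hf'
      choose B hB using fun i => (hf i).2
      have e1 : ∀ (U : Ω → ℂ) n x, ∏ i, Function.update f a U i (zp T (c n i) x) =
          U (zp T (c n a) x) * ∏ i ∈ Finset.univ.erase a, f i (zp T (c n i) x) := by
        intro U n x
        rw [← Finset.mul_prod_erase _ _ (Finset.mem_univ a), Function.update_self]
        congr 1
        exact Finset.prod_congr rfl fun i hi => by
          rw [Function.update_of_ne (Finset.ne_of_mem_erase hi)]
      have e2 : ∀ U : Ω → ℂ, ∏ i, ∫ x, Function.update f a U i x ∂μ =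
          (∫ x, U x ∂μ) * ∏ i ∈ Finset.univ.erase a, ∫ x, f i x ∂μ := by
        intro U
        rw [← Finset.mul_prod_erase _ _ (Finset.mem_univ a), Function.update_self]
        congr 1
        exact Finset.prod_congr rfl fun i hi => by
          rw [Function.update_of_ne (Finset.ne_of_mem_erase hi)]
      have := zp_lin_ext (𝓕 := 𝓕) (S := fun n => zp T (c n a))
        (fun n => measurePreserving_zp hT _)
        (G := fun n x => ∏ i ∈ Finset.univ.erase a, f i (zp T (c n i) x))
        (fun n => Finset.measurable_prod _ fun i _ =>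
          (hf i).1.comp (measurePreserving_zp hT _).measurable)
        (C := ∏ i ∈ Finset.univ.erase a, B i)
        (fun n x => by
          rw [norm_prod]
          exact Finset.prod_le_prod (fun _ _ => norm_nonneg _) fun i _ => hB i _)
        (g := ∏ i ∈ Finset.univ.erase a, ∫ x, f i x ∂μ) (fun t ht => by
          simp only [← e1, ← e2]
          refine ih _ (fun i => ?_) fun i hi => ?_
          · by_cases hia : i = a
            · rw [hia, Function.update_self]; exact Bd.indicator ht
            · rw [Function.update_of_ne hia]; exact hf i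
          · by_cases hia : i = a
            · rw [hia, Function.update_self]; exact ⟨t, ht, rfl⟩
            · rw [Function.update_of_ne hia]
              exact hf' i (by simp [hia, hi]))
        ((hf a).bdd.integrable le_rfl)
      simpa only [← e1, ← e2, Function.update_eq_self] using this
  exact key Finset.univ f hf fun i hi => absurd (Finset.mem_univ i) hi

lemma zp_integral_ind {s : Set Ω} (hs : MeasurableSet s) :
    ∫ x, s.indicator (1 : Ω → ℂ) x ∂μ = ((μ s).toReal : ℂ) := by
  have := integral_indicator_const (μ := μ) (1 : ℂ) hs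
  rw [Complex.real_smul, mul_one] at this
  exact this

theorem mixSet_two (hT : MeasurePreserving T μ μ)
    (hmix : ∀ A B : Set Ω, MeasurableSet A → MeasurableSet B →
      Tendsto (fun n : ℕ => μ (A ∩ (T^[n]) ⁻¹' B)) atTop (𝓝 (μ A * μ B))) :
    MixSet μ T 2 := by
  classical
  intro ι _ hι f hf κ 𝓕 c hc
  obtain h0 | h1 | h2 : (Finset.univ : Finset ι).card = 0 ∨ (Finset.univ : Finset ι).card = 1 ∨
      (Finset.univ : Finset ι).card = 2 := by rw [Finset.card_univ]; omega
  · rw [Finset.card_eq_zero.1 h0]
    simpa using tendsto_const_nhds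
  · obtain ⟨a, ha⟩ := Finset.card_eq_one.1 h1
    simp only [ha, Finset.prod_singleton, integral_zp hT]
    exact tendsto_const_nhds
  · obtain ⟨a, b, hab, hu⟩ := Finset.card_eq_two.1 h2
    obtain ⟨A, hA, eA⟩ := hf a
    obtain ⟨B, hB, eB⟩ := hf b
    simp only [hu, Finset.prod_pair hab, eA, eB]
    have key : ∀ {A B : Set Ω}, MeasurableSet A → MeasurableSet B → Tendsto (fun n : ℕ =>
        ∫ x, A.indicator (1 : Ω → ℂ) x * B.indicator (1 : Ω → ℂ) (zp T n x) ∂μ) atTop
        (𝓝 ((∫ x, A.indicator (1 : Ω → ℂ) x ∂μ) * ∫ x, B.indicator (1 : Ω → ℂ) x ∂μ)) := by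
      intro A B hA hB
      rw [zp_integral_ind hA, zp_integral_ind hB, ← Complex.ofReal_mul, ← ENNReal.toReal_mul]
      refine (((ENNReal.tendsto_toReal (ENNReal.mul_ne_top (measure_ne_top _ _)
        (measure_ne_top _ _))).comp (hmix A B hA hB)).ofReal).congr fun n => ?_
      rw [Function.comp_apply, ← zp_integral_ind (hA.inter ((hT.iterate n).measurable hB)),
        zp_natCast]
      refine integral_congr_ae (Eventually.of_forall fun x => ?_)
      simp only [Set.inter_indicator_one, Pi.mul_apply]
      rfl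
    have hd : Tendsto (fun n => (c n a - c n b).natAbs) 𝓕 atTop := by
      rw [← tendsto_natCast_atTop_iff (R := ℤ)]
      simpa only [Int.natCast_natAbs] using hc a b hab
    have k1 := (key hA hB).comp hd
    have k2 := (key hB hA).comp hd
    rw [mul_comm] at k2
    refine (k1.if' (p := fun n => c n a ≤ c n b) k2).congr fun n => ?_
    split_ifs with hn
    · rw [Function.comp_apply, ← integral_zp hT (c n a)]
      refine integral_congr_ae (Eventually.of_forall fun x => ?_)
      simp only
      rw [← zp_add, show ((c n a - c n b).natAbs : ℤ) + c n a = c n b by omega]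
    · rw [Function.comp_apply, ← integral_zp hT (c n b)]
      refine integral_congr_ae (Eventually.of_forall fun x => ?_)
      simp only
      rw [← zp_add, show ((c n a - c n b).natAbs : ℤ) + c n b = c n a by omega, mul_comm]

theorem MixLe.final (hT : MeasurePreserving T μ μ) {k : ℕ} (h : MixLe μ T (k + 1))
    (A : Fin (k + 1) → Set Ω) (hA : ∀ i, MeasurableSet (A i)) :
    Tendsto (fun n : Fin k → ℕ =>
        μ (⋂ i : Fin (k + 1), (T^[∑ j : Fin k, if (j : ℕ) < (i : ℕ) then n j else 0]) ⁻¹' A i))
      atTop (𝓝 (∏ i, μ (A i))) := by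
  have key : ∀ i j : Fin (k + 1), i < j → Tendsto (fun n : Fin k → ℕ =>
      |((∑ l : Fin k, if (l : ℕ) < (i : ℕ) then n l else 0 : ℕ) : ℤ) -
        ((∑ l : Fin k, if (l : ℕ) < (j : ℕ) then n l else 0 : ℕ) : ℤ)|) atTop atTop := by
    intro i j hij
    have hij' : (i : ℕ) < j := hij
    let i' : Fin k := ⟨i, by have := j.2; omega⟩
    refine tendsto_atTop_mono (f := fun n : Fin k → ℕ => (n i' : ℤ)) (fun n => ?_)
      (tendsto_natCast_atTop_atTop.comp (tendsto_atTop.2 fun b =>
        (eventually_ge_atTop fun _ => b).mono fun n hn => hn i'))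
    have h1 : (∑ l : Fin k, if (l : ℕ) < (i : ℕ) then n l else 0) + n i' ≤
        ∑ l : Fin k, if (l : ℕ) < (j : ℕ) then n l else 0 := by
      have e : n i' = ∑ l : Fin k, if l = i' then n l else 0 := by simp
      rw [e, ← Finset.sum_add_distrib]
      refine Finset.sum_le_sum fun l _ => ?_
      by_cases hl : l = i'
      · subst hl
        simp [i', hij']
      · rw [if_neg hl, add_zero]
        split_ifs <;> omega
    rw [abs_sub_comm]
    refine le_trans ?_ (le_abs_self _)
    omega
  have h1 := h (Fin (k + 1)) (by simp) (fun i => (A i).indicator 1) (fun i => Bd.indicator (hA i))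
    (Fin k → ℕ) atTop (fun n i => ((∑ l : Fin k, if (l : ℕ) < (i : ℕ) then n l else 0 : ℕ) : ℤ))
    fun i j hij => by
      rcases lt_or_gt_of_ne hij with h' | h'
      · exact key i j h'
      · simpa only [abs_sub_comm] using key j i h'
  rw [← ENNReal.tendsto_toReal_iff (fun _ => measure_ne_top _ _)
    (ENNReal.prod_ne_top fun _ _ => measure_ne_top _ _), ← tendsto_ofReal_iff, ENNReal.toReal_prod,
    Complex.ofReal_prod]
  simp only [zp_integral_ind (hA _)] at h1
  refine h1.congr fun n => ?_
  rw [← zp_integral_ind (MeasurableSet.iInter fun i => (hT.iterate _).measurable (hA i))]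
  refine integral_congr_ae (Eventually.of_forall fun x => ?_)
  simp only [zp_natCast]
  by_cases hx : x ∈ ⋂ i : Fin (k + 1),
      (T^[∑ j : Fin k, if (j : ℕ) < (i : ℕ) then n j else 0]) ⁻¹' A i
  · rw [Set.indicator_of_mem hx]
    exact Finset.prod_eq_one fun i _ => Set.indicator_of_mem (s := A i) (Set.mem_iInter.1 hx i) _
  · rw [Set.indicator_of_notMem hx]
    obtain ⟨i, hi⟩ := not_forall.1 (mt Set.mem_iInter.2 hx)
    exact Finset.prod_eq_zero (Finset.mem_univ i) (Set.indicator_of_notMem (s := A i) hi _)

end Crest.Agent.R069
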