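import Crest.Agent.R069.Pre1
import Crest.Agent.R069.Zp

/-! The limit construction. -/

set_option autoImplicit false
open MeasureTheory Filter Topology
open scoped ENNReal ComplexConjugate

namespace Crest.Agent.R069
set_option linter.unusedSectionVars false

/-- ultralimit of laws on `Γ → A` (compactness of `ProbabilityMeasure (Γ → A)` for the discrete
topology on `A`, `Mathlib/MeasureTheory/Measure/Prokhorov.lean`; a cylinder function is
continuous). -/
theorem exists_limit_measure {Γ A N : Type*} [Countable Γ] [MeasurableSpace A] [Fintype A]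
    [Nonempty A] [DiscreteMeasurableSpace A] (𝒱 : Ultrafilter N) (ν : N → Measure (Γ → A))
    [∀ n, IsProbabilityMeasure (ν n)] :
    ∃ P : Measure (Γ → A), IsProbabilityMeasure P ∧ ∀ U, Cyl Set.univ U →
      Tendsto (fun n => ∫ ω, U ω ∂(ν n)) 𝒱 (𝓝 (∫ ω, U ω ∂P)) := by
  let : TopologicalSpace A := ⊥
  have : DiscreteTopology A := ⟨rfl⟩
  have : BorelSpace A := DiscreteMeasurableSpace.toBorelSpace
  let ν' : N → ProbabilityMeasure (Γ → A) := fun n => ⟨ν n, inferInstance⟩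
  obtain ⟨P, -, hP⟩ := isCompact_univ.ultrafilter_le_nhds (𝒱.map ν') (by simp)
  refine ⟨P, inferInstance, fun U hU => ?_⟩
  obtain ⟨S0, -, hU⟩ := hU
  have hc : Continuous U := by
    refine IsLocallyConstant.continuous ((IsLocallyConstant.iff_eventually_eq U).2 fun ω => ?_)
    have : ∀ᶠ ω' in 𝓝 ω, ∀ γ ∈ S0, ω' γ = ω γ := by
      rw [Finset.eventually_all]
      intro γ _
      exact ((continuous_apply (A := fun _ : Γ => A) γ).tendsto ω).eventually
        (p := fun a => a = ω γ) ((isOpen_discrete {ω γ}).mem_nhds rfl)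
    filter_upwards [this] with ω' h using hU.eq_of_eqOn h
  exact (ProbabilityMeasure.tendsto_iff_forall_integral_rclike_tendsto ℂ (F := (𝒱 : Filter N))
    (μs := ν') (μ := P)).1 hP (BoundedContinuousFunction.mkOfCompact ⟨U, hc⟩)

/-- vertex offsets -/
def vecZ {V : Type} [DecidableEq V] (v0 v : V) : V → ℤ := Pi.single v 1 - Pi.single v0 1

/-- Let `Ψ x γ = name (zp T γ.1 x)`, `ev m y = ∑ v, y v * c m v`, `𝒲` from `exists_isW`,
`ν n = μ.map (rho ev n ∘ Ψ)`, `P` from `exists_limit_measure`.  Thin cylinder functions have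
`∫ U dP = ∫ U∘Ψ dμ` (`Bd.rho_eq`), hence (`agree_of_cyl` with `μ.map Ψ`) all thin functions;
`sh (tz z) (Ψ x) = Ψ (zp T z x)`; `b m i = (c m i - min_j c m j).toNat`. -/
theorem exists_preArr {Ω : Type*} [MeasurableSpace Ω] {μ : Measure Ω} [IsProbabilityMeasure μ]
    {T : Ω ≃ᵐ Ω} (hT : MeasurePreserving T μ μ) {V : Type} [Fintype V] [DecidableEq V] (v0 : V)
    (hV : 3 ≤ Fintype.card V) (hmix : MixLe μ T (Fintype.card V - 1)) {A : Type}
    [MeasurableSpace A] [Fintype A] [Nonempty A] [DiscreteMeasurableSpace A] (name : Ω → A)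
    (hname : Measurable name) {κ : Type} (𝒰 : Ultrafilter κ) (c : κ → V → ℤ)
    (hc : ∀ i j, i ≠ j → Tendsto (fun n => |c n i - c n j|) 𝒰 atTop) :
    ∃ (P : Measure (Gam (V → ℤ) → A)) (_ : IsProbabilityMeasure P) (b : κ → V → ℕ)
      (𝒲 : Ultrafilter (ℚ → κ)) (ev : κ → (V → ℤ) →+ ℤ),
      PreArr v0 (vecZ v0) P 𝒰 b 𝒲 ev ∧
      (∀ U, Bd (cyl A (GamOn (V → ℤ) ∅)) U →
        ∫ ω, U ω ∂P = ∫ x, U (fun γ => name (zp T γ.1 x)) ∂μ) ∧
      ∀ n i j, (b n i : ℤ) - b n j = c n i - c n j := by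
  classical
  have : Nonempty V := ⟨v0⟩
  let Ψ : Ω → Gam (V → ℤ) → A := fun x γ => name (zp T γ.1 x)
  have hΨ : Measurable Ψ :=
    measurable_pi_lambda _ fun γ => hname.comp (measurePreserving_zp hT γ.1).measurable
  let ev : κ → (V → ℤ) →+ ℤ := fun m =>
    { toFun := fun y => ∑ v, y v * c m v
      map_zero' := by simp
      map_add' := fun y y' => by simp [add_mul, Finset.sum_add_distrib] }
  have hev : ∀ m v, ev m (vecZ v0 v) = c m v - c m v0 := by
    intro m v
    have h1 : ∀ w, ev m (Pi.single w 1) = c m w := fun w => by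
      show ∑ v, (Pi.single w 1 : V → ℤ) v * c m v = c m w
      simp [Pi.single_apply]
    rw [vecZ, map_sub, h1, h1]
  obtain ⟨𝒲, hW⟩ := exists_isW 𝒰
  have hrho : ∀ n : ℚ → κ, Measurable (rho (A := A) ev n) := fun n =>
    measurable_reindex_pi (fun γ => tz (V → ℤ) (evG ev n γ))
  let ν : (ℚ → κ) → Measure (Gam (V → ℤ) → A) := fun n => μ.map (fun x => rho ev n (Ψ x))
  have : ∀ n, IsProbabilityMeasure (ν n) := fun n =>
    Measure.isProbabilityMeasure_map ((hrho n).comp hΨ).aemeasurable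
  have hν : ∀ n (U : (Gam (V → ℤ) → A) → ℂ), Measurable U →
      ∫ ω, U ω ∂(ν n) = ∫ x, U (rho ev n (Ψ x)) ∂μ := fun n U hU =>
    integral_map ((hrho n).comp hΨ).aemeasurable hU.aestronglyMeasurable
  obtain ⟨P, hP, hlim⟩ := exists_limit_measure 𝒲 ν
  have : IsProbabilityMeasure (μ.map Ψ) := Measure.isProbabilityMeasure_map hΨ.aemeasurable
  have hmap : ∀ U : (Gam (V → ℤ) → A) → ℂ, Measurable U →
      ∫ ω, U ω ∂(μ.map Ψ) = ∫ x, U (Ψ x) ∂μ := fun U hU =>
    integral_map hΨ.aemeasurable hU.aestronglyMeasurable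
  have hag : Agree (cyl A (GamOn (V → ℤ) ∅)) P (μ.map Ψ) := by
    refine agree_of_cyl fun U hU => ?_
    have hm : Measurable U := hU.bd.1.mono (cyl_le _) le_rfl
    have h1 := hlim U (hU.mono (Set.subset_univ _))
    simp only [hν _ U hm, hU.bd.rho_eq] at h1
    rw [hmap U hm]
    exact tendsto_nhds_unique h1 tendsto_const_nhds
  have hthin : ∀ U, Bd (cyl A (GamOn (V → ℤ) ∅)) U → ∫ ω, U ω ∂P = ∫ x, U (Ψ x) ∂μ := by
    intro U hU
    rw [hag.integral_eq (cyl_le _) hU.1, hmap U (hU.1.mono (cyl_le _) le_rfl)]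
  have hsh : ∀ (z : ℤ) x, sh (tz (V → ℤ) z) (Ψ x) = Ψ (zp T z x) := by
    intro z x
    ext γ
    simp [sh, Ψ, zp_add]
  have hbd : ∀ (z : ℤ) (U : (Gam (V → ℤ) → A) → ℂ), Bd (cyl A (GamOn (V → ℤ) ∅)) U →
      Bd (cyl A (GamOn (V → ℤ) ∅)) (fun ω => U (sh (tz (V → ℤ) z) ω)) := by
    intro z U hU
    have := hU.shift (tz (V → ℤ) z)
    rwa [shS_GamOn (tz_mem_GamOn z)] at this
  let b : κ → V → ℕ := fun m i =>
    (c m i - Finset.univ.inf' Finset.univ_nonempty (c m)).toNat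
  have hb : ∀ n i j, (b n i : ℤ) - b n j = c n i - c n j := by
    intro n i j
    have h1 : ∀ i, (b n i : ℤ) = c n i - Finset.univ.inf' Finset.univ_nonempty (c n) := fun i =>
      Int.toNat_of_nonneg (sub_nonneg.2 (Finset.inf'_le _ (Finset.mem_univ i)))
    rw [h1, h1]
    ring
  refine ⟨P, hP, b, 𝒲, ev, ⟨hV, by simp [vecZ], ?_, hW, ?_, ?_, ?_, ?_, ?_⟩, hthin, hb⟩
  · intro v w h
    have h1 : (Pi.single v 1 : V → ℤ) = Pi.single w 1 := sub_left_injective h
    by_contra hne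
    have := congrFun h1 v
    simp [hne] at this
  · intro U hU
    have hm : Measurable U := hU.bd.1.mono (cyl_le _) le_rfl
    refine (hlim U hU).congr fun n => ?_
    rw [hν n U hm, hthin _ (hU.rho n).bd]
  · intro z U hU
    rw [hthin _ (hbd z U hU), hthin U hU]
    simp only [hsh]
    exact integral_zp hT z (fun x => U (Ψ x))
  · intro ι _ hι f hf κ' 𝓕 c' hc'
    have h1 := hmix ι (by omega) (fun i x => f i (Ψ x))
      (fun i => ((hf i).mono (cyl_le _)).comp hΨ) κ' 𝓕 c' hc'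
    simp only [← hthin _ (hf _)] at h1
    refine h1.congr fun n => ?_
    rw [hthin _ (Bd.prod Finset.univ fun i _ => hbd (c' n i) _ (hf i))]
    simp only [hsh]
  · intro i j hij
    simpa only [hb] using hc i j hij
  · intro n i j
    rw [hb, hev, hev]
    ring

end Crest.Agent.R069
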