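import Crest.Agent.R069.CE3

/-! Free lines: independence, intersection lemma, characters. -/

set_option autoImplicit false
open MeasureTheory Filter Topology
open scoped ENNReal ComplexConjugate

namespace Crest.Agent.R069
set_option linter.unusedSectionVars false

variable {Ω ι : Type*} [Fintype ι] {𝓑 𝓑' : ι → MeasurableSpace Ω} {m0 : MeasurableSpace Ω}
  {μ : Measure Ω} [IsProbabilityMeasure μ]

lemma Free.lsig_le (h : Free μ 𝓑) (S : Set ι) : lsig 𝓑 S ≤ m0 := R069.lsig_le fun i _ => h.le i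

lemma Free.mono (h : Free μ 𝓑) (h' : ∀ i, 𝓑' i ≤ 𝓑 i) : Free μ 𝓑' :=
  ⟨fun i => (h' i).trans (h.le i), h.card,
    fun j j0 hj => (h.ind j j0 hj).mono (h' j) (lsig_mono' h' _)⟩

lemma Free.exists_third (h : Free μ 𝓑) (i j : ι) : ∃ l, l ≠ i ∧ l ≠ j := by
  classical
  by_contra hc
  push Not at hc
  have : (Finset.univ : Finset ι) ⊆ {i, j} := fun l _ => by
    by_cases hl : l = i
    · simp [hl]
    · simp [hc l hl]
  have h2 := (Finset.card_le_card this).trans Finset.card_le_two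
  have := h.card
  rw [Finset.card_univ] at h2
  omega

/-- disjoint blocks avoiding one vertex are independent (induction on `S`, `Ind.sup`) -/
lemma Free.ind_lsig (h : Free μ 𝓑) {S S' : Set ι} {j0 : ι} (hS : j0 ∉ S) (hS' : j0 ∉ S')
    (hd : Disjoint S S') : Ind μ (lsig 𝓑 S) (lsig 𝓑 S') := by
  induction S, Set.toFinite S using Set.Finite.induction_on with
  | empty =>
    rw [lsig_empty]
    exact ind_iff_ci.2 (CI.of_le bot_le le_rfl)
  | @insert i S hi _ ih =>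
    have hij : i ≠ j0 := fun e => hS (e ▸ Set.mem_insert i S)
    have hS0 : j0 ∉ S := fun e => hS (Set.mem_insert_of_mem _ e)
    have hd0 : Disjoint S S' := hd.mono_left (Set.subset_insert i S)
    have hiS' : i ∉ S' := Set.disjoint_left.1 hd (Set.mem_insert i S)
    rw [lsig_insert]
    refine Ind.sup (h.le i) (h.lsig_le S) (h.lsig_le S') ?_ (ih hS0 hd0)
    refine (h.ind i j0 hij).mono le_rfl (sup_le (lsig_mono 𝓑 ?_) (lsig_mono 𝓑 ?_))
    · intro l hl
      exact ⟨fun e => hi (e ▸ hl), fun e => hS0 (e ▸ hl)⟩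
    · intro l hl
      exact ⟨fun e => hiS' (e ▸ hl), fun e => hS' (e ▸ hl)⟩

lemma Free.ci_lsig (h : Free μ 𝓑) {S S' : Set ι} {j0 : ι} (hS : j0 ∉ S) (hS' : j0 ∉ S') :
    CI μ (lsig 𝓑 S) (lsig 𝓑 (S ∩ S')) (lsig 𝓑 S') := by
  have h1 : Ind μ (lsig 𝓑 (S \ S')) (lsig 𝓑 S') :=
    h.ind_lsig (fun e => hS e.1) hS' Set.disjoint_sdiff_left
  have h2 := h1.ci_sup (h.lsig_le _) (h.lsig_le _)
    (lsig_mono 𝓑 (Set.inter_subset_right : S ∩ S' ⊆ S'))
  rwa [← lsig_union, Set.diff_union_inter] at h2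

/-- intersection lemma -/
lemma Free.bdd_inter (h : Free μ 𝓑) {S S' : Set ι} {j0 : ι} (hS : j0 ∉ S) (hS' : j0 ∉ S')
    {F : Ω → ℂ} (hF : Bdd μ (lsig 𝓑 S) F) (hF' : Bdd μ (lsig 𝓑 S') F) :
    Bdd μ (lsig 𝓑 (S ∩ S')) F := by
  have h1 := (h.ci_lsig hS hS').condExp_eq (h.lsig_le _) (h.lsig_le _)
    (lsig_mono 𝓑 Set.inter_subset_right) hF
  exact hF.condExp.congr (h1.symm.trans (condExp_of_bdd (h.lsig_le _) hF'))

/-- intersection lemma for a nonempty finite family -/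
lemma Free.bdd_iInter (h : Free μ 𝓑) {κ : Type*} (s : Finset κ) (hs : s.Nonempty)
    {S : κ → Set ι} {j0 : ι} (hS : ∀ k ∈ s, j0 ∉ S k) {F : Ω → ℂ}
    (hF : ∀ k ∈ s, Bdd μ (lsig 𝓑 (S k)) F) : Bdd μ (lsig 𝓑 (⋂ k ∈ s, S k)) F := by
  induction hs using Finset.Nonempty.cons_induction with
  | singleton k => simpa using hF k (Finset.mem_singleton_self k)
  | cons k s hk hs ih =>
    have e : (⋂ k' ∈ Finset.cons k s hk, S k') = S k ∩ ⋂ k' ∈ s, S k' := by
      ext l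
      simp
    rw [e]
    obtain ⟨k0, hk0⟩ := hs
    refine h.bdd_inter (hS k (Finset.mem_cons_self k s)) (fun hj => ?_)
      (hF k (Finset.mem_cons_self k s))
      (ih (fun k' hk' => hS k' (Finset.mem_cons_of_mem hk'))
        (fun k' hk' => hF k' (Finset.mem_cons_of_mem hk')))
    exact hS k0 (Finset.mem_cons_of_mem hk0) (Set.mem_iInter₂.1 hj k0 hk0)

/-- product formula for all vertices except one -/
lemma Free.integral_prod [DecidableEq ι] (h : Free μ 𝓑) {j0 : ι} (s : Finset ι) (hs : j0 ∉ s)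
    {F : ι → Ω → ℂ} (hF : ∀ i ∈ s, Bdd μ (𝓑 i) (F i)) :
    ∫ ω, ∏ i ∈ s, F i ω ∂μ = ∏ i ∈ s, ∫ ω, F i ω ∂μ := by
  induction s using Finset.induction_on with
  | empty => simp
  | insert i s hi ih =>
    have hij : i ≠ j0 := fun e => hs (e ▸ Finset.mem_insert_self i s)
    have hs0 : j0 ∉ s := fun e => hs (Finset.mem_insert_of_mem e)
    simp only [Finset.prod_insert hi]
    rw [← ih hs0 (fun l hl => hF l (Finset.mem_insert_of_mem hl))]
    refine h.ind i j0 hij _ _ (hF i (Finset.mem_insert_self i s)) (Bdd.prod s fun l hl => ?_)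
    exact (hF l (Finset.mem_insert_of_mem hl)).mono
      (le_lsig 𝓑 (S := {l | l ≠ i ∧ l ≠ j0}) ⟨fun e => hi (e ▸ hl), fun e => hs0 (e ▸ hl)⟩)

lemma charSub_mono (h : ∀ i, 𝓑 i ≤ 𝓑' i) (i0 : ι) : charSub μ 𝓑 i0 ≤ charSub μ 𝓑' i0 := by
  rintro χ ⟨c, hc, rfl, hc'⟩
  exact ⟨c, fun i => (hc i).mono (h i) le_rfl, rfl, hc'⟩

lemma measurable_of_mem_charSub {i0 : ι} {χ : Ω → Circle} (h : χ ∈ charSub μ 𝓑 i0) :
    Measurable[𝓑 i0] (cf χ) := by
  obtain ⟨c, hc, rfl, -⟩ := h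
  exact hc i0

end Crest.Agent.R069
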