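import Crest.Agent.R069.Defs

/-! Iterated ultrafilters. -/

set_option autoImplicit false
open MeasureTheory Filter Topology
open scoped ENNReal ComplexConjugate

namespace Crest.Agent.R069
set_option linter.unusedSectionVars false

variable {κ : Type} {𝒰 : Ultrafilter κ} {𝒲 : Ultrafilter (ℚ → κ)}

/-- iterated ultrafilter along a list of scales -/
noncomputable def ultraIt (𝒰 : Ultrafilter κ) (n0 : ℚ → κ) : List ℚ → Ultrafilter (ℚ → κ)
  | [] => pure n0
  | q :: l => 𝒰.bind fun m => (ultraIt 𝒰 n0 l).map fun n => Function.update n q m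

theorem ultra_bind {α β : Type} (f : Ultrafilter α) (g : α → Ultrafilter β) (F : β → Prop) :
    (∀ᶠ n in (f.bind g : Filter β), F n) ↔
      ∀ᶠ m in (f : Filter α), ∀ᶠ n in (g m : Filter β), F n := Iff.rfl

theorem ultraIt_cons (n0 : ℚ → κ) (q : ℚ) (l : List ℚ) (F : (ℚ → κ) → Prop) :
    (∀ᶠ n in (ultraIt 𝒰 n0 (q :: l) : Filter (ℚ → κ)), F n) ↔
      ∀ᶠ m in (𝒰 : Filter κ), ∀ᶠ n in (ultraIt 𝒰 n0 l : Filter (ℚ → κ)),
        F (Function.update n q m) := Iff.rfl

theorem ultra_dep_update {X : Type*} {K : Set ℚ} {q : ℚ} {F : (ℚ → κ) → X}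
    (hF : DependsOn F (insert q K)) (m : κ) :
    DependsOn (fun n => F (Function.update n q m)) K := by
  intro n n' h
  refine hF fun i hi => ?_
  by_cases hq : i = q
  · subst hq
    simp
  · rw [Function.update_of_ne hq, Function.update_of_ne hq]
    exact h i (hi.resolve_left hq)

theorem ultraIt_filter (n0 : ℚ → κ) (K : Finset ℚ) (l : List ℚ) :
    ∀ F : (ℚ → κ) → Prop, DependsOn F (K : Set ℚ) →
      ((∀ᶠ n in (ultraIt 𝒰 n0 l : Filter (ℚ → κ)), F n) ↔
        ∀ᶠ n in (ultraIt 𝒰 n0 (l.filter (· ∈ K)) : Filter (ℚ → κ)), F n) := by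
  induction l with
  | nil => intro F _; rfl
  | cons q l ih =>
    intro F hF
    by_cases hq : q ∈ K
    · rw [List.filter_cons_of_pos (by simpa using hq), ultraIt_cons, ultraIt_cons]
      exact eventually_congr (Eventually.of_forall fun m =>
        ih _ (ultra_dep_update (hF.mono (Set.subset_insert _ _)) m))
    · rw [List.filter_cons_of_neg (by simpa using hq), ultraIt_cons, ← ih F hF]
      have : ∀ m n, F (Function.update n q m) = F n := fun m n => hF fun i hi =>
        Function.update_of_ne (fun h => hq (by rw [← h]; exact hi)) _ _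
      simp only [this, eventually_const]

theorem ultra_sort_filter {K0 K : Finset ℚ} (h : K0 ⊆ K) :
    (K.sort (· ≤ ·)).filter (· ∈ K0) = K0.sort (· ≤ ·) := by
  refine List.Perm.eq_of_pairwise' (r := (· ≤ ·)) ((Finset.pairwise_sort _ _).filter _)
    (Finset.pairwise_sort _ _) ?_
  rw [List.perm_ext_iff_of_nodup ((Finset.sort_nodup _ _).filter _) (Finset.sort_nodup _ _)]
  intro a
  simp only [List.mem_filter, Finset.mem_sort, decide_eq_true_eq]
  exact ⟨fun h' => h'.2, fun h' => ⟨h h', h'⟩⟩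

/-- For a list of scales put `𝓕 [] = pure n0`, `𝓕 (q :: l) = 𝒰.bind fun m => (𝓕 l).map
(update · q m)`.  If `F` depends only on `K0`, then `∀ᶠ n in 𝓕 (sort K), F n` does not depend on
`K ⊇ K0` (removing from a list a scale on which `F` does not depend).  Let `𝒲` be the limit of
`𝓕 (sort K)` along an ultrafilter refining `atTop` on `Finset ℚ`. -/
theorem exists_isW (𝒰 : Ultrafilter κ) : ∃ 𝒲 : Ultrafilter (ℚ → κ), IsW 𝒰 𝒲 := by
  obtain ⟨m0⟩ : Nonempty κ := Filter.nonempty_of_neBot (𝒰 : Filter κ)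
  let n0 : ℚ → κ := fun _ => m0
  let 𝒱 : Ultrafilter (Finset ℚ) := Ultrafilter.of atTop
  have hV : (𝒱 : Filter (Finset ℚ)) ≤ atTop := Ultrafilter.of_le _
  let 𝒲 : Ultrafilter (ℚ → κ) := 𝒱.bind fun K => ultraIt 𝒰 n0 (K.sort (· ≤ ·))
  have key : ∀ (K0 : Finset ℚ) (F : (ℚ → κ) → Prop), DependsOn F (K0 : Set ℚ) →
      ((∀ᶠ n in (𝒲 : Filter (ℚ → κ)), F n) ↔
        ∀ᶠ n in (ultraIt 𝒰 n0 (K0.sort (· ≤ ·)) : Filter (ℚ → κ)), F n) := by
    intro K0 F hF
    rw [ultra_bind, ← eventually_const (f := (𝒱 : Filter (Finset ℚ)))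
      (p := ∀ᶠ n in (ultraIt 𝒰 n0 (K0.sort (· ≤ ·)) : Filter (ℚ → κ)), F n)]
    refine eventually_congr ?_
    filter_upwards [hV (eventually_ge_atTop K0)] with K hK
    rw [ultraIt_filter n0 K0 _ F hF, ultra_sort_filter hK]
  refine ⟨𝒲, fun K q hq F hF => ?_⟩
  have hqK : q ∉ K := fun h => lt_irrefl _ (hq q h)
  rw [key (insert q K) F (by simpa using hF),
    Finset.sort_insert (· ≤ ·) (fun b hb => (hq b hb).le) hqK, ultraIt_cons]
  exact eventually_congr (Eventually.of_forall fun m => (key K _ (ultra_dep_update hF m)).symm)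

/-- spreading invariance; induction on `K` removing the minimum (`Finset.induction_on_min`) -/
theorem IsW.spread (h : IsW 𝒰 𝒲) (K : Finset ℚ) {φ : ℚ → ℚ} (hφ : StrictMonoOn φ K)
    {F : (ℚ → κ) → Prop} (hF : DependsOn F (K : Set ℚ)) :
    (∀ᶠ n in (𝒲 : Filter (ℚ → κ)), F (n ∘ φ)) ↔ ∀ᶠ n in (𝒲 : Filter (ℚ → κ)), F n := by
  induction K using Finset.induction_on_min generalizing F with
  | empty =>
    have : ∀ n, F (n ∘ φ) = F n := fun n => hF fun i hi => by simp at hi
    simp only [this]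
  | insert q K hq ih =>
    rw [Finset.coe_insert] at hF hφ
    have hlt : ∀ r ∈ K, φ q < φ r := fun r hr =>
      hφ (Set.mem_insert _ _) (Set.mem_insert_of_mem _ hr) (hq r hr)
    have hd : DependsOn (fun n : ℚ → κ => F (n ∘ φ)) (insert (φ q) (K.image φ : Set ℚ)) := by
      intro n n' hn
      refine hF fun i hi => hn _ ?_
      rcases hi with rfl | hi
      · exact Set.mem_insert _ _
      · exact Set.mem_insert_of_mem _ (Finset.mem_image_of_mem φ hi)
    rw [h (K.image φ) (φ q) (by simpa using hlt) _ hd, h K q hq F hF]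
    refine eventually_congr (Eventually.of_forall fun m => ?_)
    rw [← ih (hφ.mono (Set.subset_insert _ _)) (ultra_dep_update hF m)]
    refine eventually_congr (Eventually.of_forall fun n => iff_of_eq (hF fun i hi => ?_))
    rcases hi with rfl | hi
    · simp
    · rw [Function.comp_apply, Function.update_of_ne (hlt i hi).ne',
        Function.update_of_ne (hq i hi).ne', Function.comp_apply]

theorem IsW.tendsto_spread (h : IsW 𝒰 𝒲) (K : Finset ℚ) {φ : ℚ → ℚ} (hφ : StrictMonoOn φ K)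
    {X : Type*} {F : (ℚ → κ) → X} (hF : DependsOn F (K : Set ℚ)) {l : Filter X}
    (hl : Tendsto F 𝒲 l) : Tendsto (fun n => F (n ∘ φ)) 𝒲 l := by
  intro s hs
  exact (h.spread K hφ (F := fun n => F n ∈ s) fun n n' hn => congrArg (· ∈ s) (hF hn)).2 (hl hs)

/-- the top scale is the innermost limit -/
theorem IsW.top (h : IsW 𝒰 𝒲) (K : Finset ℚ) {t : ℚ} (ht : ∀ r ∈ K, r < t)
    {F : (ℚ → κ) → Prop} (hF : DependsOn F (insert t (K : Set ℚ)))
    (hU : ∀ n, ∀ᶠ m in (𝒰 : Filter κ), F (Function.update n t m)) :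
    ∀ᶠ n in (𝒲 : Filter (ℚ → κ)), F n := by
  induction K using Finset.induction_on_min generalizing F with
  | empty =>
    obtain ⟨n0⟩ : Nonempty (ℚ → κ) := Filter.nonempty_of_neBot (𝒲 : Filter (ℚ → κ))
    rw [h ∅ t (by simp) F hF]
    filter_upwards [hU n0] with m hm
    refine Eventually.of_forall fun n => ?_
    exact (ultra_dep_update hF m (x := n) (y := n0) fun i hi => by simp at hi).mpr hm
  | insert q K hq ih =>
    have hqt : q < t := ht q (Finset.mem_insert_self _ _)
    have hF' : DependsOn F (insert q (insert t (K : Set ℚ))) := by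
      rwa [Finset.coe_insert, Set.insert_comm] at hF
    rw [h (insert t K) q (by
      intro r hr
      rcases Finset.mem_insert.1 hr with rfl | hr
      exacts [hqt, hq r hr]) F (by rwa [Finset.coe_insert])]
    refine Eventually.of_forall fun m => ih (fun r hr => ht r (Finset.mem_insert_of_mem hr))
      (ultra_dep_update hF' m) fun n => ?_
    simp only [Function.update_comm hqt.ne']
    exact hU _

theorem IsW.tendsto_eval (h : IsW 𝒰 𝒲) (t : ℚ) :
    Tendsto (fun n : ℚ → κ => n t) 𝒲 𝒰 := by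
  intro s hs
  refine h.top ∅ (t := t) (by simp) (F := fun n => n t ∈ s) (fun n n' hn => ?_) fun n => ?_
  · exact congrArg (· ∈ s) (hn t (Set.mem_insert _ _))
  · simpa using hs

end Crest.Agent.R069
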