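import Crest.Agent.R069.Geo
import Crest.Agent.R069.Ultra

/-! From `PreArr` to `Arr`: invariances and limits. -/

set_option autoImplicit false
open MeasureTheory Filter Topology
open scoped ENNReal ComplexConjugate

namespace Crest.Agent.R069
set_option linter.unusedSectionVars false

variable {L V A κ : Type} [AddCommGroup L] [Countable L] [Fintype V] [DecidableEq V]
  [MeasurableSpace A] [Fintype A] [Nonempty A] [DiscreteMeasurableSpace A]
  {v0 : V} {vec : V → L} {P : Measure (Gam L → A)} [IsProbabilityMeasure P]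
  {𝒰 : Ultrafilter κ} {b : κ → V → ℕ}
  {𝒲 : Ultrafilter (ℚ → κ)} {ev : κ → L →+ ℤ}

lemma evG_add (n : ℚ → κ) (γ γ' : Gam L) : evG ev n (γ + γ') = evG ev n γ + evG ev n γ' := by
  simp only [evG, Prod.fst_add, Prod.snd_add]
  rw [Finsupp.sum_add_index' (fun _ => map_zero _) (fun _ _ _ => map_add _ _ _)]
  ring

@[simp] lemma evG_tz (n : ℚ → κ) (z : ℤ) : evG ev n (tz L z) = z := by
  simp [evG]

@[simp] lemma evG_atq (n : ℚ → κ) (q : ℚ) (x : L) : evG ev n (atq q x) = ev (n q) x := by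
  simp [evG, Finsupp.sum_single_index]

lemma evG_push (n : ℚ → κ) (φ : ℚ → ℚ) (γ : Gam L) :
    evG ev n (push φ γ) = evG ev (n ∘ φ) γ := by
  simp only [evG, push_fst, push_snd]
  rw [Finsupp.sum_mapDomain_index (fun _ => map_zero _) (fun _ _ _ => map_add _ _ _)]
  rfl

lemma evG_congr {n n' : ℚ → κ} {K : Set ℚ} {γ : Gam L} (hγ : γ ∈ GamOn L K)
    (h : ∀ q ∈ K, n q = n' q) : evG ev n γ = evG ev n' γ := by
  simp only [evG]
  congr 1
  refine Finsupp.sum_congr fun q hq => ?_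
  rw [h q (hγ q (by simpa using hq))]

lemma sh_rho (n : ℚ → κ) (β : Gam L) (ω : Gam L → A) :
    sh β (rho ev n ω) = rho ev n (sh (tz L (evG ev n β)) ω) := by
  ext γ
  simp only [sh, rho, evG_add, tz_add]

lemma Rm_rho (n : ℚ → κ) (φ : ℚ → ℚ) (ω : Gam L → A) :
    Rm φ (rho ev n ω) = rho ev (n ∘ φ) ω := by
  ext γ
  simp only [Rm, rho, evG_push]

lemma Cyl.rho {S : Set (Gam L)} {U : (Gam L → A) → ℂ} (hU : Cyl S U) (n : ℚ → κ) :
    Cyl (GamOn L ∅) (fun ω => U (rho ev n ω)) := by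
  exact hU.reindex (fun γ => tz L (evG ev n γ)) (fun _ _ => tz_mem_GamOn _)

lemma Bd.rho_eq {U : (Gam L → A) → ℂ} (hU : Bd (cyl A (GamOn L ∅)) U) (n : ℚ → κ)
    (ω : Gam L → A) : U (rho ev n ω) = U ω := by
  refine hU.eq_of_eqOn fun γ hγ => ?_
  have h0 := mem_GamOn_empty.1 hγ
  have : tz L (evG ev n γ) = γ := by
    ext1
    · simp [evG, h0]
    · simp [h0]
  simp only [R069.rho, this]

lemma Bd.rho_congr {K : Set ℚ} {U : (Gam L → A) → ℂ} (hU : Bd (cyl A (GamOn L K)) U)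
    {n n' : ℚ → κ} (h : ∀ q ∈ K, n q = n' q) (ω : Gam L → A) :
    U (rho ev n ω) = U (rho ev n' ω) := by
  refine hU.eq_of_eqOn fun γ hγ => ?_
  simp only [R069.rho, evG_congr (ev := ev) hγ h]

/-- `pl`, `sh_rho`, `tinv`, then `agree_of_cyl` for `P.map (sh β)` and `P` -/
theorem PreArr.inv (h : PreArr v0 vec P 𝒰 b 𝒲 ev) (β : Gam L) :
    MeasurePreserving (sh β) P P := by
  have hm := measurable_sh (A := A) β
  have : IsProbabilityMeasure (P.map (sh β)) := Measure.isProbabilityMeasure_map hm.aemeasurable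
  have hA : Agree (cyl A (Set.univ : Set (Gam L))) (P.map (sh β)) P := by
    refine agree_of_cyl fun U hU => ?_
    rw [integral_map hm.aemeasurable (hU.bd.1.mono (cyl_le _) le_rfl).aestronglyMeasurable]
    have h1 := h.pl _ ((hU.shift β).mono (Set.subset_univ _))
    have h2 := h.pl _ hU
    refine tendsto_nhds_unique h1 (h2.congr fun n => ?_)
    simp only [sh_rho]
    exact (h.tinv (evG ev n β) _ (hU.rho (ev := ev) n).bd).symm
  refine ⟨hm, Measure.ext fun s hs => hA s ?_⟩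
  rw [cyl, cylinderEvents_univ]
  exact hs

/-- `pl`, `Rm_rho`, `IsW.tendsto_spread`, then `agree_of_cyl` for `P.map (Rm φ)` and `P` -/
theorem PreArr.spr (h : PreArr v0 vec P 𝒰 b 𝒲 ev) (K : Set ℚ) (φ : ℚ → ℚ)
    (hφ : StrictMonoOn φ K) (U : (Gam L → A) → ℂ) (hU : Bd (cyl A (GamOn L K)) U) :
    ∫ ω, U (Rm φ ω) ∂P = ∫ ω, U ω ∂P := by
  have hm := measurable_Rm (L := L) (A := A) φ
  have : IsProbabilityMeasure (P.map (Rm φ)) := Measure.isProbabilityMeasure_map hm.aemeasurable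
  have hA : Agree (cyl A (GamOn L K)) (P.map (Rm φ)) P := by
    refine agree_of_cyl fun U hU => ?_
    rw [integral_map hm.aemeasurable (hU.bd.1.mono (cyl_le _) le_rfl).aestronglyMeasurable]
    obtain ⟨K0, hK0, hU0⟩ := hU.exists_scales
    have h1 := h.pl _ (hU.reindex (S' := Set.univ) (push φ) fun _ _ => Set.mem_univ _)
    have h2 := h.pl _ (hU.mono (Set.subset_univ _))
    have hd : DependsOn (fun n => ∫ ω, U (rho ev n ω) ∂P) (K0 : Set ℚ) := by
      intro n n' hn
      simp only [hU0.bd.rho_congr (ev := ev) hn]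
    have h3 := h.isW.tendsto_spread K0 (hφ.mono hK0) hd h2
    refine tendsto_nhds_unique h1 (h3.congr fun n => ?_)
    simp only [← Rm_rho]
    rfl
  rw [← hA.integral_eq (cyl_le _) hU.1,
    integral_map hm.aemeasurable (hU.1.mono (cyl_le _) le_rfl).aestronglyMeasurable]

theorem PreArr.mix (h : PreArr v0 vec P 𝒰 b 𝒲 ev) (U U' : (Gam L → A) → ℂ)
    (hU : Bd (cyl A (GamOn L ∅)) U) (hU' : Bd (cyl A (GamOn L ∅)) U') :
    Tendsto (fun n : ℕ => ∫ ω, U ω * U' (sh (tz L n) ω) ∂P) atTop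
      (𝓝 ((∫ ω, U ω ∂P) * ∫ ω, U' ω ∂P)) := by
  have hc : Fintype.card (Fin 2) < Fintype.card V := by
    have := h.card
    simp only [Fintype.card_fin]
    omega
  have h1 := h.tmix (Fin 2) hc ![U, U'] (by
    intro i; fin_cases i
    · exact hU
    · exact hU') ℕ atTop (fun n => ![0, (n : ℤ)]) (by
    intro i j hij
    have : Tendsto (fun n : ℕ => (n : ℤ)) atTop atTop := tendsto_natCast_atTop_atTop
    fin_cases i <;> fin_cases j
    · exact (hij rfl).elim
    · simpa using this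
    · simpa using this
    · exact (hij rfl).elim)
  simpa [Fin.prod_univ_two] using h1

end Crest.Agent.R069
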