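import Crest.Agent.R069.Pre1

/-! From `PreArr` to `Arr`: `top` and `lim`. -/

set_option autoImplicit false
open MeasureTheory Filter Topology
open scoped ENNReal ComplexConjugate

namespace Crest.Agent.R069
set_option linter.unusedSectionVars false

variable {L V A κ : Type} [AddCommGroup L] [Countable L] [Fintype V] [DecidableEq V]
  [MeasurableSpace A] [Fintype A] [Nonempty A] [DiscreteMeasurableSpace A]
  {v0 : V} {vec : V → L} {P : Measure (Gam L → A)} [IsProbabilityMeasure P]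
  {𝒰 : Ultrafilter κ} {b : κ → V → ℕ}
  {𝒲 : Ultrafilter (ℚ → κ)} {ev : κ → L →+ ℤ}

lemma pre2_bound (C0 : V → ℝ) : ∃ C : ℝ, 1 ≤ C ∧ ∀ i, C0 i ≤ C := by
  obtain ⟨C, hC⟩ := (Set.finite_range C0).bddAbove
  exact ⟨max 1 C, le_max_left _ _, fun i => (hC ⟨i, rfl⟩).trans (le_max_right _ _)⟩

lemma pre2_sum_le (s : Finset V) {C ε : ℝ} (hC : 1 ≤ C) (hε : 0 ≤ ε) {a : V → ℝ}
    (ha : ∀ i ∈ s, a i ≤ ε / 2 / (C ^ s.card * (s.card + 1))) :
    C ^ s.card * ∑ i ∈ s, a i ≤ ε / 2 := by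
  have h1 := Finset.sum_le_card_nsmul s a _ ha
  rw [nsmul_eq_mul] at h1
  have hp : 0 < C ^ s.card := by positivity
  calc C ^ s.card * ∑ i ∈ s, a i
      ≤ C ^ s.card * ((s.card + 1) * (ε / 2 / (C ^ s.card * (s.card + 1)))) := by
        refine mul_le_mul_of_nonneg_left (h1.trans ?_) hp.le
        exact mul_le_mul_of_nonneg_right (by linarith) (by positivity)
    _ = ε / 2 := by field_simp

lemma pre2_integral_sh (hP : ∀ β : Gam L, MeasurePreserving (sh β) P P) (β : Gam L)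
    (U : (Gam L → A) → ℝ) : ∫ ω, U (sh β ω) ∂P = ∫ ω, U ω ∂P := by
  let e : (Gam L → A) ≃ᵐ (Gam L → A) :=
    { toFun := sh β, invFun := sh (-β), left_inv := fun ω => by simp [sh_sh],
      right_inv := fun ω => by simp [sh_sh], measurable_toFun := measurable_sh β,
      measurable_invFun := measurable_sh (-β) }
  exact MeasurePreserving.integral_comp' (f := e) (hP β) U

lemma pre2_lim_cyl (h : PreArr v0 vec P 𝒰 b 𝒲 ev) (t : ℚ) (f : V → (Gam L → A) → ℂ)
    (hf : ∀ i, Cyl (GamOn L ∅) (f i)) :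
    Tendsto (fun n => ∫ ω, ∏ i, f i (sh (tz L (b n i)) ω) ∂P) 𝒰 (𝓝 (Lam P vec t f)) := by
  have h1 := h.pl (fun ω => ∏ i, f i (sh (atq t (vec i)) ω))
    (Cyl.prod _ fun i _ => ((hf i).shift _).mono (Set.subset_univ _))
  have h2 : map (fun n : ℚ → κ => n t) 𝒲 = (𝒰 : Filter κ) :=
    𝒰.unique (h.isW.tendsto_eval t)
  rw [← h2, tendsto_map'_iff]
  refine h1.congr fun n => ?_
  simp only [Function.comp_apply]
  rw [← integral_sh h.inv (tz L (b (n t) v0))]
  refine integral_congr_ae (Eventually.of_forall fun ω => ?_)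
  refine Finset.prod_congr rfl fun i _ => ?_
  rw [sh_rho, (hf i).bd.rho_eq, sh_sh, evG_atq, ← tz_add]
  have := h.hb (n t) i v0
  rw [h.vec0, map_zero] at this
  congr 3
  linarith

lemma pre2_top_cyl (h : PreArr v0 vec P 𝒰 b 𝒲 ev) (t : ℚ) (j0 : V) (x : L)
    (U : V → (Gam L → A) → ℂ)
    (hU : ∀ l, l ≠ j0 → Cyl (shS (atq t (vec l + x)) (GamOn L (Set.Iio t))) (U l)) :
    ∫ ω, ∏ l ∈ Finset.univ.erase j0, U l ω ∂P =
      ∏ l ∈ Finset.univ.erase j0, ∫ ω, U l ω ∂P := by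
  have hmem : ∀ l : V, l ∈ Finset.univ.erase j0 ↔ l ≠ j0 := by simp
  simp only [Finset.prod_subtype _ hmem]
  set U' : {l // l ≠ j0} → (Gam L → A) → ℂ :=
    fun l ω => U l (sh (-atq t (vec l + x)) ω) with hU'
  have hUU' : ∀ (l : {l // l ≠ j0}) ω, U l ω = U' l (sh (atq t (vec l + x)) ω) := fun l ω => by
    simp [hU', sh_sh]
  have hc : ∀ l, Cyl (GamOn L (Set.Iio t)) (U' l) := fun l => by
    simpa [shS_shS] using (hU l l.2).shift (-atq t (vec l + x))
  choose K hK1 hK2 using fun l => (hc l).exists_scales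
  set K0 : Finset ℚ := Finset.univ.biUnion K with hK0
  have hK0t : ∀ r ∈ K0, r < t := fun r hr => by
    obtain ⟨l, -, hl⟩ := Finset.mem_biUnion.1 hr
    exact hK1 l hl
  have hc0 : ∀ l, Cyl (GamOn L (K0 : Set ℚ)) (U' l) := fun l =>
    (hK2 l).mono (GamOn_mono (Finset.coe_subset.2
      (Finset.subset_biUnion_of_mem K (Finset.mem_univ l))))
  have hb1 : ∀ l : {l // l ≠ j0}, Bd (cyl A (GamOn L (insert t (K0 : Set ℚ)))) (U l) := fun l => by
    rw [show U l = _ from funext (hUU' l)]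
    exact ((hc0 l).bd.shift _).mono (cyl_mono (shS_GamOn_subset
      (atq_mem_GamOn (Set.mem_insert _ _) _) (Set.subset_insert _ _)))
  set D : (ℚ → κ) → ℂ := fun n => ∫ ω, ∏ l : {l // l ≠ j0}, U l (rho ev n ω) ∂P -
    ∏ l : {l // l ≠ j0}, ∫ ω, U l (rho ev n ω) ∂P with hD
  have h1 : Tendsto D 𝒲 (𝓝 (∫ ω, ∏ l : {l // l ≠ j0}, U l ω ∂P -
      ∏ l : {l // l ≠ j0}, ∫ ω, U l ω ∂P)) :=
    (h.pl (fun ω => ∏ l : {l // l ≠ j0}, U l ω)
      (Cyl.prod _ fun l _ => (hU l l.2).mono (Set.subset_univ _))).sub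
      (tendsto_finsetProd _ fun l _ => h.pl _ ((hU l l.2).mono (Set.subset_univ _)))
  have h2 : Tendsto D 𝒲 (𝓝 0) := by
    rw [Metric.tendsto_nhds]
    intro ε hε
    refine h.isW.top K0 hK0t (F := fun n => dist (D n) 0 < ε) (fun n n' e => ?_) fun n => ?_
    · have : D n = D n' := by
        simp only [hD, fun l => (hb1 l).rho_congr (ev := ev) e]
      simp only [this]
    · have e : ∀ m (l : {l // l ≠ j0}) ω, U l (rho ev (Function.update n t m) ω) =
          U' l (rho ev n (sh (tz L (ev m (vec l + x))) ω)) := fun m l ω => by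
        rw [hUU', sh_rho, evG_atq, Function.update_self]
        exact (hc0 l).bd.rho_congr (fun q hq => Function.update_of_ne (hK0t q hq).ne _ _) _
      have h3 := h.tmix {l // l ≠ j0} (Fintype.card_subtype_lt (x := j0) (by simp))
        (fun l ω => U' l (rho ev n ω)) (fun l => ((hc0 l).rho n).bd) κ 𝒰
        (fun m l => ev m (vec l + x)) (fun i j hij => by
          refine (h.div i j fun e => hij (Subtype.ext e)).congr fun m => ?_
          rw [h.hb, map_add, map_add, add_sub_add_right_eq_sub])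
      have h4 : Tendsto (fun m => D (Function.update n t m)) 𝒰 (𝓝 0) := by
        have := h3.sub_const (∏ l : {l // l ≠ j0}, ∫ ω, U' l (rho ev n ω) ∂P)
        rw [sub_self] at this
        refine this.congr fun m => ?_
        simp only [hD, e]
        congr 1
        exact Finset.prod_congr rfl fun l _ => (h.tinv _ _ ((hc0 l).rho n).bd).symm
      exact Metric.tendsto_nhds.1 h4 ε hε
  exact sub_eq_zero.1 (tendsto_nhds_unique h1 h2)

/-- For cylinder functions: write `U l = U' l ∘ sh (atq t (vec l + x))` with `U' l` on scales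
`K ⊆ Iio t`; for fixed `n`, `tmix` along `𝒰` (positions `ev m (vec l + x)`, `hb`, `div`) shows
that `∫ ∏ U l ∘ rho (update n t m) - ∏ ∫ U l ∘ rho (update n t m) → 0`; `IsW.top` and `pl`.
General case: `approx_cyl`, `norm_integral_prod_sub_le` (or `ext_cyl` slot by slot). -/
theorem PreArr.top (h : PreArr v0 vec P 𝒰 b 𝒲 ev) (t : ℚ) (j0 : V) (x : L)
    (U : V → (Gam L → A) → ℂ)
    (hU : ∀ l, l ≠ j0 →
      Bdd P (cyl A (shS (atq t (vec l + x)) (GamOn L (Set.Iio t)))) (U l)) :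
    ∫ ω, ∏ l ∈ Finset.univ.erase j0, U l ω ∂P =
      ∏ l ∈ Finset.univ.erase j0, ∫ ω, U l ω ∂P := by
  have hC : ∀ l, ∃ C : ℝ, l ≠ j0 → ∀ᵐ ω ∂P, ‖U l ω‖ ≤ C := fun l => by
    by_cases hl : l = j0
    · exact ⟨0, fun h => absurd hl h⟩
    · obtain ⟨C, hC⟩ := (hU l hl).2
      exact ⟨C, fun _ => hC⟩
  choose C0 hC0 using hC
  obtain ⟨C, hC1, hC⟩ := pre2_bound C0
  have hUC : ∀ l, l ≠ j0 → ∀ᵐ ω ∂P, ‖U l ω‖ ≤ C := fun l hl => by
    filter_upwards [hC0 l hl] with ω hω using hω.trans (hC l)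
  set s := Finset.univ.erase j0 with hs
  refine eq_of_forall_dist_le fun ε hε => ?_
  have hpos : 0 < C ^ s.card * (s.card + 1) := by positivity
  have hδ : 0 < ε / 2 / (C ^ s.card * (s.card + 1)) := by positivity
  have hap : ∀ l, ∃ W', l ≠ j0 → Cyl (shS (atq t (vec l + x)) (GamOn L (Set.Iio t))) W' ∧
      (∀ ω, ‖W' ω‖ ≤ C) ∧ ∫ ω, ‖U l ω - W' ω‖ ∂P < ε / 2 / (C ^ s.card * (s.card + 1)) :=
    fun l => by
      by_cases hl : l = j0
      · exact ⟨0, fun h => absurd hl h⟩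
      · obtain ⟨W', hW'⟩ := approx_cyl (hU l hl).1 (by linarith) (hUC l hl) hδ
        exact ⟨W', fun _ => hW'⟩
  choose W hW using hap
  have hWb : ∀ l ∈ s, Bdd P MeasurableSpace.pi (W l) := fun l hl =>
    (hW l (Finset.ne_of_mem_erase hl)).1.bd.bdd.mono (cyl_le _)
  have hUb : ∀ l ∈ s, Bdd P MeasurableSpace.pi (U l) := fun l hl =>
    (hU l (Finset.ne_of_mem_erase hl)).mono (cyl_le _)
  have h0 := pre2_top_cyl h t j0 x W fun l hl => (hW l hl).1
  have h1 := (norm_integral_prod_sub_le (μ := P) s hC1 (fun l hl => (hUb l hl).1)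
    (fun l hl => (hWb l hl).1) (fun l hl => hUC l (Finset.ne_of_mem_erase hl))
    (fun l hl => Eventually.of_forall (hW l (Finset.ne_of_mem_erase hl)).2.1)).trans
    (pre2_sum_le s hC1 hε.le fun l hl => (hW l (Finset.ne_of_mem_erase hl)).2.2.le)
  have h2 := (norm_integral_prod_sub_le (μ := P) s (F := fun l _ => ∫ ω, W l ω ∂P)
    (G := fun l _ => ∫ ω, U l ω ∂P) hC1 (fun l _ => aestronglyMeasurable_const)
    (fun l _ => aestronglyMeasurable_const)
    (fun l hl => Eventually.of_forall fun _ => by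
      simpa using norm_integral_le_of_norm_le_const (μ := P)
        (Eventually.of_forall (hW l (Finset.ne_of_mem_erase hl)).2.1))
    (fun l hl => Eventually.of_forall fun _ => by
      simpa using norm_integral_le_of_norm_le_const (μ := P)
        (hUC l (Finset.ne_of_mem_erase hl)))).trans
    (pre2_sum_le s hC1 hε.le fun l hl => by
      refine le_trans ?_ (hW l (Finset.ne_of_mem_erase hl)).2.2.le
      rw [integral_const, probReal_univ, one_smul, norm_sub_rev,
        ← integral_sub ((hUb l hl).integrable le_rfl) ((hWb l hl).integrable le_rfl)]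
      exact norm_integral_le_integral_norm _)
  simp only [integral_const, probReal_univ, one_smul] at h2
  rw [← hs] at h0
  rw [h0] at h1
  rw [← dist_eq_norm] at h1 h2
  linarith [dist_triangle (∫ ω, ∏ l ∈ s, U l ω ∂P) (∏ l ∈ s, ∫ ω, W l ω ∂P)
    (∏ l ∈ s, ∫ ω, U l ω ∂P)]

/-- For cylinder functions: `pl`, `IsW.tendsto_eval` (an ultrafilter limit exists; identify it
along `𝒲`), `tinv`/`inv` and `hb` with `j = v0`.  General case by uniform approximation
(`approx_cyl`, `norm_integral_prod_sub_le`, `PreArr.inv`). -/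
theorem PreArr.lim (h : PreArr v0 vec P 𝒰 b 𝒲 ev) (t : ℚ) (f : V → (Gam L → A) → ℂ)
    (hf : ∀ i, Bd (cyl A (GamOn L ∅)) (f i)) :
    Tendsto (fun n => ∫ ω, ∏ i, f i (sh (tz L (b n i)) ω) ∂P) 𝒰 (𝓝 (Lam P vec t f)) := by
  choose C0 hC0 using fun i => (hf i).2
  obtain ⟨C, hC1, hC⟩ := pre2_bound C0
  have hfC : ∀ i ω, ‖f i ω‖ ≤ C := fun i ω => (hC0 i ω).trans (hC i)
  rw [Metric.tendsto_nhds]
  intro ε hε
  set s : Finset V := Finset.univ with hs
  have hδ : 0 < ε / 2 / 2 / (C ^ s.card * (s.card + 1)) := by positivity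
  choose W hW using fun i => approx_cyl (P := P) ((hf i).bdd (μ := P)).1 (by linarith)
    (Eventually.of_forall (hfC i)) hδ
  have key : ∀ β : V → Gam L, dist (∫ ω, ∏ i, f i (sh (β i) ω) ∂P)
      (∫ ω, ∏ i, W i (sh (β i) ω) ∂P) ≤ ε / 2 / 2 := fun β => by
    rw [dist_eq_norm]
    refine (norm_integral_prod_sub_le (μ := P) s (F := fun i ω => f i (sh (β i) ω))
      (G := fun i ω => W i (sh (β i) ω)) hC1
      (fun i _ => ((((hf i).shift (β i)).bdd (μ := P)).mono (cyl_le _)).1)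
      (fun i _ => ((((hW i).1.bd.shift (β i)).bdd (μ := P)).mono (cyl_le _)).1)
      (fun i _ => Eventually.of_forall fun ω => hfC i _)
      (fun i _ => Eventually.of_forall fun ω => (hW i).2.1 _)).trans
      (pre2_sum_le s hC1 (by linarith) fun i _ => ?_)
    rw [pre2_integral_sh h.inv (β i) (fun ω => ‖f i ω - W i ω‖)]
    exact (hW i).2.2.le
  have h0 := pre2_lim_cyl h t W fun i => (hW i).1
  rw [Metric.tendsto_nhds] at h0
  filter_upwards [h0 (ε / 2) (by linarith)] with m hm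
  have h1 := key fun i => tz L (b m i)
  have h2 := key fun i => atq t (vec i)
  rw [dist_comm] at h2
  simp only [Lam] at hm ⊢
  linarith [dist_triangle4 (∫ ω, ∏ i, f i (sh (tz L (b m i)) ω) ∂P)
    (∫ ω, ∏ i, W i (sh (tz L (b m i)) ω) ∂P) (∫ ω, ∏ i, W i (sh (atq t (vec i)) ω) ∂P)
    (∫ ω, ∏ i, f i (sh (atq t (vec i)) ω) ∂P)]

end Crest.Agent.R069
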