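import Crest.Agent.R069.Ultra

/-! Weak limits along iterated ultrafilters. -/

set_option autoImplicit false
open MeasureTheory Filter Topology
open scoped ENNReal ComplexConjugate

namespace Crest.Agent.R069
set_option linter.unusedSectionVars false

variable {κ : Type} {𝒰 : Ultrafilter κ} {𝒲 : Ultrafilter (ℚ → κ)}
  {E : Type*} [NormedAddCommGroup E] [InnerProductSpace ℂ E] [CompleteSpace E]

/-- bounded families have weak limits along ultrafilters (Riesz) -/
theorem exists_weak_lim {X : Type*} (𝒱 : Ultrafilter X) {u : X → E} {C : ℝ} (hu : ∀ x, ‖u x‖ ≤ C) :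
    ∃ w : E, ‖w‖ ≤ C ∧ ∀ y, Tendsto (fun x => inner ℂ (u x) y) 𝒱 (𝓝 (inner ℂ w y)) := by
  have hl : ∀ y : E, ∃ c : ℂ, ‖c‖ ≤ C * ‖y‖ ∧ Tendsto (fun x => inner ℂ (u x) y) 𝒱 (𝓝 c) := by
    intro y
    obtain ⟨c, hc0, hc⟩ := (isCompact_closedBall (0 : ℂ) (C * ‖y‖)).ultrafilter_le_nhds
      (𝒱.map fun x => inner ℂ (u x) y) (by
        rw [Ultrafilter.coe_map, le_principal_iff, mem_map]
        exact Eventually.of_forall fun x => by
          simpa using (norm_inner_le_norm (u x) y).trans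
            (mul_le_mul_of_nonneg_right (hu x) (norm_nonneg y)))
    exact ⟨c, by simpa using hc0, hc⟩
  choose t ht0 ht using hl
  let T : E →ₗ[ℂ] ℂ :=
    { toFun := t
      map_add' := fun x y => tendsto_nhds_unique (ht _)
        (by simpa only [inner_add_right] using (ht x).add (ht y))
      map_smul' := fun c x => tendsto_nhds_unique (ht _)
        (by simpa only [inner_smul_right, RingHom.id_apply, smul_eq_mul] using (ht x).const_mul c) }
  obtain ⟨x0⟩ := 𝒱.neBot.nonempty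
  have hC : 0 ≤ C := (norm_nonneg _).trans (hu x0)
  refine ⟨(InnerProductSpace.toDual ℂ E).symm (T.mkContinuous C ht0), ?_, fun y => ?_⟩
  · rw [LinearIsometryEquiv.norm_map]
    exact T.mkContinuous_norm_le hC ht0
  · rw [InnerProductSpace.toDual_symm_apply]
    exact ht y

theorem weak_of_iter (h : IsW 𝒰 𝒲) {K : Finset ℚ} {q : ℚ} (hq : ∀ r ∈ K, q < r)
    {F : (ℚ → κ) → ℂ} (hF : DependsOn F (insert q (K : Set ℚ))) {g : κ → ℂ}
    (hg : ∀ m, Tendsto (fun n => F (Function.update n q m)) 𝒲 (𝓝 (g m))) {c : ℂ} :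
    Tendsto F 𝒲 (𝓝 c) ↔ Tendsto g 𝒰 (𝓝 c) := by
  have key := fun s : Set ℂ => h K q hq (fun n => F n ∈ s) fun n n' hn => by
    simp only [hF hn]
  constructor
  · intro hc
    rw [(closed_nhds_basis c).tendsto_right_iff]
    rintro s ⟨hs, hsc⟩
    exact ((key s).1 (hc hs)).mono fun m hm => hsc.mem_of_tendsto (hg m) hm
  · intro hc
    rw [(nhds_basis_opens c).tendsto_right_iff]
    rintro s ⟨hs, hso⟩
    exact (key s).2 ((hc.eventually_mem (hso.mem_nhds hs)).mono fun m hm =>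
      hg m (hso.mem_nhds hm))

theorem weak_swap {X : Type*} {l : Filter X} {a b : X → E} {w w' : E}
    (h : Tendsto (fun n => inner ℂ (a n) (b n)) l (𝓝 (inner ℂ w w'))) :
    Tendsto (fun n => inner ℂ (b n) (a n)) l (𝓝 (inner ℂ w' w)) := by
  simpa only [Function.comp_def, inner_conj_symm] using
    (Complex.continuous_conj.tendsto _).comp h

theorem weak_aux (h : IsW 𝒰 𝒲) {C : ℝ} (K0 : Finset ℚ) : ∀ (K K' : Set ℚ), K ⊆ K0 → K' ⊆ K0 →
    Disjoint K K' → ∀ (u u' : (ℚ → κ) → E), (∀ n, ‖u n‖ ≤ C) → (∀ n, ‖u' n‖ ≤ C) →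
    DependsOn u K → DependsOn u' K' → ∀ (w w' : E),
    (∀ y, Tendsto (fun n => inner ℂ (u n) y) 𝒲 (𝓝 (inner ℂ w y))) →
    (∀ y, Tendsto (fun n => inner ℂ (u' n) y) 𝒲 (𝓝 (inner ℂ w' y))) →
    Tendsto (fun n => inner ℂ (u n) (u' n)) 𝒲 (𝓝 (inner ℂ w w')) := by
  induction K0 using Finset.induction_on_min with
  | empty =>
    intro K K' _ hK' _ u u' _ _ _ hd' w w' hw hw'
    have hc : ∀ n, u' n = w' := by
      intro n
      refine ext_inner_right ℂ fun y => tendsto_nhds_unique ?_ (hw' y)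
      refine tendsto_const_nhds.congr fun n' => ?_
      rw [hd' (x := n) (y := n') fun i hi => by simpa using hK' hi]
    simpa only [hc] using hw w'
  | insert q K1 hq ih =>
    have main : ∀ (K K' : Set ℚ), K ⊆ insert q (K1 : Set ℚ) → K' ⊆ K1 →
        Disjoint K K' → ∀ (u u' : (ℚ → κ) → E), (∀ n, ‖u n‖ ≤ C) → (∀ n, ‖u' n‖ ≤ C) →
        DependsOn u K → DependsOn u' K' → ∀ (w w' : E),
        (∀ y, Tendsto (fun n => inner ℂ (u n) y) 𝒲 (𝓝 (inner ℂ w y))) →
        (∀ y, Tendsto (fun n => inner ℂ (u' n) y) 𝒲 (𝓝 (inner ℂ w' y))) →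
        Tendsto (fun n => inner ℂ (u n) (u' n)) 𝒲 (𝓝 (inner ℂ w w')) := by
      intro K K' hK hK' hKK u u' hu hu' hd hd' w w' hw hw'
      choose v _ hv using fun m =>
        exists_weak_lim 𝒲 (u := fun n => u (Function.update n q m)) fun n => hu _
      have h1 : Tendsto (fun m => inner ℂ (v m) w') 𝒰 (𝓝 (inner ℂ w w')) :=
        (weak_of_iter h hq (F := fun n => inner ℂ (u n) w')
          (fun n n' hn => by simp only [hd fun i hi => hn i (hK hi)]) fun m => hv m w').1 (hw w')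
      refine (weak_of_iter h hq (F := fun n => inner ℂ (u n) (u' n)) (fun n n' hn => ?_)
        fun m => ?_).2 h1
      · simp only [hd fun i hi => hn i (hK hi),
          hd' fun i hi => hn i (Set.mem_insert_of_mem _ (hK' hi))]
      · have h2 := ih (K \ {q}) K' (fun i hi => (hK hi.1).resolve_left hi.2) hK'
          (hKK.mono_left Set.sdiff_subset) (fun n => u (Function.update n q m)) u'
          (fun n => hu _) hu' (fun n n' hn => hd fun i hi => by
            by_cases hiq : i = q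
            · subst hiq; simp
            · rw [Function.update_of_ne hiq, Function.update_of_ne hiq]
              exact hn i ⟨hi, hiq⟩) hd' (v m) w' (hv m) hw'
        refine h2.congr fun n => ?_
        rw [hd' (x := Function.update n q m) (y := n) fun i hi =>
          Function.update_of_ne (hq i (hK' hi)).ne' _ _]
    intro K K' hK hK' hKK u u' hu hu' hd hd' w w' hw hw'
    rw [Finset.coe_insert] at hK hK'
    by_cases hqK : q ∈ K
    · exact main K K' hK (fun i hi => (hK' hi).resolve_left fun e =>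
        Set.disjoint_left.1 hKK hqK (e ▸ hi)) hKK u u' hu hu' hd hd' w w' hw hw'
    · exact weak_swap (main K' K hK' (fun i hi => (hK hi).resolve_left fun e => hqK (e ▸ hi))
        hKK.symm u' u hu' hu hd' hd w' w hw' hw)

/-- Induction on a finset `K0 ⊇ K ∪ K'` removing the minimum `q` (generalising `u u' w w'`): if
`q ∉ K'`, let `w_m` be the weak limit of `u ∘ update · q m`; then `w_m → w` weakly along `𝒰`
by `IsW`, etc. -/
theorem IsW.tendsto_inner (h : IsW 𝒰 𝒲) {K K' : Finset ℚ} (hd : Disjoint K K')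
    {u u' : (ℚ → κ) → E} {C : ℝ} (hu : ∀ n, ‖u n‖ ≤ C) (hu' : ∀ n, ‖u' n‖ ≤ C)
    (hK : DependsOn u (K : Set ℚ)) (hK' : DependsOn u' (K' : Set ℚ)) {w w' : E}
    (hw : ∀ y, Tendsto (fun n => inner ℂ (u n) y) 𝒲 (𝓝 (inner ℂ w y)))
    (hw' : ∀ y, Tendsto (fun n => inner ℂ (u' n) y) 𝒲 (𝓝 (inner ℂ w' y))) :
    Tendsto (fun n => inner ℂ (u n) (u' n)) 𝒲 (𝓝 (inner ℂ w w')) := by
  exact weak_aux h (K ∪ K') K K' (by simp) (by simp) (Finset.disjoint_coe.2 hd) u u' hu hu' hK hK'
    w w' hw hw'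

end Crest.Agent.R069
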