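import Crest.Agent.R069.Pre1
import Crest.Agent.R069.Weak

/-! From `PreArr` to `Arr`: `disj`. -/

set_option autoImplicit false
open MeasureTheory Filter Topology
open scoped ENNReal ComplexConjugate

namespace Crest.Agent.R069
set_option linter.unusedSectionVars false

variable {L V A κ : Type} [AddCommGroup L] [Countable L] [Fintype V] [DecidableEq V]
  [MeasurableSpace A] [Fintype A] [Nonempty A] [DiscreteMeasurableSpace A]
  {v0 : V} {vec : V → L} {P : Measure (Gam L → A)} [IsProbabilityMeasure P]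
  {𝒰 : Ultrafilter κ} {b : κ → V → ℕ}
  {𝒲 : Ultrafilter (ℚ → κ)} {ev : κ → L →+ ℤ}

lemma pre3_closed {Ω X : Type*} {m0 : MeasurableSpace Ω} {μ : Measure Ω} {l : Filter X}
    {u : X → Ω → ℂ} {E g : Ω → ℂ} {C : ℝ} (hC : 0 < C) (hu : ∀ n, AEStronglyMeasurable (u n) μ)
    (hub : ∀ n ω, ‖u n ω‖ ≤ C) (hE : AEStronglyMeasurable E μ) (hEb : ∀ᵐ ω ∂μ, ‖E ω‖ ≤ C)
    (hg : Integrable g μ)
    (h : ∀ ε > 0, ∃ g' : Ω → ℂ, Integrable g' μ ∧ ∫ ω, ‖g ω - g' ω‖ ∂μ < ε ∧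
      Tendsto (fun n => ∫ ω, u n ω * g' ω ∂μ) l (𝓝 (∫ ω, E ω * g' ω ∂μ))) :
    Tendsto (fun n => ∫ ω, u n ω * g ω ∂μ) l (𝓝 (∫ ω, E ω * g ω ∂μ)) := by
  have key : ∀ {v g' : Ω → ℂ}, AEStronglyMeasurable v μ → (∀ᵐ ω ∂μ, ‖v ω‖ ≤ C) →
      Integrable g' μ →
      dist (∫ ω, v ω * g ω ∂μ) (∫ ω, v ω * g' ω ∂μ) ≤ C * ∫ ω, ‖g ω - g' ω‖ ∂μ := by
    intro v g' hv hvb hg'
    rw [dist_eq_norm, ← integral_sub (hg.bdd_mul hv hvb) (hg'.bdd_mul hv hvb),
      ← integral_const_mul]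
    refine norm_integral_le_of_norm_le ((hg.sub hg').norm.const_mul C) ?_
    filter_upwards [hvb] with ω hω
    rw [← mul_sub, norm_mul]
    exact mul_le_mul_of_nonneg_right hω (norm_nonneg _)
  rw [Metric.tendsto_nhds]
  intro ε hε
  obtain ⟨g', hg', h1, h2⟩ := h (ε / 3 / C) (by positivity)
  have h3 : C * ∫ ω, ‖g ω - g' ω‖ ∂μ < ε / 3 := by rwa [lt_div_iff₀' hC] at h1
  filter_upwards [Metric.tendsto_nhds.1 h2 (ε / 3) (by positivity)] with n hn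
  have h4 := key (hu n) (Eventually.of_forall (hub n)) hg'
  have h5 := key hE hEb hg'
  have h6 := dist_triangle4_right (∫ ω, u n ω * g ω ∂μ) (∫ ω, E ω * g ω ∂μ)
    (∫ ω, u n ω * g' ω ∂μ) (∫ ω, E ω * g' ω ∂μ)
  linarith

lemma pre3_inner {Ω : Type*} {m0 : MeasurableSpace Ω} {μ : Measure Ω} {f : Ω → ℂ}
    (hf : MemLp f 2 μ) (y : Lp ℂ 2 μ) :
    inner ℂ (hf.toLp f) y = ∫ ω, conj (f ω) * y ω ∂μ := by
  rw [L2.inner_def]
  refine integral_congr_ae ?_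
  filter_upwards [hf.coeFn_toLp] with ω hω
  rw [hω, RCLike.inner_apply']

lemma pre3_inner' {Ω : Type*} {m0 : MeasurableSpace Ω} {μ : Measure Ω} {f g : Ω → ℂ}
    (hf : MemLp (fun ω => conj (f ω)) 2 μ) (hg : MemLp g 2 μ) :
    inner ℂ (hf.toLp _) (hg.toLp g) = ∫ ω, f ω * g ω ∂μ := by
  rw [pre3_inner]
  refine integral_congr_ae ?_
  filter_upwards [hg.coeFn_toLp] with ω hω
  rw [hω, Complex.conj_conj]

/-- `U ∘ rho n` converges weakly to `E[U | thin]` (for thin cylinder `g` this is `pl` applied to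
`U g`; then approximate `E[g | thin]` by thin cylinder functions). -/
theorem PreArr.tendsto_weak (h : PreArr v0 vec P 𝒰 b 𝒲 ev) {U : (Gam L → A) → ℂ}
    (hU : Cyl Set.univ U) {g : (Gam L → A) → ℂ} (hg : MemLp g 2 P) :
    Tendsto (fun n => ∫ ω, U (rho ev n ω) * g ω ∂P) 𝒲
      (𝓝 (∫ ω, (P[U|cyl A (GamOn L ∅)]) ω * g ω ∂P)) := by
  have hm : cyl A (GamOn L ∅) ≤ MeasurableSpace.pi := cyl_le _
  have hU0 : Bd MeasurableSpace.pi U := hU.bd.mono (cyl_le _)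
  obtain ⟨C₀, hC₀⟩ := hU0.2
  have hC : ∀ ω, ‖U ω‖ ≤ max C₀ 1 := fun ω => (hC₀ ω).trans (le_max_left _ _)
  have hC0 : 0 < max C₀ 1 := lt_max_of_lt_right one_pos
  have hu : ∀ n, Bdd P (cyl A (GamOn L ∅)) fun ω => U (rho ev n ω) := fun n => (hU.rho n).bd.bdd
  have hE : Bdd P (cyl A (GamOn L ∅)) (P[U|cyl A (GamOn L ∅)]) := hU0.bdd.condExp
  have hcl := @pre3_closed _ _ _ P (𝒲 : Filter (ℚ → κ)) (fun n ω => U (rho ev n ω))
    (P[U|cyl A (GamOn L ∅)])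
  have hcl' := fun g => hcl (g := g) hC0 (fun n => (hu n).1.mono hm) (fun n ω => hC _)
    (hE.1.mono hm) (ae_bdd_norm_condExp_of_ae_bdd_norm (Eventually.of_forall hC))
  have h1 : ∀ g, Cyl (GamOn L ∅) g → Tendsto (fun n => ∫ ω, U (rho ev n ω) * g ω ∂P) 𝒲
      (𝓝 (∫ ω, (P[U|cyl A (GamOn L ∅)]) ω * g ω ∂P)) := by
    intro g hg
    rw [integral_condExp_mul hm (hU0.bdd.integrable le_rfl) hg.bd.bdd]
    refine (h.pl _ (hU.mul (hg.mono (Set.subset_univ _)))).congr fun n => ?_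
    simp only [hg.bd.rho_eq]
  have h2 : ∀ g, Bdd P (cyl A (GamOn L ∅)) g →
      Tendsto (fun n => ∫ ω, U (rho ev n ω) * g ω ∂P) 𝒲
        (𝓝 (∫ ω, (P[U|cyl A (GamOn L ∅)]) ω * g ω ∂P)) := by
    intro g hg
    refine hcl' g (hg.integrable hm) fun ε hε => ?_
    obtain ⟨hg1, D, hD⟩ := hg
    obtain ⟨W, hW, -, hW'⟩ := approx_cyl (C := max D 0) hg1 (le_max_right _ _)
      (by filter_upwards [hD] with ω hω using hω.trans (le_max_left _ _)) hε
    exact ⟨W, hW.bd.bdd.integrable hm, hW', h1 W hW⟩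
  have h3 : ∀ g, Bdd P MeasurableSpace.pi g →
      Tendsto (fun n => ∫ ω, U (rho ev n ω) * g ω ∂P) 𝒲
        (𝓝 (∫ ω, (P[U|cyl A (GamOn L ∅)]) ω * g ω ∂P)) := by
    intro g hg
    have e : ∀ v, Bdd P (cyl A (GamOn L ∅)) v →
        ∫ ω, v ω * (P[g|cyl A (GamOn L ∅)]) ω ∂P = ∫ ω, v ω * g ω ∂P := fun v hv => by
      simp_rw [mul_comm (v _)]
      exact integral_condExp_mul hm (hg.integrable le_rfl) hv
    rw [← e _ hE]
    exact (h2 _ hg.condExp).congr fun n => e _ (hu n)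
  have hg1 : Integrable g P := hg.integrable (by norm_num)
  refine hcl' g hg1 fun ε hε => ?_
  obtain ⟨φ, hφ, hφ'⟩ := (memLp_one_iff_integrable.2 hg1).exists_simpleFunc_eLpNorm_sub_lt
    ENNReal.one_ne_top (ε := ENNReal.ofReal ε) (by simpa using hε)
  have hφ1 : Integrable φ P := memLp_one_iff_integrable.1 hφ'
  refine ⟨φ, hφ1, ?_, h3 φ (Bd.bdd ⟨φ.measurable, φ.exists_forall_norm_le⟩)⟩
  rw [integral_norm_eq_lintegral_enorm (f := fun ω => g ω - φ ω) (hg1.sub hφ1).1]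
  rw [eLpNorm_one_eq_lintegral_enorm] at hφ
  exact ENNReal.toReal_lt_of_lt_ofReal hφ

/-- `CI.of_cyl`, `Cyl.exists_scales`, `IsW.tendsto_inner` in `Lp ℂ 2 P` -/
theorem PreArr.disj (h : PreArr v0 vec P 𝒰 b 𝒲 ev) (J J' : Set ℚ) (hd : Disjoint J J') :
    CI P (cyl A (GamOn L J)) (cyl A (GamOn L ∅)) (cyl A (GamOn L J')) := by
  have hm : cyl A (GamOn L ∅) ≤ MeasurableSpace.pi := cyl_le _
  refine CI.of_cyl hm fun U H hU hH => ?_
  obtain ⟨K, hK, hUK⟩ := hU.exists_scales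
  obtain ⟨K', hK', hHK⟩ := hH.exists_scales
  have hKK : Disjoint K K' := Finset.disjoint_coe.1 (hd.mono hK hK')
  have hU1 : Cyl Set.univ U := hU.mono (Set.subset_univ _)
  have hH1 : Cyl Set.univ H := hH.mono (Set.subset_univ _)
  have hU0 : Bdd P MeasurableSpace.pi U := (hU.bd.mono (cyl_le _)).bdd
  have hH0 : Bdd P MeasurableSpace.pi H := (hH.bd.mono (cyl_le _)).bdd
  obtain ⟨C₁, hC₁⟩ := hU.bd.2
  obtain ⟨C₂, hC₂⟩ := hH.bd.2
  have hu : ∀ n, MemLp (fun ω => conj (U (rho ev n ω))) 2 P := fun n =>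
    (hU.rho n).bd.bdd.conj.memLp hm 2
  have hu' : ∀ n, MemLp (fun ω => H (rho ev n ω)) 2 P := fun n => (hH.rho n).bd.bdd.memLp hm 2
  have hw : MemLp (fun ω => conj ((P[U|cyl A (GamOn L ∅)]) ω)) 2 P :=
    hU0.condExp.conj.memLp hm 2
  have hw' : MemLp (P[H|cyl A (GamOn L ∅)]) 2 P := hH0.condExp.memLp hm 2
  have hb : ∀ {f : (Gam L → A) → ℂ} (hf : MemLp f 2 P), (∀ ω, ‖f ω‖ ≤ max (max C₁ C₂) 0) →
      ‖hf.toLp f‖ ≤ (measureUnivNNReal P : ℝ) ^ (2 : ℝ≥0∞).toReal⁻¹ * max (max C₁ C₂) 0 :=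
    fun hf hf' => Lp.norm_le_of_ae_bound (le_max_right _ _)
      (by filter_upwards [hf.coeFn_toLp] with ω hω using hω ▸ hf' ω)
  have key := h.isW.tendsto_inner hKK (u := fun n => (hu n).toLp _) (u' := fun n => (hu' n).toLp _)
    (fun n => hb _ fun ω => by
      rw [Complex.norm_conj]
      exact (hC₁ _).trans ((le_max_left _ _).trans (le_max_left _ _)))
    (fun n => hb _ fun ω => (hC₂ _).trans ((le_max_right _ _).trans (le_max_left _ _)))
    (fun n n' e => MemLp.toLp_congr _ _ (Eventually.of_forall fun ω =>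
      congrArg conj (hUK.bd.rho_congr e ω)))
    (fun n n' e => MemLp.toLp_congr _ _ (Eventually.of_forall fun ω => hHK.bd.rho_congr e ω))
    (w := hw.toLp _) (w' := hw'.toLp _)
    (fun y => by
      simp only [pre3_inner, Complex.conj_conj]
      exact h.tendsto_weak hU1 (Lp.memLp y))
    (fun y => by
      simp only [pre3_inner]
      have h1 := h.tendsto_weak hH1.conj (Lp.memLp y)
      rwa [integral_congr_ae (g := fun ω => conj ((P[H|cyl A (GamOn L ∅)]) ω) * y ω) (by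
        filter_upwards [condExp_conj (m := cyl A (GamOn L ∅)) (hH0.integrable le_rfl)] with ω hω
        rw [hω])] at h1)
  simp only [pre3_inner'] at key
  rw [tendsto_nhds_unique (h.pl _ (hU1.mul hH1)) key]
  simp_rw [mul_comm ((P[U|cyl A (GamOn L ∅)]) _)]
  exact integral_condExp_mul hm (hH0.integrable le_rfl) hU0.condExp

end Crest.Agent.R069
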