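import Crest.Agent.R069.Trunc

/-! From non-vanishing correlations to relations in the character module. -/

set_option autoImplicit false
open MeasureTheory Filter Topology
open scoped ENNReal ComplexConjugate

namespace Crest.Agent.R069
set_option linter.unusedSectionVars false

variable {Ω : Type*} {m0 : MeasurableSpace Ω} {Q : Measure Ω} [IsProbabilityMeasure Q]
  {M : Type*} [AddCommGroup M] {rep : M → Ω → Circle}

lemma CharMod.rep_zero (h : CharMod Q rep) : rep 0 ∈ constSub Q := by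
  have h1 := (constSub Q).inv_mem (h.add 0 0)
  simpa using h1

lemma CharMod.rep_sub (h : CharMod Q rep) (a b : M) :
    rep (a - b) * (rep a * (rep b)⁻¹)⁻¹ ∈ constSub Q := by
  have h1 := (constSub Q).inv_mem (h.add (a - b) b)
  rw [sub_add_cancel] at h1
  convert h1 using 1
  simp only [mul_inv_rev, inv_inv]
  rw [mul_assoc]

lemma rel_int_eq_zero {χ χ' : Ω → Circle} (h : χ * χ'⁻¹ ∈ constSub Q)
    (h0 : ∫ ω, cf χ ω ∂Q = 0) : ∫ ω, cf χ' ω ∂Q = 0 := by
  obtain ⟨c, hc⟩ := h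
  have h1 : ∫ ω, cf χ ω ∂Q = ∫ ω, (c : ℂ) * cf χ' ω ∂Q := by
    refine integral_congr_ae ?_
    filter_upwards [hc] with ω hω
    rw [← hω]
    simp [cf]
  rw [h1, integral_const_mul] at h0
  exact (mul_eq_zero.1 h0).resolve_left (Circle.coe_ne_zero c)

lemma CharMod.ip_eq_zero (h : CharMod Q rep) {a b : M} (hab : a ≠ b) :
    ip Q (cf (rep a)) (cf (rep b)) = 0 := by
  have h1 := rel_int_eq_zero (h.rep_sub a b) (h.mean0 _ (sub_ne_zero.2 hab))
  rw [← h1]
  refine integral_congr_ae (Eventually.of_forall fun ω => ?_)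
  simp only [cf, Pi.mul_apply, Pi.inv_apply, Circle.coe_mul, Circle.coe_inv_eq_conj]

lemma rel_rep_sum (h : CharMod Q rep) {ι : Type*} (s : Finset ι) (a : ι → M) :
    rep (∑ i ∈ s, a i) * (∏ i ∈ s, rep (a i))⁻¹ ∈ constSub Q := by
  classical
  induction s using Finset.induction_on with
  | empty => simpa using h.rep_zero
  | insert i s hi ih =>
    rw [Finset.sum_insert hi, Finset.prod_insert hi]
    have h1 := (constSub Q).mul_mem (h.add (a i) (∑ j ∈ s, a j)) ih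
    convert h1 using 1
    simp only [mul_inv, mul_assoc, inv_mul_cancel_left]

lemma CharMod.sum_eq_zero (h : CharMod Q rep) {ι : Type*} (s : Finset ι) (a : ι → M)
    (hne : ∫ ω, ∏ i ∈ s, cf (rep (a i)) ω ∂Q ≠ 0) : ∑ i ∈ s, a i = 0 := by
  by_contra h0
  apply hne
  rw [← rel_int_eq_zero (rel_rep_sum h s a) (h.mean0 _ h0)]
  refine integral_congr_ae (Eventually.of_forall fun ω => ?_)
  simp only [cf, Finset.prod_apply]
  exact (map_prod Circle.coeHom _ s).symm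

/-- one truncation step -/
lemma rel_step (h : CharMod Q rep) {t : M → M} (ht : Function.Injective t) {F G : Ω → ℂ}
    {C D δ : ℝ} (hC : 0 < C) (hD : 0 < D) (hδ : 0 < δ) (hFm : AEStronglyMeasurable F Q)
    (hFC : ∀ᵐ ω ∂Q, ‖F ω‖ ≤ C) (hGm : AEStronglyMeasurable G Q) (hGD : ∀ᵐ ω ∂Q, ‖G ω‖ ≤ D)
    (O : Finset M)
    (hO : ∫ ω, ‖F ω‖ ^ 2 ∂Q - ∑ a ∈ O, ‖ip Q F (cf (rep (t a)))‖ ^ 2 < (δ / 2 / D) ^ 2)
    (hb : δ ≤ ‖∫ ω, F ω * G ω ∂Q‖) :
    ∃ a ∈ O, δ / (2 * C * (O.card + 1)) ≤ ‖∫ ω, cf (rep (t a)) ω * G ω ∂Q‖ := by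
  have bF : Bdd Q m0 F := ⟨hFm, C, hFC⟩
  have bG : Bdd Q m0 G := ⟨hGm, D, hGD⟩
  have be : ∀ a, Bdd Q m0 (cf (rep (t a))) := fun a => (Bd.cf (h.meas _)).bdd
  have bT : Bdd Q m0 (fun ω => ∑ a ∈ O, ip Q F (cf (rep (t a))) * cf (rep (t a)) ω) :=
    Bdd.sum O fun a _ => (Bdd.const _).mul (be a)
  rw [← integral_norm_sub_sum_sq O (fun a => rep (t a)) (fun a _ => h.meas _)
    (fun a _ b _ hab => h.ip_eq_zero (ht.ne hab)) bF] at hO
  have h1 := norm_integral_mul_sq_le ((bF.sub bT).memLp le_rfl 2) (bG.memLp le_rfl 2)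
  have h2 : ∫ ω, ‖G ω‖ ^ 2 ∂Q ≤ D ^ 2 := by
    have : ∫ ω, ‖G ω‖ ^ 2 ∂Q ≤ ∫ _, D ^ 2 ∂Q :=
      integral_mono_ae ((bG.memLp le_rfl 2).integrable_norm_pow (by norm_num)) (integrable_const _)
        (by filter_upwards [hGD] with ω hω using pow_le_pow_left₀ (norm_nonneg _) hω 2)
    simpa using this
  have h3 : ‖∫ ω, (F ω - ∑ a ∈ O, ip Q F (cf (rep (t a))) * cf (rep (t a)) ω) * G ω ∂Q‖ ≤ δ / 2 := by
    refine le_of_sq_le_sq ?_ (by positivity)
    refine h1.trans ((mul_le_mul hO.le h2 (integral_nonneg fun ω => by positivity)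
      (by positivity)).trans (le_of_eq ?_))
    field_simp
  have h4 : ∫ ω, (F ω - ∑ a ∈ O, ip Q F (cf (rep (t a))) * cf (rep (t a)) ω) * G ω ∂Q =
      ∫ ω, F ω * G ω ∂Q - ∑ a ∈ O, ip Q F (cf (rep (t a))) * ∫ ω, cf (rep (t a)) ω * G ω ∂Q := by
    simp_rw [sub_mul]
    rw [integral_sub ((bF.mul bG).integrable le_rfl) ((bT.mul bG).integrable le_rfl)]
    simp_rw [Finset.sum_mul, mul_assoc]
    rw [integral_finsetSum _ fun a _ => (((be a).mul bG).integrable le_rfl).const_mul _]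
    simp_rw [integral_const_mul]
  have h5 : ∀ a, ‖ip Q F (cf (rep (t a)))‖ ≤ C := fun a => by
    have := norm_integral_le_of_norm_le_const (μ := Q)
      (f := fun ω => F ω * conj (cf (rep (t a)) ω)) (C := C)
      (by filter_upwards [hFC] with ω hω using by simpa [cf] using hω)
    simpa [ip] using this
  by_contra hcon
  push Not at hcon
  have h6 : ‖∑ a ∈ O, ip Q F (cf (rep (t a))) * ∫ ω, cf (rep (t a)) ω * G ω ∂Q‖ ≤
      O.card * (C * (δ / (2 * C * (O.card + 1)))) := by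
    refine (norm_sum_le _ _).trans ?_
    rw [← nsmul_eq_mul]
    refine Finset.sum_le_card_nsmul _ _ _ fun a ha => ?_
    rw [norm_mul]
    exact mul_le_mul (h5 a) (hcon a ha).le (norm_nonneg _) hC.le
  have h7 : O.card * (C * (δ / (2 * C * (O.card + 1)))) < δ / 2 := by
    rw [show O.card * (C * (δ / (2 * C * (O.card + 1)))) = δ / 2 * (O.card / (O.card + 1)) by
      field_simp]
    refine mul_lt_of_lt_one_right (by positivity) ?_
    rw [div_lt_one (by positivity)]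
    linarith
  rw [h4] at h3
  have h8 := norm_sub_norm_le (∫ ω, F ω * G ω ∂Q)
    (∑ a ∈ O, ip Q F (cf (rep (t a))) * ∫ ω, cf (rep (t a)) ω * G ω ∂Q)
  linarith

/-- Sequential truncation.  Prove by induction on a finset `s` of slots: for every `δ > 0` there
are `O` and `δ' > 0` such that for all `b` and all measurable `W` with `‖W‖ ≤ 1`,
`δ ≤ ‖∫ W ∏_{i∈s} F i (b i)‖` implies `δ' ≤ ‖∫ W ∏_{i∈s} rep (t (b i) (σ i))‖` for some
`σ i ∈ O i` (step: replace one `F i (b i)` by its truncation, using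
`integral_norm_sub_sum_sq` and Cauchy–Schwarz, pick a large term, absorb it into `W`). -/
theorem CharMod.exists_relation {V : Type*} [Fintype V] (h : CharMod Q rep) (t : ℕ → M → M)
    (ht : ∀ n, Function.Injective (t n)) (F : V → ℕ → Ω → ℂ) (C : ℝ)
    (hFm : ∀ i n, AEStronglyMeasurable (F i n) Q) (hFC : ∀ i n, ∀ᵐ ω ∂Q, ‖F i n ω‖ ≤ C)
    (p : V → M → Prop)
    (happ : ∀ i, ∀ ε > 0, ∃ O : Finset M, (∀ a ∈ O, p i a) ∧ ∀ n,
      ∫ ω, ‖F i n ω‖ ^ 2 ∂Q - ∑ a ∈ O, ‖ip Q (F i n) (cf (rep (t n a)))‖ ^ 2 < ε)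
    {δ : ℝ} (hδ : 0 < δ) :
    ∃ O : V → Finset M, (∀ i, ∀ a ∈ O i, p i a) ∧ ∀ b : V → ℕ,
      δ ≤ ‖∫ ω, ∏ i, F i (b i) ω ∂Q‖ →
        ∃ σ : V → M, (∀ i, σ i ∈ O i) ∧ ∑ i, t (b i) (σ i) = 0 := by
  classical
  have hC : (0 : ℝ) < max C 1 := lt_max_of_lt_right one_pos
  have hFC' : ∀ i n, ∀ᵐ ω ∂Q, ‖F i n ω‖ ≤ max C 1 := fun i n => by
    filter_upwards [hFC i n] with ω hω using hω.trans (le_max_left _ _)
  have key : ∀ s : Finset V, ∀ δ : ℝ, 0 < δ → ∃ O : V → Finset M, (∀ i, ∀ a ∈ O i, p i a) ∧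
      ∃ δ' : ℝ, 0 < δ' ∧ ∀ (b : V → ℕ) (W : Ω → ℂ), AEStronglyMeasurable W Q →
        (∀ ω, ‖W ω‖ ≤ 1) → δ ≤ ‖∫ ω, W ω * ∏ i ∈ s, F i (b i) ω ∂Q‖ →
        ∃ σ : V → M, (∀ i ∈ s, σ i ∈ O i) ∧
          δ' ≤ ‖∫ ω, W ω * ∏ i ∈ s, cf (rep (t (b i) (σ i))) ω ∂Q‖ := by
    intro s
    induction s using Finset.induction_on with
    | empty =>
      exact fun δ hδ => ⟨fun _ => ∅, by simp, δ, hδ, fun b W _ _ h1 => ⟨0, by simp, by simpa using h1⟩⟩
    | insert j s hj ih =>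
      intro δ hδ
      obtain ⟨Oj, hOj, hOj'⟩ := happ j ((δ / 2 / max C 1 ^ s.card) ^ 2) (by positivity)
      obtain ⟨O, hO, δ', hδ', H⟩ := ih (δ / (2 * max C 1 * (Oj.card + 1))) (by positivity)
      refine ⟨Function.update O j Oj, fun i a ha => ?_, δ', hδ', fun b W hW hW1 hb => ?_⟩
      · by_cases hi : i = j
        · subst hi; rw [Function.update_self] at ha; exact hOj a ha
        · rw [Function.update_of_ne hi] at ha; exact hO i a ha
      have hGm : AEStronglyMeasurable (fun ω => W ω * ∏ i ∈ s, F i (b i) ω) Q :=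
        hW.mul (Finset.aestronglyMeasurable_fun_prod s fun i _ => hFm i (b i))
      have hGD : ∀ᵐ ω ∂Q, ‖W ω * ∏ i ∈ s, F i (b i) ω‖ ≤ max C 1 ^ s.card := by
        filter_upwards [(eventually_all_finset s).2 fun i _ => hFC' i (b i)] with ω hω
        rw [norm_mul, norm_prod, ← Finset.prod_const]
        exact (mul_le_of_le_one_left (Finset.prod_nonneg fun i _ => norm_nonneg _) (hW1 ω)).trans
          (Finset.prod_le_prod (fun i _ => norm_nonneg _) hω)
      obtain ⟨a, ha, ha'⟩ := rel_step h (ht (b j)) hC (pow_pos hC _) hδ (hFm j (b j))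
        (hFC' j (b j)) hGm hGD Oj (hOj' (b j)) (by
          simpa only [Finset.prod_insert hj, mul_left_comm (W _)] using hb)
      obtain ⟨σ, hσ, hσ'⟩ := H b (fun ω => cf (rep (t (b j) a)) ω * W ω)
        ((h.meas _).aestronglyMeasurable.mul hW) (fun ω => by simpa [cf] using hW1 ω)
        (by simpa only [mul_assoc] using ha')
      refine ⟨Function.update σ j a, fun i hi => ?_, ?_⟩
      · by_cases hij : i = j
        · subst hij; simpa using ha
        · rw [Function.update_of_ne hij, Function.update_of_ne hij]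
          exact hσ i ((Finset.mem_insert.1 hi).resolve_left hij)
      · refine hσ'.trans (le_of_eq ?_)
        congr 2
        funext ω
        rw [Finset.prod_insert hj, Function.update_self, mul_left_comm, ← mul_assoc]
        congr 1
        refine Finset.prod_congr rfl fun i hi => ?_
        rw [Function.update_of_ne (ne_of_mem_of_not_mem hi hj)]
  obtain ⟨O, hO, δ', hδ', H⟩ := key Finset.univ δ hδ
  refine ⟨O, hO, fun b hb => ?_⟩
  obtain ⟨σ, hσ, hσ'⟩ := H b (fun _ => 1) aestronglyMeasurable_const (fun _ => by simp)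
    (by simpa using hb)
  refine ⟨σ, fun i => hσ i (Finset.mem_univ _), h.sum_eq_zero _ _ fun h0 => ?_⟩
  simp only [one_mul, h0, norm_zero] at hσ'
  linarith

end Crest.Agent.R069
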