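import Crest.Agent.R069.Core
import Crest.Agent.R069.Pre2
import Crest.Agent.R069.Pre3
import Crest.Agent.R069.Limit

/-! The induction on the number of points. -/

set_option autoImplicit false
open MeasureTheory Filter Topology
open scoped ENNReal ComplexConjugate

namespace Crest.Agent.R069
set_option linter.unusedSectionVars false

section
variable {L V A κ : Type} [AddCommGroup L] [Countable L] [Fintype V] [DecidableEq V]
  [MeasurableSpace A] [Fintype A] [Nonempty A] [DiscreteMeasurableSpace A]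
  {v0 : V} {vec : V → L} {P : Measure (Gam L → A)} [IsProbabilityMeasure P]
  {𝒰 : Ultrafilter κ} {b : κ → V → ℕ}
  {𝒲 : Ultrafilter (ℚ → κ)} {ev : κ → L →+ ℤ}

theorem PreArr.arr (h : PreArr v0 vec P 𝒰 b 𝒲 ev) : Arr v0 vec P 𝒰 b :=
  ⟨h.card, h.vec0, h.inj, h.inv, h.spr, h.top, h.disj, h.mix, h.lim, h.div⟩

end

variable {Ω : Type*} [m0 : MeasurableSpace Ω] {μ : Measure Ω} [IsProbabilityMeasure μ]
  {T : Ω ≃ᵐ Ω}

/-- functions of a finite name, one of them of mean zero -/
theorem tendsto_zero_of_mean_zero (hT : MeasurePreserving T μ μ) {V : Type} [Fintype V]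
    (hV : 3 ≤ Fintype.card V) (hmix : MixLe μ T (Fintype.card V - 1)) {A : Type}
    [MeasurableSpace A] [Fintype A] [Nonempty A] [DiscreteMeasurableSpace A] (name : Ω → A)
    (hname : Measurable name) (G : V → A → ℂ) (l : V) (h0 : ∫ x, G l (name x) ∂μ = 0)
    {κ : Type} (𝒰 : Ultrafilter κ) (c : κ → V → ℤ)
    (hc : ∀ i j, i ≠ j → Tendsto (fun n => |c n i - c n j|) 𝒰 atTop) :
    Tendsto (fun n => ∫ x, ∏ i, G i (name (zp T (c n i) x)) ∂μ) 𝒰 (𝓝 0) := by
  classical
  obtain ⟨v0, hv0⟩ : ∃ v0, l ≠ v0 := by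
    have : Nontrivial V := Fintype.one_lt_card_iff_nontrivial.1 (by omega)
    obtain ⟨v, hv⟩ := exists_ne l
    exact ⟨v, hv.symm⟩
  obtain ⟨P, hP, b, 𝒲, ev, hpre, hthin, hb⟩ := exists_preArr hT v0 hV hmix name hname 𝒰 c hc
  have h := hpre.arr
  let g : V → (Gam (V → ℤ) → A) → ℂ := fun i ω => G i (ω 0)
  have hg : ∀ i, Bd (cyl A (GamOn (V → ℤ) ∅)) (g i) := fun i =>
    ⟨(measurable_of_countable (G i)).comp
      (measurable_cylinderEvent_apply (X := fun _ => A) zero_mem_GamOn),
      ∑ a, ‖G i a‖, fun ω => Finset.single_le_sum (f := fun a => ‖G i a‖)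
        (fun _ _ => norm_nonneg _) (Finset.mem_univ _)⟩
  have hm : ∀ n : ℤ, @Measurable _ _ (cyl A (GamOn (V → ℤ) ∅)) (cyl A (GamOn (V → ℤ) ∅))
      (sh (tz (V → ℤ) n)) := fun n => by
    have := measurable_sh_cyl (A := A) (tz (V → ℤ) n) (GamOn (V → ℤ) ∅)
    rwa [shS_GamOn (tz_mem_GamOn n)] at this
  have h1 : Lam P (vecZ v0) 0 g = 0 := h.core 0 hg hv0 (by
    rw [hthin _ (hg l)]
    simpa [g] using h0)
  have h2 := h.lim 0 g hg
  rw [h1] at h2
  refine h2.congr fun n => ?_
  rw [hthin _ (Bd.prod _ fun i _ => (hg i).comp (hm _)),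
    ← integral_zp hT (c n v0 - b n v0)]
  refine integral_congr_ae (Eventually.of_forall fun x => Finset.prod_congr rfl fun i _ => ?_)
  have : c n i = b n i + (c n v0 - b n v0) := by have := hb n i v0; omega
  simp [g, sh, this, zp_add]

theorem MixLe.succ (hT : MeasurePreserving T μ μ) {k : ℕ} (hk : 2 ≤ k) (h : MixLe μ T k) :
    MixSet μ T (k + 1) := by
  classical
  intro ι _ hι f hf κ 𝓕 c hc
  have hfb : ∀ i, Bd m0 (f i) := fun i => by
    obtain ⟨s, hs, e⟩ := hf i
    rw [e]; exact Bd.indicator hs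
  by_cases hι' : Fintype.card ι ≤ k
  · exact h ι hι' f hfb κ 𝓕 c hc
  have hcard : Fintype.card ι = k + 1 := by omega
  have : Nonempty ι := Fintype.card_pos_iff.1 (by omega)
  obtain ⟨l⟩ := this
  choose s hs hfs using hf
  let name : Ω → ι → Bool := fun x i => decide (x ∈ s i)
  have hname : Measurable name := measurable_pi_lambda _ fun i =>
    measurable_to_bool (by simpa [name, Set.preimage] using hs i)
  let e : ℂ := ∫ x, f l x ∂μ
  let G : ι → (ι → Bool) → ℂ := fun i a => (if a i then 1 else 0) - if i = l then e else 0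
  have hG : ∀ i x, G i (name x) = f i x - if i = l then e else 0 := fun i x => by
    by_cases hx : x ∈ s i <;> simp [G, name, hfs, hx]
  have hmp := measurePreserving_zp hT
  rw [tendsto_iff_ultrafilter]
  intro 𝒰 h𝒰
  have h1 := tendsto_zero_of_mean_zero hT (V := ι) (by omega) (by simpa [hcard] using h) name hname
    G l (by
      simp only [hG, if_true]
      rw [integral_sub ((hfb l).bdd.integrable le_rfl) (integrable_const _)]
      simp [e]) 𝒰 c fun i j hij => (hc i j hij).mono_left h𝒰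
  have h2 := h {i // i ≠ l} (by simp [hcard]) (fun i => f i) (fun i => hfb i) κ 𝒰
    (fun n i => c n i) fun i j hij => (hc i j fun e => hij (Subtype.ext e)).mono_left h𝒰
  have h3 := h1.add (h2.const_mul e)
  have hsplit : ∀ F : ι → ℂ, ∏ i, F i = F l * ∏ i : {i // i ≠ l}, F i := fun F => by
    rw [← Finset.mul_prod_erase _ _ (Finset.mem_univ l)]
    congr 1
    exact Finset.prod_subtype _ (by simp) F
  rw [zero_add] at h3
  rw [hsplit]
  refine h3.congr fun n => ?_
  have hb : ∀ i, Bd m0 (fun x => f i (zp T (c n i) x)) := fun i => (hfb i).comp (hmp _).measurable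
  have hp : Bd m0 (fun x => ∏ i : {i // i ≠ l}, f i (zp T (c n i) x)) :=
    Bd.prod _ fun i _ => hb i
  rw [← integral_const_mul, ← integral_add]
  · refine integral_congr_ae (Eventually.of_forall fun x => ?_)
    simp only [hG]
    rw [hsplit, hsplit (fun i => f i (zp T (c n i) x))]
    have : ∏ i : {i // i ≠ l}, (f i (zp T (c n i) x) - if (i : ι) = l then e else 0) =
        ∏ i : {i // i ≠ l}, f i (zp T (c n i) x) :=
      Finset.prod_congr rfl fun i _ => by simp [i.2]
    rw [this]
    simp only [if_true]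
    ring
  · simp only [hG]
    exact (Bd.prod _ fun i _ => (hb i).sub (Bd.const _)).bdd.integrable le_rfl
  · exact ((Bd.const e).mul hp).bdd.integrable le_rfl

lemma MixLe.mono {p q : ℕ} (h : MixLe μ T q) (hpq : p ≤ q) : MixLe μ T p :=
  fun ι _ hι => h ι (hι.trans hpq)

theorem mixLe_all (hT : MeasurePreserving T μ μ)
    (hmix : ∀ A B : Set Ω, MeasurableSet A → MeasurableSet B →
      Tendsto (fun n : ℕ => μ (A ∩ (T^[n]) ⁻¹' B)) atTop (𝓝 (μ A * μ B))) (p : ℕ) :
    MixLe μ T p := by
  have : ∀ k, MixLe μ T (k + 2) := fun k => by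
    induction k with
    | zero => exact (mixSet_two hT hmix).mixLe hT
    | succ k ih => exact (ih.succ hT (by omega)).mixLe hT
  exact (this p).mono (by omega)

end Crest.Agent.R069
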