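import Crest.Agent.R069.Emb

/-! From a self-correspondence to an endomorphism of an abelian group. -/

set_option autoImplicit false
open MeasureTheory Filter Topology
open scoped ENNReal ComplexConjugate

namespace Crest.Agent.R069
set_option linter.unusedSectionVars false

universe u

lemma tau_norm_ip {Ω : Type u} {m0 : MeasurableSpace Ω} {Q : Measure Ω} {χ χ' : Ω → Circle}
    (h : χ⁻¹ * χ' ∈ constSub Q) (f : Ω → ℂ) : ‖ip Q f (cf χ')‖ = ‖ip Q f (cf χ)‖ := by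
  obtain ⟨c, hc⟩ := h
  have e : ip Q f (cf χ') = conj (c : ℂ) * ip Q f (cf χ) := by
    unfold ip
    rw [← integral_const_mul]
    refine integral_congr_ae ?_
    filter_upwards [hc] with ω hω
    have h1 : χ' ω = c * χ ω := by
      rw [← hω, Pi.mul_apply, Pi.inv_apply, mul_comm, mul_inv_cancel_left]
    simp only [cf, h1, Circle.coe_mul, map_mul]
    ring
  rw [e, norm_mul, Complex.norm_conj, Circle.norm_coe, one_mul]

/-- Let `π : (Ω → Circle) →* (Ω → Circle) ⧸ constSub Q`, `M = Additive (closure (π '' S))`,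
`rep a` = a chosen representative of `a` in `X`.  For `a ∈ M` there is `(u, v) ∈ H` with
`π u = a`, `π v ∈ M` (closure induction), and `π v` is determined by `a`; put `τ a = π v`. -/
theorem exists_tau {Ω : Type u} {κ : Type*} {m0 : MeasurableSpace Ω} {Q : Measure Ω}
    [IsProbabilityMeasure Q] (X : Subgroup (Ω → Circle)) (hXm : ∀ χ ∈ X, Measurable (cf χ))
    (hX : ∀ χ ∈ X, χ ∈ constSub Q ∨ ∫ ω, cf χ ω ∂Q = 0) {S : Set (Ω → Circle)} (hS : S ⊆ X)
    {F F' : κ → Ω → ℂ} (hE : Emb Q Q S S F F') :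
    ∃ (M : Type u) (_ : AddCommGroup M) (rep : M → Ω → Circle) (τ : Module.End ℤ M)
      (S' : Set M), CharMod Q rep ∧ Function.Injective τ ∧
      (∀ σ ∈ S, ∃ a ∈ S', rep a * σ⁻¹ ∈ constSub Q) ∧
      ∀ a ∈ S', τ a ∈ S' ∧
        ∀ x, ‖ip Q (F' x) (cf (rep (τ a)))‖ = ‖ip Q (F x) (cf (rep a))‖ := by
  obtain ⟨H, hH, hHS⟩ := hE
  let π := QuotientGroup.mk' (constSub Q)
  have hπ : ∀ {χ χ' : Ω → Circle}, π χ = π χ' ↔ χ⁻¹ * χ' ∈ constSub Q := QuotientGroup.eq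
  let N : Subgroup ((Ω → Circle) ⧸ constSub Q) := Subgroup.closure (π '' S)
  have hrep : ∀ a : N, ∃ χ ∈ X, π χ = a := fun a =>
    (show N ≤ X.map π from (Subgroup.closure_le _).2 (Set.image_mono hS)) a.2
  have hτ : ∀ a : N, ∃ b : N, ∃ p ∈ H, π p.1 = a ∧ π p.2 = b := by
    rintro ⟨a, ha⟩
    induction ha using Subgroup.closure_induction with
    | mem a ha =>
      obtain ⟨σ, hσ, rfl⟩ := ha
      obtain ⟨σ', h1, h2, -⟩ := hHS σ hσ
      exact ⟨⟨π σ', Subgroup.subset_closure ⟨σ', h1, rfl⟩⟩, (σ, σ'), h2, rfl, rfl⟩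
    | one => exact ⟨1, 1, H.one_mem, map_one π, map_one π⟩
    | mul a a' _ _ ih ih' =>
      obtain ⟨b, p, h1, h2, h3⟩ := ih
      obtain ⟨b', p', h1', h2', h3'⟩ := ih'
      exact ⟨b * b', p * p', H.mul_mem h1 h1', (map_mul π _ _).trans (congrArg₂ (· * ·) h2 h2'),
        (map_mul π _ _).trans (congrArg₂ (· * ·) h3 h3')⟩
    | inv a _ ih =>
      obtain ⟨b, p, h1, h2, h3⟩ := ih
      exact ⟨b⁻¹, p⁻¹, H.inv_mem h1, (map_inv π _).trans (congrArg (·⁻¹) h2),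
        (map_inv π _).trans (congrArg (·⁻¹) h3)⟩
  have huniq : ∀ p ∈ H, ∀ q ∈ H, π p.1 = π q.1 ↔ π p.2 = π q.2 := fun p hp q hq => by
    rw [hπ, hπ]
    exact hH (p⁻¹ * q) (H.mul_mem (H.inv_mem hp) hq)
  choose rep hrepX hrep using hrep
  choose t p hpH hp1 hp2 using hτ
  have ht : ∀ (a : N), ∀ q ∈ H, π q.1 = a → (t a : (Ω → Circle) ⧸ constSub Q) = π q.2 :=
    fun a q hq h => (hp2 a).symm.trans ((huniq _ (hpH a) q hq).1 ((hp1 a).trans h.symm))
  let t' : N →* N := MonoidHom.mk' t fun a b => Subtype.ext (by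
    rw [ht (a * b) (p a * p b) (H.mul_mem (hpH a) (hpH b))
      ((map_mul π _ _).trans (congrArg₂ (· * ·) (hp1 a) (hp1 b)))]
    exact (map_mul π _ _).trans (congrArg₂ (· * ·) (hp2 a) (hp2 b)))
  refine ⟨Additive N, inferInstance, fun a => rep a.toMul,
    (MonoidHom.toAdditive t').toIntLinearMap,
    {a | ∃ σ ∈ S, π σ = (a.toMul : N)}, ⟨fun a => hXm _ (hrepX _), fun a b => ?_, fun a ha => ?_⟩,
    fun a b hab => ?_, fun σ hσ => ?_, ?_⟩
  · rw [mul_comm, ← hπ, map_mul, hrep, hrep, hrep]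
    rfl
  · refine (hX _ (hrepX _)).resolve_left fun h => ha ?_
    have h1 : π (rep a.toMul) = 1 := (QuotientGroup.eq_one_iff _).2 h
    rw [hrep] at h1
    exact Additive.toMul.injective (Subtype.ext h1)
  · have h1 : t a.toMul = t b.toMul := hab
    refine Additive.toMul.injective (Subtype.ext ?_)
    rw [← hp1, ← hp1, huniq _ (hpH _) _ (hpH _), hp2, hp2, h1]
  · refine ⟨Additive.ofMul ⟨π σ, Subgroup.subset_closure ⟨σ, hσ, rfl⟩⟩, ⟨σ, hσ, rfl⟩, ?_⟩
    rw [mul_comm, ← hπ, hrep]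
    rfl
  · rintro a ⟨σ, hσ, ha⟩
    obtain ⟨σ', h1, h2, h3⟩ := hHS σ hσ
    have h4 := ht a.toMul (σ, σ') h2 ha
    refine ⟨⟨σ', h1, h4.symm⟩, fun x => ?_⟩
    rw [tau_norm_ip (hπ.1 (ha.trans (hrep _).symm)), h3]
    exact tau_norm_ip (hπ.1 (h4.symm.trans (hrep _).symm)) _

end Crest.Agent.R069
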