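import Crest.Agent.R069.CE3

/-! Truncation of orthonormal expansions. -/

set_option autoImplicit false
open MeasureTheory Filter Topology
open scoped ENNReal ComplexConjugate

namespace Crest.Agent.R069
set_option linter.unusedSectionVars false

variable {Ω : Type*} {m0 : MeasurableSpace Ω} {Q : Measure Ω} [IsProbabilityMeasure Q]

lemma norm_ip_congr_const {F : Ω → ℂ} {χ χ' : Ω → Circle} (h : χ * χ'⁻¹ ∈ constSub Q) :
    ‖ip Q F (cf χ)‖ = ‖ip Q F (cf χ')‖ := by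
  obtain ⟨c, hc⟩ := h
  have : ip Q F (cf χ) = conj (c : ℂ) * ip Q F (cf χ') := by
    unfold ip
    rw [← integral_const_mul]
    refine integral_congr_ae ?_
    filter_upwards [hc] with ω hω
    have h1 : χ ω = c * χ' ω := by
      rw [← hω]; simp
    simp only [cf, h1, Circle.coe_mul, map_mul]
    ring
  rw [this, norm_mul]
  simp

lemma trunc_ip_sub_left {F G H : Ω → ℂ} (hF : Bdd Q m0 F) (hG : Bdd Q m0 G) (hH : Bdd Q m0 H) :
    ip Q (fun ω => F ω - G ω) H = ip Q F H - ip Q G H := by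
  unfold ip
  rw [← integral_sub ((hF.mul hH.conj).integrable le_rfl) ((hG.mul hH.conj).integrable le_rfl)]
  congr 1; ext ω; ring

lemma trunc_ip_conj (F G : Ω → ℂ) : ip Q G F = conj (ip Q F G) := by
  unfold ip
  rw [← integral_conj]
  congr 1; ext ω; simp [mul_comm]

lemma trunc_ip_sum_left {ι : Type*} (O : Finset ι) (c : ι → ℂ) {e : ι → Ω → ℂ} {H : Ω → ℂ}
    (he : ∀ i ∈ O, Bdd Q m0 (e i)) (hH : Bdd Q m0 H) :
    ip Q (fun ω => ∑ i ∈ O, c i * e i ω) H = ∑ i ∈ O, c i * ip Q (e i) H := by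
  unfold ip
  simp_rw [Finset.sum_mul, mul_assoc]
  rw [integral_finsetSum _ (fun i hi =>
    (((he i hi).mul hH.conj).integrable le_rfl).const_mul (c i))]
  exact Finset.sum_congr rfl (fun i _ => integral_const_mul _ _)

lemma trunc_ip_self (χ : Ω → Circle) : ip Q (cf χ) (cf χ) = 1 := by
  unfold ip
  have : ∀ ω, cf χ ω * conj (cf χ ω) = 1 := fun ω => by
    simp [cf, Complex.mul_conj, Circle.normSq_coe]
  simp [this]

lemma trunc_ip_cf (χ χ' : Ω → Circle) : ip Q (cf χ) (cf χ') = ∫ ω, cf (χ * χ'⁻¹) ω ∂Q := by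
  unfold ip
  congr 1; ext ω
  simp only [cf, Pi.mul_apply, Pi.inv_apply, Circle.coe_mul, Circle.coe_inv_eq_conj]

/-- Bessel identity for a finite orthonormal family of unimodular functions -/
lemma integral_norm_sub_sum_sq {ι : Type*} (O : Finset ι) (e : ι → Ω → Circle)
    (he : ∀ i ∈ O, Measurable (cf (e i)))
    (ho : ∀ i ∈ O, ∀ j ∈ O, i ≠ j → ip Q (cf (e i)) (cf (e j)) = 0) {F : Ω → ℂ}
    (hF : Bdd Q m0 F) :
    ∫ ω, ‖F ω - ∑ i ∈ O, ip Q F (cf (e i)) * cf (e i) ω‖ ^ 2 ∂Q =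
      ∫ ω, ‖F ω‖ ^ 2 ∂Q - ∑ i ∈ O, ‖ip Q F (cf (e i))‖ ^ 2 := by
  have he' : ∀ i ∈ O, Bdd Q m0 (cf (e i)) := fun i hi => (Bd.cf (he i hi)).bdd
  have hS : Bdd Q m0 (fun ω => ∑ i ∈ O, ip Q F (cf (e i)) * cf (e i) ω) :=
    Bdd.sum O (fun i hi => (Bdd.const _).mul (he' i hi))
  have hD := hF.sub hS
  have h0 : ∀ j ∈ O,
      ip Q (fun ω => F ω - ∑ i ∈ O, ip Q F (cf (e i)) * cf (e i) ω) (cf (e j)) = 0 := by
    intro j hj
    rw [trunc_ip_sub_left hF hS (he' j hj), trunc_ip_sum_left O _ he' (he' j hj),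
      Finset.sum_eq_single_of_mem j hj (fun i hi hij => by rw [ho i hi j hj hij, mul_zero]),
      trunc_ip_self, mul_one, sub_self]
  have h1 : ip Q (fun ω => F ω - ∑ i ∈ O, ip Q F (cf (e i)) * cf (e i) ω)
      (fun ω => F ω - ∑ i ∈ O, ip Q F (cf (e i)) * cf (e i) ω) =
      ip Q F F - ∑ i ∈ O, ((‖ip Q F (cf (e i))‖ ^ 2 : ℝ) : ℂ) := by
    rw [trunc_ip_sub_left hF hS hD, trunc_ip_sum_left O _ he' hD,
      Finset.sum_eq_zero (fun i hi => by
        rw [trunc_ip_conj _ (cf (e i)), h0 i hi, map_zero, mul_zero]),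
      sub_zero, trunc_ip_conj, trunc_ip_sub_left hF hS hF, trunc_ip_sum_left O _ he' hF,
      map_sub, ← trunc_ip_conj, map_sum]
    congr 1
    refine Finset.sum_congr rfl (fun i _ => ?_)
    rw [trunc_ip_conj F (cf (e i)), Complex.mul_conj, Complex.conj_ofReal, Complex.normSq_eq_norm_sq]
  unfold ip at h1
  rw [integral_mul_conj_eq, integral_mul_conj_eq] at h1
  unfold ip
  exact_mod_cast h1

lemma trunc_hilbert {E : Type*} [NormedAddCommGroup E] [InnerProductSpace ℂ E] [CompleteSpace E]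
    {I : Type*} {v : I → E} (hv : Orthonormal ℂ v) (x : E)
    (hx : ∀ ψ : E, (∀ i, inner ℂ ψ (v i) = 0) → inner ℂ ψ x = 0) {ε : ℝ} (hε : 0 < ε) :
    ∃ s : Finset I, ‖x‖ ^ 2 - ∑ i ∈ s, ‖inner ℂ (v i) x‖ ^ 2 < ε := by
  classical
  obtain ⟨w, b, hw, hb⟩ := hv.toSubtypeRange.exists_hilbertBasis_extension
  have h1 := b.hasSum_inner_mul_inner x x
  have h2 : HasSum (fun i : w => ‖inner ℂ (i : E) x‖ ^ 2) (‖x‖ ^ 2) := by
    have h3 := Complex.hasSum_re h1
    convert h3 using 1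
    · ext i
      rw [hb, ← inner_conj_symm x (i : E), Complex.conj_mul']
      norm_cast
    · rw [inner_self_eq_norm_sq_to_K]; norm_cast
  obtain ⟨t, ht⟩ := (h2.eventually (Ioi_mem_nhds (show ‖x‖ ^ 2 - ε < ‖x‖ ^ 2 by linarith))).exists
  have hinj : Function.Injective v := hv.linearIndependent.injective
  refine ⟨(t.map (Function.Embedding.subtype _)).preimage v hinj.injOn, ?_⟩
  rw [Finset.sum_preimage v _ _ (fun e => ‖inner ℂ e x‖ ^ 2), Finset.sum_map]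
  · have ht' : ‖x‖ ^ 2 - ε < ∑ i ∈ t, ‖inner ℂ (i : E) x‖ ^ 2 := ht
    simp only [Function.Embedding.coe_subtype]
    linarith
  · intro e he hr
    obtain ⟨i, _, rfl⟩ := Finset.mem_map.1 he
    rw [hx _ (fun j => ?_)]
    · simp
    · have := b.orthonormal.2 (i := i) (j := ⟨v j, hw ⟨j, rfl⟩⟩)
        (fun h => hr ⟨j, (congrArg Subtype.val h).symm⟩)
      rw [hb] at this
      exact this

lemma trunc_inner_toLp {F G : Ω → ℂ} (hF : MemLp F 2 Q) (hG : MemLp G 2 Q) :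
    inner ℂ (hG.toLp G) (hF.toLp F) = ip Q F G := by
  rw [L2.inner_def, ip]
  refine integral_congr_ae ?_
  filter_upwards [hF.coeFn_toLp, hG.coeFn_toLp] with ω h1 h2
  rw [h1, h2]; simp

/-- Parseval, approximate form.  (In `L²`: `F` is in the closure of the span of `X`; pick one
representative of each class mod constants occurring in an approximating combination; the
orthogonal projection is the best approximation; drop the terms with zero coefficient.) -/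
theorem exists_trunc (X : Subgroup (Ω → Circle)) (hXm : ∀ χ ∈ X, Measurable (cf χ))
    (hX : ∀ χ ∈ X, χ ∈ constSub Q ∨ ∫ ω, cf χ ω ∂Q = 0) {F : Ω → ℂ} (hF : Bdd Q m0 F)
    (hs : InSpan Q X F) {ε : ℝ} (hε : 0 < ε) :
    ∃ O : Finset (Ω → Circle), (∀ χ ∈ O, χ ∈ X ∧ ip Q F (cf χ) ≠ 0) ∧
      (∀ χ ∈ O, ∀ χ' ∈ O, χ ≠ χ' → χ * χ'⁻¹ ∉ constSub Q) ∧
      ∫ ω, ‖F ω‖ ^ 2 ∂Q - ∑ χ ∈ O, ‖ip Q F (cf χ)‖ ^ 2 < ε := by
  classical
  let S : Setoid X := ⟨fun a b => a.1 * b.1⁻¹ ∈ constSub Q,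
    ⟨fun a => by rw [mul_inv_cancel]; exact one_mem _,
     fun {a b} h => by simpa using inv_mem h,
     fun {a b c} h h' => by simpa [mul_assoc] using mul_mem h h'⟩⟩
  let rep : Quotient S → Ω → Circle := fun q => (q.out : X).1
  have hrX : ∀ q, rep q ∈ X := fun q => (q.out : X).2
  have hne : ∀ q q', q ≠ q' → rep q * (rep q')⁻¹ ∉ constSub Q := fun q q' h h' =>
    h (by rw [← q.out_eq, ← q'.out_eq]; exact Quotient.sound h')
  have hm : ∀ q, MemLp (cf (rep q)) 2 Q := fun q => (Bd.cf (hXm _ (hrX q))).bdd.memLp le_rfl 2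
  have hF2 : MemLp F 2 Q := hF.memLp le_rfl 2
  let v : Quotient S → Lp ℂ 2 Q := fun q => (hm q).toLp _
  have hv : Orthonormal ℂ v := by
    rw [orthonormal_iff_ite]
    intro q q'
    rw [trunc_inner_toLp]
    split_ifs with h
    · rw [h, trunc_ip_self]
    · rw [trunc_ip_cf]
      exact (hX _ (mul_mem (hrX q') (inv_mem (hrX q)))).resolve_left (hne q' q (Ne.symm h))
  obtain ⟨s, hs'⟩ := trunc_hilbert hv (hF2.toLp F) (fun ψ hψ => by
    have e : ψ = (Lp.memLp ψ).toLp ψ := (Lp.toLp_coeFn ψ _).symm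
    rw [e, trunc_inner_toLp]
    refine hs ψ (Lp.memLp ψ) (fun χ hχ => ?_)
    have h1 := hψ (Quotient.mk S ⟨χ, hχ⟩)
    rw [e, trunc_inner_toLp] at h1
    have h2 : rep (Quotient.mk S ⟨χ, hχ⟩) * χ⁻¹ ∈ constSub Q := Quotient.mk_out (s := S) ⟨χ, hχ⟩
    have h3 := norm_ip_congr_const (F := ψ) h2
    rw [trunc_ip_conj, h1, map_zero, norm_zero] at h3
    rw [trunc_ip_conj, norm_eq_zero.1 h3.symm, map_zero]) hε
  have hinj : Function.Injective rep := fun q q' h => by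
    by_contra h'
    exact hne q q' h' (by rw [h, mul_inv_cancel]; exact one_mem _)
  refine ⟨(s.map ⟨rep, hinj⟩).filter (fun χ => ip Q F (cf χ) ≠ 0), fun χ hχ => ?_,
    fun χ hχ χ' hχ' h => ?_, ?_⟩
  · obtain ⟨h1, h2⟩ := Finset.mem_filter.1 hχ
    obtain ⟨q, _, rfl⟩ := Finset.mem_map.1 h1
    exact ⟨hrX q, h2⟩
  · obtain ⟨q, _, rfl⟩ := Finset.mem_map.1 (Finset.mem_filter.1 hχ).1
    obtain ⟨q', _, rfl⟩ := Finset.mem_map.1 (Finset.mem_filter.1 hχ').1
    exact hne q q' (fun e => h (by rw [e]))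
  · rw [Finset.sum_filter_of_ne (p := fun χ => ip Q F (cf χ) ≠ 0)
      (f := fun χ => ‖ip Q F (cf χ)‖ ^ 2) (fun χ _ h h' => h (by rw [h']; simp)), Finset.sum_map]
    have h1 : ((‖hF2.toLp F‖ ^ 2 : ℝ) : ℂ) = ((∫ ω, ‖F ω‖ ^ 2 ∂Q : ℝ) : ℂ) := by
      rw [← integral_mul_conj_eq]
      have := trunc_inner_toLp hF2 hF2
      rw [inner_self_eq_norm_sq_to_K] at this
      unfold ip at this
      rw [← this]; norm_cast
    have h2 : ‖hF2.toLp F‖ ^ 2 = ∫ ω, ‖F ω‖ ^ 2 ∂Q := by exact_mod_cast h1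
    rw [h2] at hs'
    simp only [v, trunc_inner_toLp] at hs'
    exact hs'

end Crest.Agent.R069
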